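import Vale.Agent.P095.General.Fair.Data
import Vale.Agent.P095.General.Core.Walk

/-!
The estimates for the hyperbolic tangent of the chaos polynomial in the limit of groups of blocks.
-/

noncomputable section

open Finset Filter Topology
open scoped BoundedContinuousFunction

namespace Vale.Agent.P095.General.Fair

attribute [local instance] CStarAlgebra.spectralOrder CStarAlgebra.spectralOrderedRing

universe u v

lemma abs_tanh_sub_le (x y : ℝ) : |Real.tanh x - Real.tanh y| ≤ |x - y| := by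
  have h := convex_univ.norm_image_sub_le_of_norm_hasDerivWithin_le (f := Real.tanh)
    (f' := fun x => 1 - Real.tanh x ^ 2) (C := 1)
    (fun u _ => (Core.tanh_facts u).1.hasDerivWithinAt) (fun u _ => by
      have := (sq_le_one_iff_abs_le_one _).2 (Core.tanh_facts u).2
      rw [Real.norm_eq_abs, abs_le]
      constructor <;> nlinarith [sq_nonneg (Real.tanh u)]) (Set.mem_univ y) (Set.mem_univ x)
  simpa using h

lemma continuous_tanh_mul (k : ℝ) : Continuous fun s : ℝ => Real.tanh (k * s) :=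
  (continuous_iff_continuousAt.2 fun x => (Core.tanh_facts x).1.continuousAt).comp (by fun_prop)

lemma sa_sq {M : Type u} [CStarAlgebra M] {x : M} (hx : IsSelfAdjoint x) : IsSelfAdjoint (x * x) :=
  (hx.commute_iff hx).1 (Commute.refl x)

/-- In a commutative algebra the hyperbolic tangent is Lipschitz in squares. -/
lemma tanh_sq_le {M : Type u} [CStarAlgebra M] (comm : ∀ x y : M, x * y = y * x) (k : ℝ) {x y : M}
    (hx : IsSelfAdjoint x) (hy : IsSelfAdjoint y) :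
    0 ≤ (k ^ 2) • ((x - y) * (x - y)) -
      (cfc (fun s => Real.tanh (k * s)) x - cfc (fun s => Real.tanh (k * s)) y) *
        (cfc (fun s => Real.tanh (k * s)) x - cfc (fun s => Real.tanh (k * s)) y) := by
  let : CommCStarAlgebra M := { ‹CStarAlgebra M› with mul_comm := comm }
  set a := cfc (fun s => Real.tanh (k * s)) x with ha
  set b := cfc (fun s => Real.tanh (k * s)) y with hb
  have hasa : IsSelfAdjoint a := cfc_predicate _ _
  have hbsa : IsSelfAdjoint b := cfc_predicate _ _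
  have hsa : IsSelfAdjoint ((k ^ 2) • ((x - y) * (x - y)) - (a - b) * (a - b)) :=
    ((IsSelfAdjoint.all _).smul (sa_sq (hx.sub hy))).sub (sa_sq (hasa.sub hbsa))
  rw [StarOrderedRing.nonneg_iff_spectrum_nonneg (R := ℝ) _ hsa]
  intro t ht
  have ht' := spectrum.algebraMap_mem ℂ ht
  obtain ⟨χ, hχ⟩ := WeakDual.CharacterSpace.mem_spectrum_iff_exists.1 ht'
  have key : ∀ z : M, IsSelfAdjoint z → ∃ r : ℝ, χ z = (r : ℂ) ∧
      χ (cfc (fun s => Real.tanh (k * s)) z) = ((Real.tanh (k * r) : ℝ) : ℂ) := by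
    intro z hz
    have hr : ((χ z).re : ℂ) = χ z := by
      have h1 : star (χ z) = χ z := by rw [← map_star, hz.star_eq]
      exact Complex.conj_eq_iff_re.1 h1
    refine ⟨(χ z).re, hr.symm, ?_⟩
    rw [StarAlgHomClass.map_cfc (R := ℝ) (S := ℂ) χ (fun s => Real.tanh (k * s)) z
      (continuous_tanh_mul k).continuousOn (map_continuous χ) hz
      (by rw [← hr]; exact Complex.conj_ofReal _), ← hr]
    exact cfc_algebraMap (A := ℂ) (χ z).re (fun s : ℝ => Real.tanh (k * s))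
  obtain ⟨r, hr, hr'⟩ := key x hx
  obtain ⟨r', hs, hs'⟩ := key y hy
  have e : χ ((k ^ 2) • ((x - y) * (x - y)) - (a - b) * (a - b)) =
      ((k ^ 2 * ((r - r') * (r - r')) - (Real.tanh (k * r) - Real.tanh (k * r')) *
        (Real.tanh (k * r) - Real.tanh (k * r')) : ℝ) : ℂ) := by
    rw [← Complex.coe_smul, map_sub, map_smul, map_mul, map_mul, map_sub, map_sub, ha, hb, hr, hs,
      hr', hs']
    push_cast
    rw [smul_eq_mul]
  rw [e] at hχ
  have h2 : t = _ := (Complex.ofReal_injective hχ).symm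
  rw [h2, sub_nonneg, ← sq, ← sq, ← mul_pow, ← sq_abs, ← sq_abs (k * (r - r'))]
  exact pow_le_pow_left₀ (abs_nonneg _)
    ((abs_tanh_sub_le _ _).trans_eq (by rw [mul_sub])) 2

namespace Ctx

variable {D : Type u} [CStarAlgebra D] {ι : Type v} {L m : ℕ}
  (c : Ctx D ι (Fin L × Fin m)) {P : Type v}

/-- The variables in the algebra of the limit. -/
def vars (η : ℝ) (j : P → ι) : Var L m P → ↥c.M0 :=
  Sum.elim (fun x => c.Tm' x.1 (j x.2) 0 0 η) fun x => c.Km x.1 (j x.2.1) (j x.2.2) 0 0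

/-- The chaos polynomial in the algebra of the limit. -/
def Xm (η : ℝ) (j : P → ι) (p : FreeAlgebra ℂ (Var L m P)) : ↥c.M0 :=
  (2 : ℂ)⁻¹ • (FreeAlgebra.lift ℂ (c.vars η j) p + star (FreeAlgebra.lift ℂ (c.vars η j) p))

/-- The bounded chaos element in the algebra of the limit. -/
def um (η k : ℝ) (j : P → ι) (p : FreeAlgebra ℂ (Var L m P)) : ↥c.M0 :=
  cfc (fun s => Real.tanh (k * s)) (c.Xm η j p)

/-- The variables at one stage. -/
def varsAt (η : ℝ) (N : ℕ) (j : P → ι) : Var L m P → D :=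
  Sum.elim (fun x => bsin η (cl univ ((c.B x.1 N).ξ (j x.2))))
    fun x => kn univ ((c.B x.1 N).ξ (j x.2.1)) ((c.B x.1 N).ξ (j x.2.2))

/-- The bounded chaos element at one stage. -/
def uAt (η k : ℝ) (N : ℕ) (j : P → ι) (p : FreeAlgebra ℂ (Var L m P)) : D :=
  cfc (fun s => Real.tanh (k * s))
    ((2 : ℂ)⁻¹ • (FreeAlgebra.lift ℂ (c.varsAt η N j) p +
      star (FreeAlgebra.lift ℂ (c.varsAt η N j) p)))

lemma Xm_sa (η : ℝ) (j : P → ι) (p : FreeAlgebra ℂ (Var L m P)) : IsSelfAdjoint (c.Xm η j p) :=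
  IsSelfAdjoint.smul (by simp [IsSelfAdjoint]) (IsSelfAdjoint.add_star_self _)

lemma um_sa (η k : ℝ) (j : P → ι) (p : FreeAlgebra ℂ (Var L m P)) :
    IsSelfAdjoint (c.um η k j p) := cfc_predicate _ _

lemma coe_um_apply (η k : ℝ) (j : P → ι) (p : FreeAlgebra ℂ (Var L m P)) (N : ℕ) :
    ((c.um η k j p : ↥c.M0) : ℕ →ᵇ D) N = c.uAt η k N j p := by
  set ev : ↥c.M0 →⋆ₐ[ℂ] D := (evH N).comp c.M0.subtype with hev
  have hc : Continuous ev := (continuous_evH N).comp continuous_subtype_val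
  have hl : ev (FreeAlgebra.lift ℂ (c.vars η j) p) = FreeAlgebra.lift ℂ (c.varsAt η N j) p := by
    have e : ev.toAlgHom.comp (FreeAlgebra.lift ℂ (c.vars η j)) =
        FreeAlgebra.lift ℂ (c.varsAt η N j) := by
      refine FreeAlgebra.hom_ext (funext fun x => ?_)
      simp only [Function.comp_apply, AlgHom.comp_apply, FreeAlgebra.lift_ι_apply]
      rcases x with ⟨a, q⟩ | ⟨a, q, q'⟩
      · show c.Ts a (j q) 0 0 η N = bsin η (cl univ ((c.B a N).ξ (j q)))
        rw [c.Ts_apply, Blk.pS, pc_zero]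
      · show kn (pc N 0 0) _ _ = kn univ _ _
        rw [pc_zero]
    exact DFunLike.congr_fun e p
  have hX : ev (c.Xm η j p) = (2 : ℂ)⁻¹ • (FreeAlgebra.lift ℂ (c.varsAt η N j) p +
      star (FreeAlgebra.lift ℂ (c.varsAt η N j) p)) := by
    rw [Xm, map_smul, map_add, map_star, hl]
  show ev (c.um η k j p) = _
  rw [um, uAt, StarAlgHomClass.map_cfc (R := ℝ) (S := ℂ) ev (fun s => Real.tanh (k * s))
    (c.Xm η j p) (continuous_tanh_mul k).continuousOn hc (c.Xm_sa η j p)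
    ((c.Xm_sa η j p).map ev), hX]

lemma commute_sS_um (η k : ℝ) (j : P → ι) (p : FreeAlgebra ℂ (Var L m P)) :
    Commute c.Sm (c.um η k j p) := by
  have hS : star c.Sm = c.Sm := Subtype.ext c.sS_sa.star_eq
  have h : ∀ q : FreeAlgebra ℂ (Var L m P), Commute c.Sm (FreeAlgebra.lift ℂ (c.vars η j) q) := by
    intro q
    induction q using FreeAlgebra.induction with
    | grade0 r => rw [AlgHom.commutes]; exact (Algebra.commutes r _).symm
    | grade1 x =>
      rw [FreeAlgebra.lift_ι_apply]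
      rcases x with ⟨a, q⟩ | ⟨a, q, q'⟩
      · refine Subtype.ext ?_
        show c.sS * c.Ts a (j q) 0 0 η = c.Ts a (j q) 0 0 η * c.sS
        exact (((c.commute_s_ξ_W a _ _ _ _).sub_right (c.commute_s_ξ_W a _ _ _ _)).smul_right _).eq
      · exact Subtype.ext (c.commute_s_Kp a _ _ _ _).eq
    | mul a b ha hb => rw [map_mul]; exact ha.mul_right hb
    | add a b ha hb => rw [map_add]; exact ha.add_right hb
  refine (Commute.cfc_real ?_ _).symm
  refine (((h p).symm).add_left ?_).smul_left _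
  have := (h p).star_star
  rwa [hS, Commute, SemiconjBy, eq_comm] at this

/-- The three estimates. -/
theorem estimates [Fintype ι] {η τ k εc Δ : ℝ} (hη : 0 < η) (hτ0 : 0 ≤ τ)
    (hτ : ∀ t : ℝ, |t| ≤ 1 → |shk η t - t| ≤ τ) (hεc : 0 ≤ εc) (j₁ j₂ : P → ι)
    (p : FreeAlgebra ℂ (Var L m P))
    (hp : ∀ (M : Type u) [CStarAlgebra M] (d : Gauss M ι (Fin L × Fin m) τ η⁻¹),
      (d.Φ ((d.X j₁ p - d.X j₂ p) * (d.X j₁ p - d.X j₂ p))).re ≤ Δ ∧
      (∀ F ∈ d.base, ‖d.Φ (F * cfc (fun s => Real.tanh (k * s)) (d.X j₁ p))‖ ≤ εc * ‖F‖) ∧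
      (d.Φ ((1 - cfc (fun s => Real.tanh (k * s) ^ 2) (d.X j₁ p)) ^ 2)).re ≤ 8 / k + εc) :
    c.R.sq (((c.um η k j₁ p * c.um η k j₁ p - 1 : ↥c.M0)) : ℕ →ᵇ D) ≤ 8 / k + εc ∧
    c.R.sq (((c.um η k j₂ p - c.um η k j₁ p : ↥c.M0)) : ℕ →ᵇ D) ≤ k ^ 2 * Δ ∧
    |c.R.qs (((c.Sm * c.um η k j₁ p : ↥c.M0)) : ℕ →ᵇ D)| ≤ εc * ‖c.s‖ := by
  obtain ⟨M, _, ⟨Z⟩⟩ := c.exists_rz
  obtain ⟨d, hdΦ, hdb, hdf, hdK⟩ := Z.exists_data hη hτ0 hτ
  obtain ⟨h2, h3, h1⟩ := hp M d
  rw [hdΦ] at h1 h2 h3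
  have hπ : Continuous Z.π := AddMonoidHomClass.continuous_of_bound Z.π 1 fun x => by
    simpa using NonUnitalStarAlgHom.norm_apply_le Z.π x
  have hX : ∀ j : P → ι, Z.π (c.Xm η j p) = d.X j p := by
    intro j
    have e : (Z.π : ↥c.M0 →⋆ₐ[ℂ] M).toAlgHom.comp (FreeAlgebra.lift ℂ (c.vars η j)) =
        FreeAlgebra.lift ℂ
          (Sum.elim (fun x => d.f x.1 (j x.2)) fun x => d.K x.1 (j x.2.1) (j x.2.2)) := by
      refine FreeAlgebra.hom_ext (funext fun x => ?_)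
      simp only [Function.comp_apply, AlgHom.comp_apply, FreeAlgebra.lift_ι_apply, hdf, hdK]
      rcases x with ⟨a, q⟩ | ⟨a, q, q'⟩ <;> rfl
    rw [Gauss.X, Xm, map_smul, map_add, map_star, ← DFunLike.congr_fun e p]
    rfl
  have hu : ∀ j : P → ι, Z.π (c.um η k j p) = cfc (fun s => Real.tanh (k * s)) (d.X j p) := by
    intro j
    rw [um, StarAlgHomClass.map_cfc (R := ℝ) (S := ℂ) Z.π (fun s => Real.tanh (k * s))
      (c.Xm η j p) (continuous_tanh_mul k).continuousOn hπ (c.Xm_sa η j p)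
      ((c.Xm_sa η j p).map Z.π), hX]
  have hsq : ∀ x : ↥c.M0, IsSelfAdjoint (Z.π x) →
      c.R.sq (x : ℕ →ᵇ D) = (Z.φ (Z.π x * Z.π x)).re := fun x hx => by
    have h := Z.sq_eq x
    rw [hx.star_eq] at h
    rw [h, Complex.ofReal_re]
  have husa : ∀ j : P → ι, IsSelfAdjoint (Z.π (c.um η k j p)) := fun j =>
    (c.um_sa η k j p).map Z.π
  refine ⟨?_, ?_, ?_⟩
  · rw [hsq _ (by
      rw [map_sub, map_mul, map_one]
      exact (sa_sq (husa j₁)).sub (IsSelfAdjoint.one M))]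
    refine le_trans (le_of_eq (congrArg (fun z => (Z.φ z).re) ?_)) h1
    have e : cfc (fun s => Real.tanh (k * s) ^ 2) (d.X j₁ p) =
        Z.π (c.um η k j₁ p) * Z.π (c.um η k j₁ p) := by
      rw [hu, ← cfc_mul _ _ _ (continuous_tanh_mul k).continuousOn
        (continuous_tanh_mul k).continuousOn]
      simp only [sq]
    rw [e, map_sub, map_mul, map_one]
    noncomm_ring
  · rw [hsq _ (by rw [map_sub]; exact (husa j₂).sub (husa j₁))]
    have hsa : ∀ j : P → ι, IsSelfAdjoint (d.X j p) := fun j => hX j ▸ (c.Xm_sa η j p).map Z.π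
    obtain ⟨w, hw⟩ := CStarAlgebra.nonneg_iff_eq_star_mul_self.1
      (tanh_sq_le Z.comm k (hsa j₁) (hsa j₂))
    obtain ⟨r, hr, hr'⟩ := Z.pos w
    rw [← hw, map_sub, ← Complex.coe_smul, map_smul, smul_eq_mul] at hr'
    have h := congrArg Complex.re hr'
    rw [Complex.sub_re, Complex.re_ofReal_mul, Complex.ofReal_re, ← hu, ← hu] at h
    rw [map_sub, show (Z.π (c.um η k j₂ p) - Z.π (c.um η k j₁ p)) *
      (Z.π (c.um η k j₂ p) - Z.π (c.um η k j₁ p)) =
      (Z.π (c.um η k j₁ p) - Z.π (c.um η k j₂ p)) *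
      (Z.π (c.um η k j₁ p) - Z.π (c.um η k j₂ p)) by noncomm_ring]
    nlinarith [mul_le_mul_of_nonneg_left h2 (sq_nonneg k)]
  · have hsa : IsSelfAdjoint (((c.Sm * c.um η k j₁ p : ↥c.M0)) : ℕ →ᵇ D) :=
      congrArg Subtype.val ((IsSelfAdjoint.commute_iff (Subtype.ext c.sS_sa.star_eq)
        (c.um_sa η k j₁ p)).1 (c.commute_sS_um η k j₁ p)).star_eq
    have e := c.P.ev_qs (c.Sm * c.um η k j₁ p).2 hsa
    have hphi := Z.hφ (c.Sm * c.um η k j₁ p)
    rw [map_mul, hu] at hphi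
    have h := h3 (Z.π c.Sm) (hdb ▸ StarAlgebra.subset_adjoin ℂ _ rfl)
    rw [hphi, ev, e, Complex.norm_real, Real.norm_eq_abs] at h
    refine h.trans (mul_le_mul_of_nonneg_left ?_ hεc)
    exact (NonUnitalStarAlgHom.norm_apply_le Z.π c.Sm).trans
      ((BoundedContinuousFunction.norm_le (norm_nonneg _)).2 fun _ => le_rfl)

end Ctx

end Vale.Agent.P095.General.Fair
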