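import Vale.Agent.P095.General.Fair.Gens

/-!
The algebra generated in the limit: it is commutative up to null elements.
-/

noncomputable section

open Finset Filter Topology
open scoped BoundedContinuousFunction

namespace Vale.Agent.P095.General.Fair

attribute [local instance] CStarAlgebra.spectralOrder CStarAlgebra.spectralOrderedRing

universe u v

namespace Ctx

variable {D : Type u} [CStarAlgebra D] {ι : Type v} {I : Type} (c : Ctx D ι I)

/-- The generators. -/
def Gen : Set (ℕ →ᵇ D) :=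
  {c.sS} ∪ {x | ∃ a g l b t, c.W a g l b t = x} ∪ {x | ∃ a g h l b, c.Kp a g h l b = x}

lemma sS_sa : IsSelfAdjoint c.sS := by
  rw [isSelfAdjoint_iff]
  ext N
  exact c.s_sa.star_eq

lemma star_W (a : I) (g : ι) (l b : ℕ) (t : ℝ) : star (c.W a g l b t) = c.W a g l b (-t) := by
  ext N
  have h1 := Unitary.star_mul_self_of_mem (gex_mem_unitary ((c.B a N).pS_sa g l b) t)
  show star (gex ((c.B a N).pS g l b) t) = gex ((c.B a N).pS g l b) (-t)
  calc star (gex ((c.B a N).pS g l b) t)
      = star (gex ((c.B a N).pS g l b) t) *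
        (gex ((c.B a N).pS g l b) t * gex ((c.B a N).pS g l b) (-t)) := by
        rw [gex_mul_neg, mul_one]
    _ = gex ((c.B a N).pS g l b) (-t) := by rw [← mul_assoc, h1, one_mul]

lemma star_Kp (a : I) (g h : ι) (l b : ℕ) : star (c.Kp a g h l b) = c.Kp a h g l b := by
  ext N
  show star (kn (pc N l b) ((c.B a N).ξ g) ((c.B a N).ξ h)) = kn (pc N l b) _ _
  rw [kn, kn, star_smul, star_trivial, star_sum]
  congr 1
  exact sum_congr rfl fun r _ => by rw [star_mul, ((c.B a N).sa g r).star_eq, ((c.B a N).sa h r).star_eq]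

lemma star_mem_Gen : ∀ x ∈ c.Gen, star x ∈ c.Gen := by
  rintro x ((rfl | ⟨a, g, l, b, t, rfl⟩) | ⟨a, g, h, l, b, rfl⟩)
  · exact Or.inl (Or.inl c.sS_sa.star_eq)
  · exact Or.inl (Or.inr ⟨a, g, l, b, -t, (c.star_W a g l b t).symm⟩)
  · exact Or.inr ⟨a, h, g, l, b, (c.star_Kp a g h l b).symm⟩

lemma commute_s_ξ_W (a : I) (g : ι) (l b : ℕ) (t : ℝ) : Commute c.sS (c.W a g l b t) := by
  ext N
  exact commute_gex ((Commute.sum_right _ _ _ fun r _ => (c.s_comm a N g r).1.symm).smul_right _) t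

lemma commute_s_Kp (a : I) (g h : ι) (l b : ℕ) : Commute c.sS (c.Kp a g h l b) := by
  ext N
  exact (Commute.sum_right _ _ _ fun r _ =>
    (c.s_comm a N g r).1.symm.mul_right (c.s_comm a N h r).1.symm).smul_right _

lemma commute_sum_of_ne {a a' : I} (ha : a ≠ a') (N : ℕ) (g h : ι) (A A' : Finset (Fin (2 ^ N))) :
    Commute (∑ r ∈ A, (c.B a N).ξ g r) (∑ s ∈ A', (c.B a' N).ξ h s) :=
  Commute.sum_left _ _ _ fun r _ => Commute.sum_right _ _ _ fun s _ => (c.cross a a' ha N g h r s).1

lemma null_gex_sub_one (x : ℕ →ᵇ D) (hx : c.R.Null x) (t : ℝ) : c.R.Null (gex x t - 1) := by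
  have h := (isClosed_null c.R).preimage (f := fun y : ℕ →ᵇ D => y - 1) (by fun_prop)
  rw [gex, NormedSpace.exp_eq_tsum ℂ]
  refine h.mem_of_tendsto
    ((NormedSpace.expSeries_summable' (𝕂 := ℂ) _).hasSum.tendsto_sum_nat.comp (tendsto_add_atTop_nat 1))
    (Eventually.of_forall fun n => ?_)
  show c.R.Null (∑ k ∈ range (n + 1), _ - 1)
  rw [sum_range_succ', pow_zero, Nat.factorial_zero, Nat.cast_one, inv_one, one_smul,
    add_sub_cancel_right]
  refine sum_induction _ _ (fun x y hx hy => QT.Null.add c.R hx hy) c.R.null_zero fun k _ =>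
    QT.Null.smul c.R ?_ _
  rw [pow_succ, ← Complex.coe_smul]
  exact QT.Null.mul_left c.R (QT.Null.smul c.R (QT.Null.smul c.R hx _) _) _

/-- Exponentials of collective elements of one group commute up to null elements. -/
lemma null_WW (a : I) (g h : ι) {l l' : ℕ} (hl : l ≤ l') (b b' : ℕ) (t t' : ℝ) :
    c.R.Null (c.W a g l b t * c.W a h l' b' t' - c.W a h l' b' t' * c.W a g l b t) := by
  have key : ∀ N, ∃ μ : ℝ, |μ| ≤ 1 ∧
      Complex.I • ((c.B a N).pS g l b * (c.B a N).pS h l' b' - (c.B a N).pS h l' b' * (c.B a N).pS g l b) =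
        μ • c.Dp a g h l' b' N ∧
      ∀ z ∈ [(c.B a N).pS g l b, (c.B a N).pS h l' b'],
        ‖z * ((c.B a N).pS g l b * (c.B a N).pS h l' b' - (c.B a N).pS h l' b' * (c.B a N).pS g l b) -
          ((c.B a N).pS g l b * (c.B a N).pS h l' b' - (c.B a N).pS h l' b' * (c.B a N).pS g l b) * z‖ ≤
          4 * rt (pc N l' b').card := by
    intro N
    set B := c.B a N
    rcases pc_of_le N hl b b' with hsub | hdis
    swap
    · have hc : Commute (B.pS g l b) (B.pS h l' b') :=
        ((Commute.sum_left _ _ _ fun r hr => Commute.sum_right _ _ _ fun s hs =>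
          (B.comm g h r s fun e => disjoint_left.1 hdis hr (e ▸ hs)).1).smul_left _).smul_right _
      refine ⟨0, by simp, by rw [hc.eq, sub_self, smul_zero, zero_smul], fun z _ => ?_⟩
      rw [hc.eq, sub_self, mul_zero, zero_mul, sub_self, norm_zero]
      exact mul_nonneg (by norm_num) (rt_nonneg _)
    set A := pc N l b with hA
    set A' := pc N l' b' with hA'
    set d : D := ∑ r ∈ A', (B.ξ g r * B.ξ h r - B.ξ h r * B.ξ g r) with hd
    have hcomm : B.pS g l b * B.pS h l' b' - B.pS h l' b' * B.pS g l b =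
        (rt A.card * rt A'.card) • d := by
      simp only [Blk.pS, cl, smul_mul_smul_comm, mul_comm (rt A'.card) (rt A.card), ← smul_sub, ← hA,
        ← hA']
      congr 1
      rw [hd, sum_mul_sum, sum_mul_sum, sum_comm (f := fun s r => B.ξ h s * B.ξ g r),
        ← sum_sub_distrib]
      simp only [← sum_sub_distrib]
      rw [sum_comm]
      refine sum_congr rfl fun s hs => ?_
      rw [sum_eq_single s (fun r _ hne => sub_eq_zero.2 ((B.comm g h r s hne).1).eq)
        (fun h0 => absurd (hsub hs) h0)]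
    have hle : (A'.card : ℝ) ≤ A.card := by exact_mod_cast card_le_card hsub
    have hμ : rt A.card * rt A'.card * A'.card ≤ 1 := by
      rw [mul_assoc]
      have e : rt A'.card * A'.card = Real.sqrt A'.card := by
        rcases Nat.eq_zero_or_pos A'.card with h0 | h0
        · simp [h0]
        · rw [rt, inv_mul_eq_div, Real.div_sqrt]
      rw [e, rt]
      refine (mul_le_mul_of_nonneg_left (Real.sqrt_le_sqrt hle) (by positivity)).trans ?_
      exact inv_mul_le_one
    refine ⟨rt A.card * rt A'.card * A'.card, ?_, ?_, ?_⟩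
    · rw [abs_of_nonneg (mul_nonneg (mul_nonneg (rt_nonneg _) (rt_nonneg _)) (Nat.cast_nonneg _))]
      exact hμ
    · simp only [Dp, mkSeq_apply, hcomm, ← hA', Blk.dd, ← smul_sum, ← hd]
      rw [smul_comm Complex.I, smul_smul]
      rcases Nat.eq_zero_or_pos A'.card with h0 | h0
      · rw [hd, card_eq_zero.1 h0, sum_empty]; simp
      · congr 1
        field_simp
    intro z hz
    have hzd : ∀ r s, r ≠ s → ∀ u : ι,
        Commute (B.ξ u r) (B.ξ g s * B.ξ h s - B.ξ h s * B.ξ g s) := fun r s hrs u =>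
      ((B.comm u g r s hrs).1.mul_right (B.comm u h r s hrs).1).sub_right
        ((B.comm u h r s hrs).1.mul_right (B.comm u g r s hrs).1)
    have hdn : ∀ u r, ‖B.ξ u r * (B.ξ g r * B.ξ h r - B.ξ h r * B.ξ g r) -
        (B.ξ g r * B.ξ h r - B.ξ h r * B.ξ g r) * B.ξ u r‖ ≤ 4 := fun u r => by
      have h1 : ‖B.ξ g r * B.ξ h r - B.ξ h r * B.ξ g r‖ ≤ 2 := by
        linarith [norm_sub_le (B.ξ g r * B.ξ h r) (B.ξ h r * B.ξ g r), B.norm_prod g h r,
          B.norm_prod h g r]
      refine (norm_sub_le _ _).trans ?_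
      have h2 := (norm_mul_le (B.ξ u r) _).trans (mul_le_mul (B.norm u r) h1 (norm_nonneg _) zero_le_one)
      have h3 := (norm_mul_le _ (B.ξ u r)).trans (mul_le_mul h1 (B.norm u r) (norm_nonneg _) zero_le_two)
      linarith
    have bound : ∀ (u : ι) (A₀ : Finset (Fin (2 ^ N))), A'.card ≤ A₀.card →
        ‖cl A₀ (B.ξ u) * ((rt A.card * rt A'.card) • d) - ((rt A.card * rt A'.card) • d) * cl A₀ (B.ξ u)‖ ≤
          4 * rt A'.card := by
      intro u A₀ h0
      rw [cl, smul_mul_smul_comm, smul_mul_smul_comm, mul_comm (rt A.card * rt A'.card), ← smul_sub,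
        norm_smul, Real.norm_eq_abs,
        abs_of_nonneg (mul_nonneg (rt_nonneg _) (mul_nonneg (rt_nonneg _) (rt_nonneg _)))]
      refine (mul_le_mul_of_nonneg_left (norm_comm_sums_le A₀ A' _ _ (fun r s hrs => hzd r s hrs u)
        (hdn u) (by norm_num)).2
        (mul_nonneg (rt_nonneg _) (mul_nonneg (rt_nonneg _) (rt_nonneg _)))).trans ?_
      rcases Nat.eq_zero_or_pos A'.card with h' | h'
      · simp [h', rt]
      have r1 : rt A₀.card ≤ rt A'.card :=
        inv_anti₀ (by positivity) (Real.sqrt_le_sqrt (by exact_mod_cast h0))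
      calc rt A₀.card * (rt A.card * rt A'.card) * (A'.card * 4)
          = 4 * rt A₀.card * (rt A.card * rt A'.card * A'.card) := by ring
        _ ≤ 4 * rt A'.card * 1 := mul_le_mul (mul_le_mul_of_nonneg_left r1 (by norm_num)) hμ
            (mul_nonneg (mul_nonneg (rt_nonneg _) (rt_nonneg _)) (Nat.cast_nonneg _))
            (mul_nonneg (by norm_num) (rt_nonneg _))
        _ = 4 * rt A'.card := mul_one _
    simp only [List.mem_cons, List.not_mem_nil, or_false] at hz
    rw [hcomm]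
    rcases hz with rfl | rfl
    · exact bound g A (card_le_card hsub)
    · exact bound h A' le_rfl
  choose μ hμ1 hμ2 hμ3 using key
  set C : ℕ →ᵇ D := mkSeq (fun N => (t * μ N) • c.Dp a g h l' b' N) (|t| * 2) (fun N => by
    rw [norm_smul, Real.norm_eq_abs, abs_mul]
    exact mul_le_mul (mul_le_of_le_one_right (abs_nonneg t) (hμ1 N))
      (((c.Dp a g h l' b').norm_coe_le_norm N).trans (c.norm_Dp a g h l' b')) (norm_nonneg _)
      (abs_nonneg t)) with hC
  have hCnull : c.R.Null C := by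
    refine le_antisymm ?_ (c.R.sq_nonneg _)
    have h2 := (c.hR (c.Dp a g h l' b')).const_mul (t ^ 2)
    rw [show c.R.sq (c.Dp a g h l' b') = 0 from c.null_Dp a g h l' b', mul_zero] at h2
    refine le_of_tendsto_of_tendsto' (c.hR C) h2 fun N => ?_
    rw [hC, mkSeq_apply, sq_smul_real, mul_pow, mul_assoc]
    refine mul_le_mul_of_nonneg_left (mul_le_of_le_one_left ((c.Q N).sq_nonneg _) ?_) (sq_nonneg t)
    rw [← sq_abs]
    exact pow_le_one₀ (abs_nonneg _) (hμ1 N)
  set E := c.W a h l' b' t' * (gex C t' - 1) * c.W a g l b t with hE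
  have hEnull : c.R.Null E :=
    QT.Null.mul_right c.R (QT.Null.mul_left c.R (c.null_gex_sub_one C hCnull t') _) _
  have hrest : c.R.Null (c.W a g l b t * c.W a h l' b' t' - c.W a h l' b' t' * c.W a g l b t - E) := by
    refine c.null_of_le _ (tendsto_rt_bound l' (|t'| * (t ^ 2 * 4) + t' ^ 2 * (|t| * 4)))
      ((c.eventually_ge l').mono fun N hN => ?_)
    simp only [E, W, BoundedContinuousFunction.sub_apply, BoundedContinuousFunction.mul_apply,
      mkSeq_apply, evH_gex, BoundedContinuousFunction.coe_one, Pi.one_apply]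
    have hc' : C N = (Complex.I * t) • ((c.B a N).pS g l b * (c.B a N).pS h l' b' -
        (c.B a N).pS h l' b' * (c.B a N).pS g l b) := by
      rw [hC, mkSeq_apply, ← smul_smul t, ← hμ2 N, ← Complex.coe_smul, smul_smul, mul_comm]
    rw [hc']
    refine (norm_gex_comm_le ((c.B a N).pS_sa g l b) ((c.B a N).pS_sa h l' b') t t').trans ?_
    have hr := rt_card_le N l' b' hN
    have h1 := (hμ3 N _ (by simp : (c.B a N).pS g l b ∈ _)).trans (mul_le_mul_of_nonneg_left hr (by norm_num))
    have h2 := (hμ3 N _ (by simp : (c.B a N).pS h l' b' ∈ _)).trans (mul_le_mul_of_nonneg_left hr (by norm_num))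
    refine (add_le_add (mul_le_mul_of_nonneg_left (mul_le_mul_of_nonneg_left h1 (sq_nonneg t))
      (abs_nonneg t')) (mul_le_mul_of_nonneg_left (mul_le_mul_of_nonneg_left h2 (abs_nonneg t))
      (sq_nonneg t'))).trans (le_of_eq (by ring))
  have := QT.Null.add c.R hrest hEnull
  rwa [sub_add_cancel] at this

lemma null_WK (a : I) (g g' h' : ι) (l b l' b' : ℕ) (t : ℝ) :
    c.R.Null (c.W a g l b t * c.Kp a g' h' l' b' - c.Kp a g' h' l' b' * c.W a g l b t) := by
  refine c.null_of_le _ (tendsto_rt_bound l (|t| * 2)) ((c.eventually_ge l).mono fun N hN => ?_)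
  set B := c.B a N
  show ‖gex (B.pS g l b) t * kn (pc N l' b') (B.ξ g') (B.ξ h') -
    kn (pc N l' b') (B.ξ g') (B.ξ h') * gex (B.pS g l b) t‖ ≤ _
  refine (norm_comm_gex_le (B.pS_sa g l b) _ t).trans ?_
  rw [mul_assoc]
  refine mul_le_mul_of_nonneg_left (le_trans ?_ (mul_le_mul_of_nonneg_left (rt_card_le N l b hN)
    (by norm_num))) (abs_nonneg t)
  simp only [Blk.pS, cl, kn, smul_mul_smul_comm, mul_comm ((pc N l' b').card : ℝ)⁻¹, ← smul_sub,
    norm_smul, Real.norm_eq_abs]
  rw [abs_of_nonneg (mul_nonneg (rt_nonneg _) (by positivity))]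
  refine (mul_le_mul_of_nonneg_left (norm_comm_sums_le (pc N l b) (pc N l' b') (B.ξ g)
    (fun r => B.ξ g' r * B.ξ h' r) (a := 2) (fun r s hrs =>
      (B.comm g g' r s hrs).1.mul_right (B.comm g h' r s hrs).1) (fun r => ?_) (by norm_num)).2
    (mul_nonneg (rt_nonneg _) (by positivity))).trans ?_
  · have := (norm_mul_le (B.ξ g r) _).trans (mul_le_one₀ (B.norm g r) (norm_nonneg _) (B.norm_prod g' h' r))
    have := (norm_mul_le _ (B.ξ g r)).trans (mul_le_one₀ (B.norm_prod g' h' r) (norm_nonneg _) (B.norm g r))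
    linarith [norm_sub_le (B.ξ g r * (B.ξ g' r * B.ξ h' r)) (B.ξ g' r * B.ξ h' r * B.ξ g r)]
  · calc rt (pc N l b).card * ((pc N l' b').card : ℝ)⁻¹ * ((pc N l' b').card * 2)
        = 2 * rt (pc N l b).card * (((pc N l' b').card : ℝ)⁻¹ * (pc N l' b').card) := by ring
      _ ≤ 2 * rt (pc N l b).card :=
          mul_le_of_le_one_right (mul_nonneg zero_le_two (rt_nonneg _)) inv_mul_le_one

lemma null_KK (a : I) (g h g' h' : ι) (l b l' b' : ℕ) :
    c.R.Null (c.Kp a g h l b * c.Kp a g' h' l' b' - c.Kp a g' h' l' b' * c.Kp a g h l b) := by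
  refine c.null_of_le _ (tendsto_rt_bound l 2) ((c.eventually_ge l).mono fun N hN => ?_)
  set B := c.B a N
  show ‖kn (pc N l b) (B.ξ g) (B.ξ h) * kn (pc N l' b') (B.ξ g') (B.ξ h') -
    kn (pc N l' b') (B.ξ g') (B.ξ h') * kn (pc N l b) (B.ξ g) (B.ξ h)‖ ≤ _
  simp only [kn, smul_mul_smul_comm, mul_comm ((pc N l' b').card : ℝ)⁻¹, ← smul_sub, norm_smul,
    Real.norm_eq_abs]
  rw [abs_of_nonneg (by positivity)]
  refine (mul_le_mul_of_nonneg_left (norm_comm_sums_le (pc N l b) (pc N l' b')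
    (fun r => B.ξ g r * B.ξ h r) (fun r => B.ξ g' r * B.ξ h' r) (a := 2) (fun r s hrs =>
      ((B.comm g g' r s hrs).1.mul_right (B.comm g h' r s hrs).1).mul_left
        ((B.comm h g' r s hrs).1.mul_right (B.comm h h' r s hrs).1)) (fun r => ?_) (by norm_num)).2
    (by positivity)).trans ?_
  · have := (norm_mul_le _ _).trans (mul_le_one₀ (B.norm_prod g h r) (norm_nonneg _) (B.norm_prod g' h' r))
    have := (norm_mul_le _ _).trans (mul_le_one₀ (B.norm_prod g' h' r) (norm_nonneg _) (B.norm_prod g h r))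
    linarith [norm_sub_le (B.ξ g r * B.ξ h r * (B.ξ g' r * B.ξ h' r))
      (B.ξ g' r * B.ξ h' r * (B.ξ g r * B.ξ h r))]
  · calc ((pc N l b).card : ℝ)⁻¹ * ((pc N l' b').card : ℝ)⁻¹ * ((pc N l' b').card * 2)
        = 2 * ((pc N l b).card : ℝ)⁻¹ * (((pc N l' b').card : ℝ)⁻¹ * (pc N l' b').card) := by ring
      _ ≤ 2 * ((pc N l b).card : ℝ)⁻¹ := mul_le_of_le_one_right (by positivity) inv_mul_le_one
      _ ≤ 2 * Real.sqrt 2⁻¹ ^ (N - l) := by
          refine mul_le_mul_of_nonneg_left ?_ zero_le_two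
          rw [← rt_mul_self]
          have hr := rt_card_le N l b hN
          exact (mul_le_of_le_one_right (rt_nonneg _) (hr.trans
            (pow_le_one₀ (Real.sqrt_nonneg _) (Real.sqrt_le_one.2 (by norm_num))))).trans hr

/-- The generators commute up to null elements. -/
theorem null_gen : ∀ x ∈ c.Gen, ∀ y ∈ c.Gen, c.R.Null (x * y - y * x) := by
  have hz : ∀ x y : ℕ →ᵇ D, Commute x y → c.R.Null (x * y - y * x) := fun x y h => by
    rw [h.eq, sub_self]; exact c.R.null_zero
  have hflip : ∀ x y : ℕ →ᵇ D, c.R.Null (x * y - y * x) → c.R.Null (y * x - x * y) := fun x y h => by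
    simpa using QT.Null.neg c.R h
  rintro x ((rfl | ⟨a, g, l, b, t, rfl⟩) | ⟨a, g, h, l, b, rfl⟩) y
    ((rfl | ⟨a', g', l', b', t', rfl⟩) | ⟨a', g', h', l', b', rfl⟩)
  · exact hz _ _ (Commute.refl _)
  · exact hz _ _ (c.commute_s_ξ_W _ _ _ _ _)
  · exact hz _ _ (c.commute_s_Kp _ _ _ _ _)
  · exact hz _ _ (c.commute_s_ξ_W _ _ _ _ _).symm
  · rcases eq_or_ne a a' with rfl | ha
    · rcases le_total l l' with hl | hl
      · exact c.null_WW a g g' hl b b' t t'
      · exact hflip _ _ (c.null_WW a g' g hl b' b t' t)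
    · refine hz _ _ ?_
      ext N
      exact commute_gex ((commute_gex (((c.commute_sum_of_ne ha.symm N g' g _ _).smul_left
        _).smul_right _) t).symm) t'
  · rcases eq_or_ne a a' with rfl | ha
    · exact c.null_WK a g g' h' l b l' b' t
    · refine hz _ _ ?_
      ext N
      exact (commute_gex (((Commute.sum_left _ _ _ fun s _ => Commute.sum_right _ _ _ fun r _ =>
        (c.cross a' a ha.symm N g' g s r).1.mul_left (c.cross a' a ha.symm N h' g s r).1).smul_left
          _).smul_right _) t).symm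
  · exact hz _ _ (c.commute_s_Kp _ _ _ _ _).symm
  · rcases eq_or_ne a a' with rfl | ha
    · exact hflip _ _ (c.null_WK a g' g h l' b' l b t')
    · refine hz _ _ ?_
      ext N
      exact commute_gex (((Commute.sum_left _ _ _ fun s _ => Commute.sum_right _ _ _ fun r _ =>
        (c.cross a a' ha N g g' s r).1.mul_left (c.cross a a' ha N h g' s r).1).smul_left
          _).smul_right _) t'
  · rcases eq_or_ne a a' with rfl | ha
    · exact c.null_KK a g h g' h' l b l' b'
    · refine hz _ _ ?_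
      ext N
      exact ((Commute.sum_left _ _ _ fun s _ => Commute.sum_right _ _ _ fun r _ =>
        ((c.cross a a' ha N g g' s r).1.mul_right (c.cross a a' ha N g h' s r).1).mul_left
          ((c.cross a a' ha N h g' s r).1.mul_right (c.cross a a' ha N h h' s r).1)).smul_left
          _).smul_right _

/-- The algebra of the limit. -/
def M0 : StarSubalgebra ℂ (ℕ →ᵇ D) := (StarAlgebra.adjoin ℂ c.Gen).topologicalClosure

lemma isClosed_M0 : IsClosed (c.M0 : Set (ℕ →ᵇ D)) :=
  (StarAlgebra.adjoin ℂ c.Gen).isClosed_topologicalClosure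

lemma mem_M0 {x : ℕ →ᵇ D} (h : x ∈ c.Gen) : x ∈ c.M0 :=
  StarSubalgebra.le_topologicalClosure _ (StarAlgebra.subset_adjoin ℂ _ h)

lemma W_mem (a : I) (g : ι) (l b : ℕ) (t : ℝ) : c.W a g l b t ∈ c.M0 :=
  c.mem_M0 (Or.inl (Or.inr ⟨a, g, l, b, t, rfl⟩))

lemma Kp_mem (a : I) (g h : ι) (l b : ℕ) : c.Kp a g h l b ∈ c.M0 :=
  c.mem_M0 (Or.inr ⟨a, g, h, l, b, rfl⟩)

lemma sS_mem : c.sS ∈ c.M0 := c.mem_M0 (Or.inl (Or.inl rfl))

lemma null_M0 : ∀ x ∈ c.M0, ∀ y ∈ c.M0, c.R.Null (x * y - y * x) :=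
  null_comm_adjoin c.R c.star_mem_Gen c.null_gen

end Ctx

end Vale.Agent.P095.General.Fair
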