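import Vale.Agent.P095.General.Fair.QT
import Vale.Agent.P095.General.Block
import Vale.Agent.P095.Exp

/-!
Finite estimates in one group of blocks: commutative families, flips, second moments of off
diagonal sums and the Gaussian law of one translate.
-/

noncomputable section

open Finset
open scoped ComplexStarModule

namespace Vale.Agent.P095.General.Fair

universe u v

section St

variable {D : Type u} [CStarAlgebra D] [PartialOrder D] [StarOrderedRing D]

/-- A state on a subalgebra given by a quasitracial state. -/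
structure PSt (Q : QT D) where
  C : StarSubalgebra ℂ D
  closed : IsClosed (C : Set D)
  φ : ↥C →ₗ[ℂ] ℂ
  one : φ 1 = 1
  sq_eq : ∀ x : ↥C, φ (star x * x) = ((Q.sq (x : D) : ℝ) : ℂ)
  qs_eq : ∀ x : ↥C, IsSelfAdjoint (x : D) → φ x = ((Q.qs (x : D) : ℝ) : ℂ)

/-- The state of a commutative subalgebra given by a quasitracial state. -/
structure St (Q : QT D) extends PSt Q where
  comm : ∀ x ∈ C, ∀ y ∈ C, Commute x y

/-- A state of a family of commuting self-adjoint elements. -/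
theorem exists_st (Q : QT D) (hL : LinearStatement.{u}) (s : Set D)
    (hsa : ∀ x ∈ s, IsSelfAdjoint x) (hc : ∀ x ∈ s, ∀ y ∈ s, Commute x y) :
    ∃ T : St Q, s ⊆ T.C ∧
      ∀ B : StarSubalgebra ℂ D, IsClosed (B : Set D) → s ⊆ B → T.C ≤ B := by
  obtain ⟨C, φ, hC, hcC, h1, h2, h3⟩ := exists_state Q hL s hsa hc
  subst hC
  exact ⟨⟨⟨_, (StarAlgebra.adjoin ℂ s).isClosed_topologicalClosure, φ, h1, h2, h3⟩, hcC⟩,
    fun x hx => StarSubalgebra.le_topologicalClosure _ (StarAlgebra.subset_adjoin ℂ s hx),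
    fun B hB hs => StarSubalgebra.topologicalClosure_minimal (StarAlgebra.adjoin_le hs) hB⟩

namespace PSt

variable {Q : QT D} (T : PSt Q) {x y : D}

/-- The state on elements of the ambient algebra. -/
def ev (x : D) : ℂ :=
  haveI := Classical.dec (x ∈ T.C)
  if h : x ∈ T.C then T.φ ⟨x, h⟩ else 0

lemma ev_eq (h : x ∈ T.C) : T.ev x = T.φ ⟨x, h⟩ := dif_pos h

lemma ev_one : T.ev 1 = 1 := (T.ev_eq (one_mem _)).trans T.one

lemma ev_add (hx : x ∈ T.C) (hy : y ∈ T.C) : T.ev (x + y) = T.ev x + T.ev y := by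
  rw [T.ev_eq hx, T.ev_eq hy, T.ev_eq (add_mem hx hy), ← map_add]; rfl

lemma ev_smul (z : ℂ) (hx : x ∈ T.C) : T.ev (z • x) = z * T.ev x := by
  rw [T.ev_eq hx, T.ev_eq (SMulMemClass.smul_mem z hx), ← smul_eq_mul, ← map_smul]; rfl

lemma ev_smul_real (r : ℝ) (hx : x ∈ T.C) : T.ev (r • x) = r * T.ev x := by
  rw [← Complex.coe_smul, T.ev_smul _ hx]

lemma ev_sub (hx : x ∈ T.C) (hy : y ∈ T.C) : T.ev (x - y) = T.ev x - T.ev y := by
  rw [T.ev_eq hx, T.ev_eq hy, T.ev_eq (sub_mem hx hy), ← map_sub]; rfl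

lemma ev_sum {κ : Type*} (s : Finset κ) (f : κ → D) (h : ∀ i ∈ s, f i ∈ T.C) :
    T.ev (∑ i ∈ s, f i) = ∑ i ∈ s, T.ev (f i) := by
  classical
  induction s using Finset.induction_on with
  | empty =>
    rw [sum_empty, sum_empty, T.ev_eq (zero_mem _)]
    exact map_zero T.φ
  | insert i s hi ih =>
    rw [sum_insert hi, sum_insert hi, T.ev_add (h i (mem_insert_self i s))
      (sum_mem fun j hj => h j (mem_insert_of_mem hj)), ih fun j hj => h j (mem_insert_of_mem hj)]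

lemma ev_sq (hx : x ∈ T.C) : T.ev (star x * x) = (Q.sq x : ℂ) := by
  rw [T.ev_eq (mul_mem (star_mem hx) hx), ← T.sq_eq ⟨x, hx⟩]; rfl

lemma ev_qs (hx : x ∈ T.C) (h : IsSelfAdjoint x) : T.ev x = (Q.qs x : ℂ) := by
  rw [T.ev_eq hx]; exact T.qs_eq _ h

lemma ev_star (hx : x ∈ T.C) : T.ev (star x) = starRingEnd ℂ (T.ev x) := by
  set a : D := (2 : ℂ)⁻¹ • (x + star x) with ha
  set b : D := (-Complex.I * (2 : ℂ)⁻¹) • (x - star x) with hb
  have haC : a ∈ T.C := SMulMemClass.smul_mem _ (add_mem hx (star_mem hx))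
  have hbC : b ∈ T.C := SMulMemClass.smul_mem _ (sub_mem hx (star_mem hx))
  have hasa : IsSelfAdjoint a := by
    rw [isSelfAdjoint_iff, ha, star_smul, star_add, star_star, add_comm (star x)]
    simp
  have hbsa : IsSelfAdjoint b := by
    rw [isSelfAdjoint_iff, hb, star_smul, star_sub, star_star]
    simp only [Complex.star_def, map_mul, map_neg, Complex.conj_I, map_inv₀, map_ofNat]
    rw [← neg_sub x (star x), smul_neg, ← neg_smul]
    congr 1; ring
  have e1 : x = a + Complex.I • b := by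
    rw [ha, hb, smul_smul, ← mul_assoc, mul_neg, Complex.I_mul_I, neg_neg, one_mul, ← smul_add,
      add_add_sub_cancel, ← two_smul ℂ x, smul_smul]
    norm_num
  have e2 : star x = a + (-Complex.I) • b := by
    have h := congrArg star e1
    rw [star_add, hasa.star_eq, star_smul, hbsa.star_eq] at h
    simpa using h
  rw [e2, T.ev_add haC (SMulMemClass.smul_mem _ hbC), T.ev_smul _ hbC]
  conv_rhs => rw [e1, T.ev_add haC (SMulMemClass.smul_mem _ hbC), T.ev_smul _ hbC]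
  rw [map_add, map_mul, Complex.conj_I, T.ev_qs haC hasa, T.ev_qs hbC hbsa, Complex.conj_ofReal,
    Complex.conj_ofReal]

/-- The Cauchy-Schwarz inequality. -/
lemma cs (hx : x ∈ T.C) (hy : y ∈ T.C) :
    ‖T.ev (star x * y)‖ ≤ Real.sqrt (Q.sq x) * Real.sqrt (Q.sq y) := by
  set b := T.ev (star x * y) with hb
  have hxy : star x * y ∈ T.C := mul_mem (star_mem hx) hy
  have key : ∀ c : ℂ, 0 ≤ Q.sq x + 2 * (c * b).re + ‖c‖ ^ 2 * Q.sq y := fun c => by
    have hz : x + c • y ∈ T.C := add_mem hx (SMulMemClass.smul_mem c hy)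
    have h := T.ev_sq hz
    have hyx : star y * x ∈ T.C := mul_mem (star_mem hy) hx
    have hyy : star y * y ∈ T.C := mul_mem (star_mem hy) hy
    have hxx : star x * x ∈ T.C := mul_mem (star_mem hx) hx
    rw [star_add, star_smul, add_mul, mul_add, mul_add, mul_smul_comm, smul_mul_assoc,
      smul_mul_smul_comm, T.ev_add (add_mem hxx (SMulMemClass.smul_mem _ hxy))
        (add_mem (SMulMemClass.smul_mem _ hyx) (SMulMemClass.smul_mem _ hyy)),
      T.ev_add hxx (SMulMemClass.smul_mem _ hxy),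
      T.ev_add (SMulMemClass.smul_mem _ hyx) (SMulMemClass.smul_mem _ hyy), T.ev_smul _ hxy,
      T.ev_smul _ hyx, T.ev_smul _ hyy, T.ev_sq hx, T.ev_sq hy,
      show star y * x = star (star x * y) by rw [star_mul, star_star], T.ev_star hxy, ← hb] at h
    have h' := congrArg Complex.re h
    simp only [Complex.star_def, ← map_mul, Complex.conj_mul', Complex.add_re, Complex.ofReal_re,
      ← Complex.ofReal_pow, Complex.re_ofReal_mul, Complex.conj_re] at h'
    have := Q.sq_nonneg (x + c • y)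
    linarith
  have hd : discrim (‖b‖ ^ 2 * Q.sq y) (2 * ‖b‖ ^ 2) (Q.sq x) ≤ 0 := by
    refine discrim_le_zero fun t => ?_
    have h := key ((t : ℂ) * starRingEnd ℂ b)
    rw [mul_assoc, Complex.conj_mul', Complex.re_ofReal_mul, ← Complex.ofReal_pow, Complex.ofReal_re,
      norm_mul, Complex.norm_real, RCLike.norm_conj, mul_pow, Real.norm_eq_abs, sq_abs] at h
    linarith
  rw [discrim] at hd
  rw [← Real.sqrt_mul (Q.sq_nonneg x)]
  rcases eq_or_ne ‖b‖ 0 with h0 | h0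
  · rw [h0]; positivity
  refine Real.le_sqrt_of_sq_le ?_
  have : 0 < ‖b‖ ^ 2 := by positivity
  nlinarith

lemma norm_le_sqrt (hx : x ∈ T.C) : ‖T.ev x‖ ≤ Real.sqrt (Q.sq x) := by
  have h := T.cs (one_mem _) hx
  rwa [star_one, one_mul, QT.sq_eq Q (1 : D), star_one, one_mul, Q.one, Real.sqrt_one, one_mul] at h

lemma norm_le (hx : x ∈ T.C) : ‖T.ev x‖ ≤ ‖x‖ :=
  (T.norm_le_sqrt hx).trans ((Real.sqrt_le_left (norm_nonneg _)).2 (Q.sq_le_norm x))

lemma cs' (hx : x ∈ T.C) (hy : y ∈ T.C) :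
    ‖T.ev (x * y)‖ ≤ ‖x‖ * Real.sqrt (Q.sq y) := by
  have h := T.cs (star_mem hx) hy
  rw [star_star, Q.sq_star] at h
  exact h.trans (mul_le_mul_of_nonneg_right
    ((Real.sqrt_le_left (norm_nonneg _)).2 (Q.sq_le_norm x)) (Real.sqrt_nonneg _))

end PSt

end St

/-- One group of blocks: almost symmetries with flips, commuting across blocks. -/
structure Blk (D : Type u) [CStarAlgebra D] (ι : Type v) (κ : Type) (δ : ℝ) where
  ξ : ι → κ → D
  Y : ι → κ → D
  sa : ∀ g r, IsSelfAdjoint (ξ g r)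
  norm : ∀ g r, ‖ξ g r‖ ≤ 1
  comm : ∀ g h r s, r ≠ s → Commute (ξ g r) (ξ h s) ∧ Commute (Y g r) (ξ h s)
  unit : ∀ g r, star (Y g r) * Y g r = 1 ∧ Y g r * star (Y g r) = 1
  sq_one : ∀ g r, ∀ Q : QT D, Q.sq (ξ g r * ξ g r - 1) ≤ δ ^ 4
  flip : ∀ g r, ∀ Q : QT D, Q.sq (Y g r * ξ g r * star (Y g r) + ξ g r) ≤ δ ^ 4

/-- The collective element of some blocks. -/
def cl {D : Type u} [CStarAlgebra D] {κ : Type} (A : Finset κ) (x : κ → D) : D :=
  rt A.card • ∑ r ∈ A, x r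

/-- The kernel of some blocks. -/
def kn {D : Type u} [CStarAlgebra D] {κ : Type} (A : Finset κ) (x y : κ → D) : D :=
  (A.card : ℝ)⁻¹ • ∑ r ∈ A, x r * y r

namespace Blk

variable {D : Type u} [CStarAlgebra D] {ι : Type v} {κ : Type} {δ : ℝ} (B : Blk D ι κ δ)

/-- The elements commuting with some blocks and their flips. -/
def away (A : Finset κ) : StarSubalgebra ℂ D :=
  StarSubalgebra.centralizer ℂ {x | ∃ g, ∃ r ∈ A, B.ξ g r = x ∨ B.Y g r = x}

lemma away_closed (A : Finset κ) : IsClosed (B.away A : Set D) := by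
  rw [away, StarSubalgebra.coe_centralizer]; exact Set.isClosed_centralizer _

lemma mem_away {A : Finset κ} {x : D}
    (h : ∀ g, ∀ r ∈ A, Commute (B.ξ g r) x ∧ Commute (B.Y g r) x) : x ∈ B.away A := by
  rw [away, StarSubalgebra.mem_centralizer_iff]
  rintro _ ⟨g, r, hr, rfl | rfl⟩
  · exact ⟨(h g r hr).1.eq, by rw [(B.sa g r).star_eq]; exact (h g r hr).1.eq⟩
  · refine ⟨(h g r hr).2.eq, ?_⟩
    obtain ⟨h1, h2⟩ := B.unit g r
    calc star (B.Y g r) * x = star (B.Y g r) * (x * (B.Y g r * star (B.Y g r))) := by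
          rw [h2, mul_one]
      _ = star (B.Y g r) * ((B.Y g r * x) * star (B.Y g r)) := by
          rw [(h g r hr).2.eq]; simp only [mul_assoc]
      _ = x * star (B.Y g r) := by simp only [← mul_assoc, h1, one_mul]

lemma comm_away {A : Finset κ} {x : D} (hx : x ∈ B.away A) (g : ι) {r : κ} (hr : r ∈ A) :
    Commute (B.ξ g r) x ∧ Commute (B.Y g r) x := by
  rw [away, StarSubalgebra.mem_centralizer_iff] at hx
  exact ⟨(hx _ ⟨g, r, hr, Or.inl rfl⟩).1, (hx _ ⟨g, r, hr, Or.inr rfl⟩).1⟩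

lemma away_mono {A A' : Finset κ} (h : A ⊆ A') : B.away A' ≤ B.away A := fun _ hx =>
  B.mem_away fun g _ hr => B.comm_away hx g (h hr)

lemma ξ_away {A : Finset κ} (g : ι) {r : κ} (hr : r ∉ A) : B.ξ g r ∈ B.away A :=
  B.mem_away fun h s hs => B.comm h g s r fun e => hr (e ▸ hs)

variable [PartialOrder D] [StarOrderedRing D] {Q : QT D}

/-- Odd moments vanish. -/
lemma ev_odd (hδ : 0 < δ) (hδ1 : δ ≤ 1) (T : St Q) {g : ι} {r : κ} {X : D} (hξ : B.ξ g r ∈ T.C)
    (hX : X ∈ T.C) (hXa : X ∈ B.away {r}) : ‖T.ev (X * B.ξ g r)‖ ≤ 16 * δ * ‖X‖ := by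
  set z := B.ξ g r with hz
  set Y := B.Y g r with hY
  have step : ∀ p : D, IsSelfAdjoint p → p ∈ T.C → p ∈ B.away {r} →
      |(T.ev (p * p * z)).re| ≤ 4 * δ * ‖p‖ ^ 2 := by
    intro p hp hpC hpa
    obtain ⟨h1, h2⟩ := B.unit g r
    have hc : Commute Y p := (B.comm_away hpa g (mem_singleton_self r)).2
    set a := p * (1 + Y * z * star Y) with ha
    set b := p * (1 - z) with hb
    have hpz : p * z ∈ T.C := mul_mem hpC hξ
    have e1 : a = Y * (p * (1 + z)) * star Y := by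
      rw [ha, ← mul_assoc Y p, hc.eq, mul_assoc p Y, mul_assoc p]
      congr 1
      rw [mul_add, mul_one, add_mul, h2]
    have hu : ∀ w : D, Q.sq (Y * w) = Q.sq w := fun w => by
      rw [Q.sq_eq, Q.sq_eq, star_mul, mul_assoc, ← mul_assoc (star Y), h1, one_mul]
    have hsa : Q.sq a = Q.sq (p * (1 + z)) := by
      rw [e1, mul_assoc, hu, ← Q.sq_star, star_mul, star_star, hu, Q.sq_star]
    have hd : a - b = p * (Y * z * star Y + z) := by rw [ha, hb]; noncomm_ring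
    have hnz : ‖z‖ ≤ 1 := B.norm g r
    have hn1 : ‖(1 : D)‖ ≤ 1 := by
      rcases subsingleton_or_nontrivial D with _ | _
      · rw [Subsingleton.elim (1 : D) 0, norm_zero]; exact zero_le_one
      · rw [norm_one]
    have hnY : ‖Y‖ ≤ 1 := (sq_le_one_iff₀ (norm_nonneg _)).1 (by
      rw [_root_.sq, ← CStarRing.norm_star_mul_self, h1]; exact hn1)
    have hYz : ‖Y * z * star Y‖ ≤ 1 := (norm_mul_le _ _).trans (mul_le_one₀ ((norm_mul_le _ _).trans
      (mul_le_one₀ hnY (norm_nonneg _) hnz)) (norm_nonneg _) (by rwa [norm_star]))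
    have hna : ‖a‖ ^ 2 ≤ 4 * ‖p‖ ^ 2 := by
      have : ‖a‖ ≤ ‖p‖ * 2 := (norm_mul_le _ _).trans (mul_le_mul_of_nonneg_left
        ((norm_add_le _ _).trans (by linarith)) (norm_nonneg _))
      nlinarith [norm_nonneg a]
    have hnb : ‖b‖ ^ 2 ≤ 4 * ‖p‖ ^ 2 := by
      have : ‖b‖ ≤ ‖p‖ * 2 := (norm_mul_le _ _).trans (mul_le_mul_of_nonneg_left
        ((norm_sub_le _ _).trans (by linarith)) (norm_nonneg _))
      nlinarith [norm_nonneg b]
    have h3 := abs_sq_sub_le Q a b hna hnb hδ hδ1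
    have h4 : Q.sq (a - b) ≤ ‖p‖ ^ 2 * δ ^ 4 := by
      rw [hd]
      exact (sq_mul_left Q _ _).trans (mul_le_mul_of_nonneg_left (B.flip g r Q) (_root_.sq_nonneg _))
    have h5 : 4 / δ ^ 2 * Q.sq (a - b) ≤ 4 * δ * ‖p‖ ^ 2 := by
      refine (mul_le_mul_of_nonneg_left h4 (by positivity)).trans ?_
      rw [show 4 / δ ^ 2 * (‖p‖ ^ 2 * δ ^ 4) = 4 * δ ^ 2 * ‖p‖ ^ 2 by field_simp]
      have : δ ^ 2 ≤ δ := by nlinarith
      nlinarith [_root_.sq_nonneg ‖p‖]
    have hc1 : p * (1 + z) ∈ T.C := mul_mem hpC (add_mem (one_mem _) hξ)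
    have hc2 : b ∈ T.C := mul_mem hpC (sub_mem (one_mem _) hξ)
    have hcz : Commute z p := T.comm _ hξ _ hpC
    have e2 : star (p * (1 + z)) * (p * (1 + z)) - star b * b = (4 : ℂ) • (p * p * z) := by
      rw [hb, star_mul, star_mul, star_add, star_sub, star_one, hp.star_eq, (B.sa g r).star_eq, ← hz]
      have e3 : z * p * p = p * p * z := by rw [hcz.eq, mul_assoc, hcz.eq, ← mul_assoc]
      rw [show (4 : ℂ) • (p * p * z) = p * p * z + p * p * z + p * p * z + p * p * z by module]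
      calc (1 + z) * p * (p * (1 + z)) - (1 - z) * p * (p * (1 - z))
          = z * p * p + z * p * p + p * p * z + p * p * z := by noncomm_ring
        _ = _ := by rw [e3]
    have h6 : ((Q.sq (p * (1 + z)) : ℝ) : ℂ) - (Q.sq b : ℝ) = 4 * T.ev (p * p * z) := by
      rw [← T.ev_sq hc1, ← T.ev_sq hc2, ← T.ev_sub (mul_mem (star_mem hc1) hc1)
        (mul_mem (star_mem hc2) hc2), e2, T.ev_smul _ (mul_mem (mul_mem hpC hpC) hξ)]
    have h7 : 4 * (T.ev (p * p * z)).re = Q.sq a - Q.sq b := by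
      rw [hsa]
      simpa using (congrArg Complex.re h6).symm
    rw [abs_le] at h3 ⊢
    constructor <;> nlinarith [h3.1, h3.2, h7, h5]
  have sa_case : ∀ H : D, IsSelfAdjoint H → H ∈ T.C → H ∈ B.away {r} →
      ‖T.ev (H * z)‖ ≤ 8 * δ * ‖H‖ := by
    intro H hH hHC hHa
    rcases eq_or_ne ‖H‖ 0 with h0 | h0
    · rw [norm_eq_zero.1 h0, zero_mul, norm_zero, mul_zero]
      exact (T.norm_le (zero_mem _)).trans_eq norm_zero
    set c := ‖H‖ with hc
    have hc0 : 0 < c := by positivity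
    have hn : ∀ e : ℝ, |e| = c → ‖H + algebraMap ℝ D e‖ ≤ 2 * c := fun e he => by
      refine (norm_add_le _ _).trans ?_
      have : ‖algebraMap ℝ D e‖ ≤ |e| := by
        rcases subsingleton_or_nontrivial D with _ | _
        · rw [Subsingleton.elim (algebraMap ℝ D e) 0, norm_zero]; exact abs_nonneg _
        · rw [norm_algebraMap', Real.norm_eq_abs]
      linarith
    have hm : ∀ e : ℝ, algebraMap ℝ D e ∈ T.C := fun e => by
      rw [IsScalarTower.algebraMap_apply ℝ ℂ D]; exact algebraMap_mem T.C _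
    have hm' : ∀ e : ℝ, algebraMap ℝ D e ∈ B.away {r} := fun e => by
      rw [IsScalarTower.algebraMap_apply ℝ ℂ D]; exact algebraMap_mem (B.away _) _
    have hs : ∀ e : ℝ, IsSelfAdjoint (H + algebraMap ℝ D e) :=
      fun e => hH.add (IsSelfAdjoint.algebraMap D (IsSelfAdjoint.all e))
    have e : H * z = ((4 * c)⁻¹ : ℝ) • ((H + algebraMap ℝ D c) * (H + algebraMap ℝ D c) * z -
        (H + algebraMap ℝ D (-c)) * (H + algebraMap ℝ D (-c)) * z) := by
      rw [map_neg, Algebra.algebraMap_eq_smul_one]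
      simp only [add_mul, mul_add, neg_mul, mul_neg, smul_mul_assoc, mul_smul_comm, one_mul, mul_one,
        smul_smul, smul_sub, smul_add, smul_neg, neg_neg]
      match_scalars <;> field_simp <;> ring
    have m1 : ∀ e : ℝ, (H + algebraMap ℝ D e) * (H + algebraMap ℝ D e) * z ∈ T.C := fun e =>
      mul_mem (mul_mem (add_mem hHC (hm e)) (add_mem hHC (hm e))) hξ
    have b1 : ∀ e : ℝ, |e| = c →
        |(T.ev ((H + algebraMap ℝ D e) * (H + algebraMap ℝ D e) * z)).re| ≤ 4 * δ * (2 * c) ^ 2 :=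
      fun e he => (step _ (hs e) (add_mem hHC (hm e)) (add_mem hHa (hm' e))).trans
        (mul_le_mul_of_nonneg_left (pow_le_pow_left₀ (norm_nonneg _) (hn e he) 2) (by positivity))
    have hre : T.ev (H * z) = ((T.ev (H * z)).re : ℂ) := by
      have hsa' : IsSelfAdjoint (H * z) :=
        (IsSelfAdjoint.commute_iff hH (B.sa g r)).1 (T.comm _ hHC _ hξ)
      rw [T.ev_qs (mul_mem hHC hξ) hsa', Complex.ofReal_re]
    rw [hre, Complex.norm_real, Real.norm_eq_abs, e, T.ev_smul_real _ (sub_mem (m1 c) (m1 (-c))),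
      T.ev_sub (m1 c) (m1 (-c)), Complex.re_ofReal_mul, Complex.sub_re, abs_mul,
      abs_of_pos (a := (4 * c)⁻¹) (by positivity)]
    refine (mul_le_mul_of_nonneg_left ((abs_sub _ _).trans (add_le_add
      (b1 c (abs_of_pos hc0)) (b1 (-c) (by rw [abs_neg, abs_of_pos hc0])))) (by positivity)).trans
        (le_of_eq ?_)
    field_simp
    ring
  have hre : ((ℜ X : selfAdjoint D) : D) ∈ T.C ∧ ((ℜ X : selfAdjoint D) : D) ∈ B.away {r} := by
    rw [realPart_apply_coe, ← Complex.coe_smul]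
    exact ⟨SMulMemClass.smul_mem _ (add_mem hX (star_mem hX)),
      SMulMemClass.smul_mem _ (add_mem hXa (star_mem hXa))⟩
  have him : ((ℑ X : selfAdjoint D) : D) ∈ T.C ∧ ((ℑ X : selfAdjoint D) : D) ∈ B.away {r} := by
    rw [imaginaryPart_apply_coe, ← Complex.coe_smul, smul_smul]
    exact ⟨SMulMemClass.smul_mem _ (sub_mem hX (star_mem hX)),
      SMulMemClass.smul_mem _ (sub_mem hXa (star_mem hXa))⟩
  have h1 := sa_case _ (ℜ X).2 hre.1 hre.2
  have h2 := sa_case _ (ℑ X).2 him.1 him.2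
  conv_lhs => rw [← realPart_add_I_smul_imaginaryPart X]
  rw [add_mul, smul_mul_assoc, T.ev_add (mul_mem hre.1 hξ)
    (SMulMemClass.smul_mem _ (mul_mem him.1 hξ)), T.ev_smul _ (mul_mem him.1 hξ)]
  refine (norm_add_le _ _).trans ?_
  rw [norm_mul, Complex.norm_I, one_mul]
  have n1 : ‖((ℜ X : selfAdjoint D) : D)‖ ≤ ‖X‖ := realPart.norm_le X
  have n2 : ‖((ℑ X : selfAdjoint D) : D)‖ ≤ ‖X‖ := imaginaryPart.norm_le X
  nlinarith

/-- Squares are one. -/
lemma ev_even (hδ1 : δ ≤ 1) (hδ : 0 ≤ δ) (T : St Q) {g : ι} {r : κ} {X : D}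
    (hξ : B.ξ g r ∈ T.C) (hX : X ∈ T.C) :
    ‖T.ev (X * (B.ξ g r * B.ξ g r)) - T.ev X‖ ≤ δ * ‖X‖ := by
  have h2 : B.ξ g r * B.ξ g r - 1 ∈ T.C := sub_mem (mul_mem hξ hξ) (one_mem _)
  have h := T.cs' hX h2
  rw [mul_sub, mul_one, T.ev_sub (mul_mem hX (mul_mem hξ hξ)) hX] at h
  refine h.trans ?_
  rw [mul_comm δ]
  refine mul_le_mul_of_nonneg_left ((Real.sqrt_le_left hδ).2 ((B.sq_one g r Q).trans ?_))
    (norm_nonneg _)
  exact pow_le_pow_of_le_one hδ hδ1 (by norm_num)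

/-- Off diagonal sums over disjoint sets of blocks are small in two-norm. -/
lemma sq_cross (hL : LinearStatement.{u}) (hδ : 0 < δ) (hδ1 : δ ≤ 1) [DecidableEq κ] {g h : ι}
    {A A' : Finset κ} (hAA' : Disjoint A A') {P : Finset (κ × κ)} (hP : P ⊆ A ×ˢ A') :
    Q.sq (∑ p ∈ P, B.ξ g p.1 * B.ξ h p.2) ≤ P.card + (P.card : ℝ) ^ 2 * (16 * δ) := by
  obtain ⟨T, hT, -⟩ := exists_st Q hL
    {x | (∃ r ∈ A, B.ξ g r = x) ∨ ∃ r ∈ A', B.ξ h r = x} (by
    rintro _ (⟨r, -, rfl⟩ | ⟨r, -, rfl⟩) <;> exact B.sa _ r) (by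
    rintro _ (⟨r, hr, rfl⟩ | ⟨r, hr, rfl⟩) _ (⟨s, hs, rfl⟩ | ⟨s, hs, rfl⟩)
    · rcases eq_or_ne r s with rfl | hne
      exacts [Commute.refl _, (B.comm g g r s hne).1]
    · exact (B.comm g h r s fun e => disjoint_left.1 hAA' hr (e ▸ hs)).1
    · exact (B.comm h g r s fun e => disjoint_left.1 hAA' hs (e ▸ hr)).1
    · rcases eq_or_ne r s with rfl | hne
      exacts [Commute.refl _, (B.comm h h r s hne).1])
  have m1 : ∀ p ∈ P, B.ξ g p.1 ∈ T.C := fun p hp =>
    hT (Or.inl ⟨_, (mem_product.1 (hP hp)).1, rfl⟩)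
  have m2 : ∀ p ∈ P, B.ξ h p.2 ∈ T.C := fun p hp =>
    hT (Or.inr ⟨_, (mem_product.1 (hP hp)).2, rfl⟩)
  have mp : ∀ p ∈ P, B.ξ g p.1 * B.ξ h p.2 ∈ T.C := fun p hp => mul_mem (m1 p hp) (m2 p hp)
  have hn : ∀ p : κ × κ, ‖B.ξ g p.1 * B.ξ h p.2‖ ≤ 1 := fun p =>
    (norm_mul_le _ _).trans (mul_le_one₀ (B.norm _ _) (norm_nonneg _) (B.norm _ _))
  have hoff : ∀ p ∈ P, ∀ q ∈ P, p ≠ q →
      ‖T.ev (star (B.ξ g p.1 * B.ξ h p.2) * (B.ξ g q.1 * B.ξ h q.2))‖ ≤ 16 * δ := by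
    intro p hp q hq hpq
    rw [star_mul, (B.sa g p.1).star_eq, (B.sa h p.2).star_eq]
    have hp' := mem_product.1 (hP hp)
    have hq' := mem_product.1 (hP hq)
    have c := fun x hx y hy => (T.comm x hx y hy).eq
    by_cases h1 : p.1 = q.1
    · have h2 : p.2 ≠ q.2 := fun h2 => hpq (Prod.ext h1 h2)
      set X := B.ξ g p.1 * B.ξ g q.1 * B.ξ h q.2 with hX
      have hXC : X ∈ T.C := mul_mem (mul_mem (m1 p hp) (m1 q hq)) (m2 q hq)
      have e : B.ξ h p.2 * B.ξ g p.1 * (B.ξ g q.1 * B.ξ h q.2) = X * B.ξ h p.2 := by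
        rw [hX, c _ (mul_mem (mul_mem (m1 p hp) (m1 q hq)) (m2 q hq)) _ (m2 p hp)]
        simp only [mul_assoc]
      rw [e]
      refine (B.ev_odd hδ hδ1 T (m2 p hp) hXC ?_).trans (mul_le_of_le_one_right (by positivity) ?_)
      · refine mul_mem (mul_mem ?_ ?_) ?_ <;> refine B.ξ_away _ (mem_singleton.not.2 ?_)
        · exact fun e => disjoint_left.1 hAA' hp'.1 (e ▸ hp'.2)
        · exact fun e => disjoint_left.1 hAA' hq'.1 (e ▸ hp'.2)
        · exact Ne.symm h2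
      · rw [hX, mul_assoc]
        exact (norm_mul_le _ _).trans (mul_le_one₀ (B.norm _ _) (norm_nonneg _) (hn q))
    · set X := B.ξ h p.2 * (B.ξ g q.1 * B.ξ h q.2) with hX
      have hXC : X ∈ T.C := mul_mem (m2 p hp) (mp q hq)
      have e : B.ξ h p.2 * B.ξ g p.1 * (B.ξ g q.1 * B.ξ h q.2) = X * B.ξ g p.1 := by
        rw [hX, mul_assoc, c _ (m1 p hp) _ (mp q hq)]
        simp only [mul_assoc]
      rw [e]
      refine (B.ev_odd hδ hδ1 T (m1 p hp) hXC ?_).trans (mul_le_of_le_one_right (by positivity) ?_)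
      · refine mul_mem ?_ (mul_mem ?_ ?_) <;> refine B.ξ_away _ (mem_singleton.not.2 ?_)
        · exact fun e => disjoint_left.1 hAA' hp'.1 (e ▸ hp'.2)
        · exact Ne.symm h1
        · exact fun e => disjoint_left.1 hAA' hp'.1 (e ▸ hq'.2)
      · exact (norm_mul_le _ _).trans (mul_le_one₀ (B.norm _ _) (norm_nonneg _) (hn q))
  have hsum : (∑ p ∈ P, B.ξ g p.1 * B.ξ h p.2) ∈ T.C := sum_mem mp
  have e0 := T.ev_sq hsum
  rw [star_sum, sum_mul_sum, T.ev_sum P _ fun p hp =>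
    sum_mem fun q hq => mul_mem (star_mem (mp p hp)) (mp q hq)] at e0
  have b : ∀ p ∈ P, ‖T.ev (∑ q ∈ P, star (B.ξ g p.1 * B.ξ h p.2) * (B.ξ g q.1 * B.ξ h q.2))‖ ≤
      1 + P.card * (16 * δ) := by
    intro p hp
    rw [T.ev_sum P _ fun q hq => mul_mem (star_mem (mp p hp)) (mp q hq), ← add_sum_erase P _ hp]
    refine (norm_add_le _ _).trans (add_le_add ?_ ((norm_sum_le _ _).trans ?_))
    · refine (T.norm_le (mul_mem (star_mem (mp p hp)) (mp p hp))).trans ?_
      rw [CStarRing.norm_star_mul_self]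
      exact mul_le_one₀ (hn p) (norm_nonneg _) (hn p)
    · refine (sum_le_card_nsmul _ _ _ fun q hq => hoff p hp q (mem_of_mem_erase hq)
        (ne_of_mem_erase hq).symm).trans ?_
      rw [nsmul_eq_mul]
      exact mul_le_mul_of_nonneg_right (by exact_mod_cast card_erase_le) (by positivity)
  have h9 : Q.sq (∑ p ∈ P, B.ξ g p.1 * B.ξ h p.2) =
      ‖((Q.sq (∑ p ∈ P, B.ξ g p.1 * B.ξ h p.2) : ℝ) : ℂ)‖ := by
    rw [Complex.norm_real, Real.norm_eq_abs, abs_of_nonneg (Q.sq_nonneg _)]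
  rw [h9, ← e0]
  refine (norm_sum_le _ _).trans ((sum_le_card_nsmul _ _ _ b).trans (le_of_eq ?_))
  rw [nsmul_eq_mul]
  ring

end Blk

end Vale.Agent.P095.General.Fair
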