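import Vale.Agent.P095.General.Fair.Step

/-!
The Gaussian law of two bounded versions given the kernels.
-/

noncomputable section

open Finset Filter Topology
open scoped BoundedContinuousFunction

namespace Vale.Agent.P095.General.Fair

attribute [local instance] CStarAlgebra.spectralOrder CStarAlgebra.spectralOrderedRing

universe u v

namespace Ctx.Rz

variable {D : Type u} [CStarAlgebra D] {ι : Type v} {I : Type} {c : Ctx D ι I}
  {M : Type u} [CStarAlgebra M] (Z : c.Rz M)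

/-- The elements which at every level are nearly independent of each piece of a group. -/
def App (a : I) : StarSubalgebra ℂ M where
  carrier := {F | ∃ C : ℝ, 0 ≤ C ∧ ∀ l b, b < 2 ^ l → ∃ G E : ↥c.M0,
    (G : ℕ →ᵇ D) ∈ c.Out a l b ∧ ‖G‖ ≤ C ∧ ‖E‖ ≤ C / 2 ^ l ∧ Z.π G + Z.π E = F}
  mul_mem' := by
    rintro F F' ⟨C, hC, hF⟩ ⟨C', hC', hF'⟩
    refine ⟨3 * (C * C'), by positivity, fun l b hb => ?_⟩
    obtain ⟨G, E, hG, hGn, hEn, hsum⟩ := hF l b hb
    obtain ⟨G', E', hG', hGn', hEn', hsum'⟩ := hF' l b hb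
    refine ⟨G * G', G * E' + E * G' + E * E', mul_mem hG hG', ?_, ?_, ?_⟩
    · refine (norm_mul_le _ _).trans ((mul_le_mul hGn hGn' (norm_nonneg _) hC).trans ?_)
      nlinarith [mul_nonneg hC hC']
    · have hd : C / 2 ^ l ≤ C := div_le_self hC (one_le_pow₀ (by norm_num))
      have b1 := (norm_mul_le G E').trans (mul_le_mul hGn hEn' (norm_nonneg _) hC)
      have b2 := (norm_mul_le E G').trans (mul_le_mul hEn hGn' (norm_nonneg _) (by positivity))
      have b3 := (norm_mul_le E E').trans (mul_le_mul (hEn.trans hd) hEn' (norm_nonneg _) hC)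
      refine (norm_add₃_le).trans ((add_le_add_three b1 b2 b3).trans (le_of_eq ?_))
      ring
    · rw [← hsum, ← hsum', map_mul, map_add, map_add, map_mul, map_mul, map_mul]
      noncomm_ring
  one_mem' := ⟨1, zero_le_one, fun l b _ => ⟨1, 0, one_mem _, norm_seq_one,
    by rw [norm_zero]; positivity, by simp⟩⟩
  add_mem' := by
    rintro F F' ⟨C, hC, hF⟩ ⟨C', hC', hF'⟩
    refine ⟨C + C', by positivity, fun l b hb => ?_⟩
    obtain ⟨G, E, hG, hGn, hEn, hsum⟩ := hF l b hb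
    obtain ⟨G', E', hG', hGn', hEn', hsum'⟩ := hF' l b hb
    refine ⟨G + G', E + E', add_mem hG hG', (norm_add_le _ _).trans (add_le_add hGn hGn'),
      (norm_add_le _ _).trans ((add_le_add hEn hEn').trans_eq (add_div _ _ _).symm), ?_⟩
    rw [← hsum, ← hsum', map_add, map_add]
    abel
  zero_mem' := ⟨0, le_rfl, fun l b _ => ⟨0, 0, zero_mem _, by simp, by simp, by simp⟩⟩
  algebraMap_mem' z := ⟨‖z‖, norm_nonneg _, fun l b _ => ⟨z • 1, 0,
    SMulMemClass.smul_mem z (one_mem _),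
    by rw [norm_smul]; exact mul_le_of_le_one_right (norm_nonneg _) norm_seq_one,
    by rw [norm_zero]; positivity,
    by rw [map_smul, map_one, map_zero, add_zero, Algebra.algebraMap_eq_smul_one]⟩⟩
  star_mem' := by
    rintro F ⟨C, hC, hF⟩
    refine ⟨C, hC, fun l b hb => ?_⟩
    obtain ⟨G, E, hG, hGn, hEn, hsum⟩ := hF l b hb
    exact ⟨star G, star E, star_mem hG, by rwa [norm_star], by rwa [norm_star],
      by rw [map_star, map_star, ← star_add, hsum]⟩

/-- The Gaussian factor of the kernel. -/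
def expK (a : I) (g h : ι) (l b : ℕ) (σ u : ℝ) : M :=
  cfc (fun x : ℝ => Real.exp (-(u * (1 + σ * x)))) (Z.k a g h l b)

lemma expK_eq (a : I) (g h : ι) (l b : ℕ) (σ u : ℝ) :
    Z.expK a g h l b σ u = NormedSpace.exp ((-u) • ((1 : M) + σ • Z.k a g h l b)) := by
  have hk := Z.k_sa a g h l b
  have e : cfc (fun x : ℝ => (-u) * (1 + σ * x)) (Z.k a g h l b) =
      (-u) • ((1 : M) + σ • Z.k a g h l b) := by
    rw [cfc_const_mul (-u) (fun x : ℝ => 1 + σ * x) (Z.k a g h l b), cfc_const_add (R := ℝ) 1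
      (fun x : ℝ => σ * x) (Z.k a g h l b), cfc_const_mul_id σ (Z.k a g h l b), map_one]
  rw [← e, ← CFC.exp_eq_normedSpace_exp (𝕜 := ℝ) (a := cfc (fun x : ℝ => (-u) * (1 + σ * x))
    (Z.k a g h l b)) (cfc_predicate _ _), ← Real.exp_eq_exp_ℝ, ← cfc_comp' Real.exp (fun x : ℝ => (-u) * (1 + σ * x))
    (Z.k a g h l b), expK]
  simp only [neg_mul]

lemma pm_eq (a : I) (g h : ι) (l b : ℕ) (σ lam : ℝ) :
    Z.π (pm c a g h l b σ lam) =
      cfc (fun x : ℝ => (1 - lam ^ 2) - σ * lam ^ 2 * x) (Z.k a g h l b) := by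
  have hk := Z.k_sa a g h l b
  rw [pm, map_sub, map_smul, map_smul, map_one, ← k.eq_def Z, Complex.coe_smul, Complex.coe_smul,
    cfc_sub (fun _ => 1 - lam ^ 2) (fun x : ℝ => σ * lam ^ 2 * x) (Z.k a g h l b),
    cfc_const (1 - lam ^ 2) (Z.k a g h l b), cfc_const_mul_id (σ * lam ^ 2) (Z.k a g h l b),
    Algebra.algebraMap_eq_smul_one]

lemma abs_le_of_mem_spectrum_k {a : I} {g h : ι} {l b : ℕ} {x : ℝ}
    (hx : x ∈ spectrum ℝ (Z.k a g h l b)) : |x| ≤ 1 := by
  rcases subsingleton_or_nontrivial M with _ | _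
  · exact absurd hx (by simp [spectrum.of_subsingleton])
  · rw [← Real.norm_eq_abs]
    exact (spectrum.norm_le_norm_of_mem hx).trans (Z.norm_k a g h l b)

lemma norm_expK_sub_pm (a : I) (g h : ι) (l b : ℕ) {σ lam : ℝ} (hσ : |σ| = 1)
    (hlam : lam ^ 2 ≤ 1 / 2) :
    ‖Z.expK a g h l b σ (lam ^ 2) - Z.π (pm c a g h l b σ lam)‖ ≤ 4 * lam ^ 4 ∧
      ‖Z.expK a g h l b σ (lam ^ 2)‖ ≤ 1 := by
  have hb : ∀ x ∈ spectrum ℝ (Z.k a g h l b),
      0 ≤ lam ^ 2 * (1 + σ * x) ∧ lam ^ 2 * (1 + σ * x) ≤ 2 * lam ^ 2 := fun x hx => by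
    have h1 : |σ * x| ≤ 1 := by rw [abs_mul, hσ, one_mul]; exact Z.abs_le_of_mem_spectrum_k hx
    rw [abs_le] at h1
    constructor <;> nlinarith [sq_nonneg lam]
  constructor
  · rw [Z.pm_eq, expK, ← cfc_sub _ _ (Z.k a g h l b)]
    refine norm_cfc_le (by positivity) fun x hx => ?_
    obtain ⟨h0, h2⟩ := hb x hx
    have h3 := Real.abs_exp_sub_one_sub_id_le (x := -(lam ^ 2 * (1 + σ * x)))
      (by rw [abs_neg, abs_of_nonneg h0]; linarith)
    rw [Real.norm_eq_abs, show Real.exp (-(lam ^ 2 * (1 + σ * x))) - (1 - lam ^ 2 - σ * lam ^ 2 * x) =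
      Real.exp (-(lam ^ 2 * (1 + σ * x))) - 1 - -(lam ^ 2 * (1 + σ * x)) by ring]
    refine h3.trans ?_
    rw [neg_sq]
    exact (pow_le_pow_left₀ h0 h2 2).trans_eq (by ring)
  · refine norm_cfc_le zero_le_one fun x hx => ?_
    rw [Real.norm_eq_abs, Real.abs_exp, Real.exp_le_one_iff]
    linarith [(hb x hx).1]

/-- The Gaussian law of a pair. -/
theorem char (a : I) (g h : ι) {σ : ℝ} (hσ : σ = 1 ∨ σ = -1) (t : ℝ) {F : M}
    (hF : F ∈ (Z.App a).topologicalClosure) :
    Z.φ (F * (Z.w a g 0 0 t * Z.w a h 0 0 (σ * t))) = Z.φ (F * Z.expK a g h 0 0 σ (t ^ 2)) := by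
  refine closure_minimal (t := {F | Z.φ (F * (Z.w a g 0 0 t * Z.w a h 0 0 (σ * t))) =
    Z.φ (F * Z.expK a g h 0 0 σ (t ^ 2))}) ?_
    (isClosed_eq (Z.cont.comp (continuous_mul_const _)) (Z.cont.comp (continuous_mul_const _))) hF
  intro F hFA
  obtain ⟨C, hC, hFd⟩ := hFA
  have hσ' : |σ| = 1 := by rcases hσ with rfl | rfl <;> simp
  let cr : CommRing M := { (inferInstance : Ring M) with mul_comm := Z.comm }
  let Φc : M →L[ℂ] ℂ := ⟨Z.φ, Z.cont⟩
  set r := Real.sqrt 2⁻¹ with hr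
  have hr2 : r ^ 2 = 2⁻¹ := Real.sq_sqrt (by norm_num)
  have hr0 : 0 ≤ r := Real.sqrt_nonneg _
  have hr1 : r < 1 := (Real.sqrt_lt' one_pos).2 (by norm_num)
  have hprod : ∀ (u : ι) (τ : ℝ) (l : ℕ),
      Z.w a u 0 0 τ = ∏ b ∈ range (2 ^ l), Z.w a u l b (τ * r ^ l) := by
    intro u τ l
    induction l with
    | zero => simp
    | succ l ih =>
      rw [ih, pow_succ 2 l, mul_two, prod_range_add, ← prod_mul_distrib]
      refine prod_congr rfl fun b hb => ?_
      rw [Z.w_split a u (mem_range.1 hb), add_comm (2 ^ l) b, pow_succ r l, ← mul_assoc]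
  have main : ∀ η : ℝ, 0 < η →
      ‖Z.φ (F * (Z.w a g 0 0 t * Z.w a h 0 0 (σ * t))) -
        Z.φ (F * Z.expK a g h 0 0 σ (t ^ 2))‖ ≤ C * (η * t ^ 2) := by
    intro η hη
    obtain ⟨θ₀, hθ₀, hθ⟩ := c.law_two hη
    have hlim : Tendsto (fun l : ℕ => |t| * r ^ l) atTop (𝓝 0) := by
      simpa using (tendsto_pow_atTop_nhds_zero_of_lt_one hr0 hr1).const_mul |t|
    have hbound : Tendsto (fun l : ℕ => C * (η * t ^ 2 + 13 * t ^ 2 * (|t| * r ^ l) + 11 * (|t| * r ^ l)) +
        ‖Φc‖ * ‖F‖ * (4 * t ^ 2 * (|t| * r ^ l) ^ 2)) atTop (𝓝 (C * (η * t ^ 2))) := by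
      have h := (((tendsto_const_nhds (x := η * t ^ 2)).add (hlim.const_mul (13 * t ^ 2))).add
        (hlim.const_mul 11)).const_mul C |>.add (((hlim.pow 2).const_mul (4 * t ^ 2)).const_mul
          (‖Φc‖ * ‖F‖))
      simpa using h
    refine ge_of_tendsto hbound ?_
    filter_upwards [hlim.eventually_le_const hθ₀,
      hlim.eventually_le_const (show (0 : ℝ) < 1 / 2 by norm_num)] with l hl hl'
    set lam := t * r ^ l with hlam
    have hal : |lam| = |t| * r ^ l := by rw [hlam, abs_mul, abs_of_nonneg (pow_nonneg hr0 l)]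
    have hlam1 : |lam| ≤ 1 := by rw [hal]; linarith
    have hlam2 : lam ^ 2 ≤ 1 / 2 := by
      rw [← sq_abs, hal]
      calc (|t| * r ^ l) ^ 2 ≤ (1 / 2) ^ 2 := pow_le_pow_left₀ (by positivity) hl' 2
        _ ≤ 1 / 2 := by norm_num
    have hm : (2 : ℝ) ^ l * lam ^ 2 = t ^ 2 := by
      rw [hlam, mul_pow, ← pow_mul, mul_comm l 2, pow_mul, hr2, inv_pow, mul_left_comm,
        mul_inv_cancel₀ (by positivity), mul_one]
    set v : ℕ → M := fun b => Z.π (vm c a g h l b σ lam) with hv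
    set p : ℕ → M := fun b => Z.π (pm c a g h l b σ lam) with hp
    set q : ℕ → M := fun b => Z.expK a g h l b σ (lam ^ 2) with hq
    have eV : Z.w a g 0 0 t * Z.w a h 0 0 (σ * t) = ∏ b ∈ range (2 ^ l), v b := by
      rw [hprod g t l, hprod h (σ * t) l, ← prod_mul_distrib]
      refine prod_congr rfl fun b _ => ?_
      simp only [v, vm, w, map_mul, hlam, mul_assoc]
    have eQ : Z.expK a g h 0 0 σ (t ^ 2) = ∏ b ∈ range (2 ^ l), q b := by
      let +nondep : NormedAlgebra ℚ M := .restrictScalars ℚ ℂ M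
      simp only [q, Z.expK_eq]
      have hexp : ∀ (f : ℕ → M) (n : ℕ),
          ∏ b ∈ range n, NormedSpace.exp (f b) = NormedSpace.exp (∑ b ∈ range n, f b) := fun f n => by
        induction n with
        | zero => simp
        | succ n ih =>
          rw [prod_range_succ, sum_range_succ, ih, NormedSpace.exp_add_of_commute (Z.comm _ _)]
      rw [hexp, ← smul_sum, sum_add_distrib, ← smul_sum, Z.k_sum a g h l, sum_const,
        card_range]
      congr 1
      rw [← Nat.cast_smul_eq_nsmul ℝ, Nat.cast_pow, Nat.cast_ofNat,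
        show (2 : ℂ) ^ l = (((2 : ℝ) ^ l : ℝ) : ℂ) by push_cast; rfl, Complex.coe_smul,
        smul_comm σ, ← smul_add, smul_smul, neg_mul, mul_comm, hm]
    set mix : ℕ → M := fun n => (∏ b ∈ range n, v b) * ∏ b ∈ Ico n (2 ^ l), p b with hmix
    have hstep : ∀ n < 2 ^ l, ‖Z.φ (F * (mix (n + 1) - mix n))‖ ≤
        C * (η * lam ^ 2 + 13 * |lam| ^ 3) + C / 2 ^ l * (11 * |lam|) := by
      intro n hn
      have e : mix (n + 1) - mix n =
          (∏ b ∈ range n, v b) * (∏ b ∈ Ico (n + 1) (2 ^ l), p b) * (v n - p n) := by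
        simp only [mix]
        rw [prod_range_succ, prod_eq_prod_Ico_succ_bot hn]
        ring
      have pre : ∃ W : ↥c.M0, (W : ℕ →ᵇ D) ∈ c.Out a l n ∧ ‖W‖ ≤ 1 ∧
          Z.π W = (∏ b ∈ range n, v b) * ∏ b ∈ Ico (n + 1) (2 ^ l), p b := by
        set P : M → Prop := fun x => ∃ W : ↥c.M0, (W : ℕ →ᵇ D) ∈ c.Out a l n ∧ ‖W‖ ≤ 1 ∧ Z.π W = x
        have hmul : ∀ x y, P x → P y → P (x * y) := by
          rintro x y ⟨W, hW, hWn, rfl⟩ ⟨W', hW', hWn', rfl⟩
          exact ⟨W * W', mul_mem hW hW', (norm_mul_le _ _).trans (mul_le_one₀ hWn (norm_nonneg _) hWn'),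
            map_mul _ _ _⟩
        have h1 : P 1 := ⟨1, one_mem _, norm_seq_one, map_one _⟩
        have hne : ∀ i, i ≠ n → ∀ N, Disjoint (pc N l i) (pc N l n) := fun i hi N => pc_disjoint hi
        refine hmul _ _ (prod_induction _ P hmul h1 fun i hi => ?_)
          (prod_induction _ P hmul h1 fun i hi => ?_)
        · refine ⟨_, ?_, norm_vm a g h l i σ lam, rfl⟩
          have hin := hne i (ne_of_lt (mem_range.1 hi))
          exact mul_mem (c.W_Out_of_disjoint hin _) (c.W_Out_of_disjoint hin _)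
        · refine ⟨_, ?_, norm_pm a g h l i hσ' hlam1, rfl⟩
          have hin := hne i (ne_of_gt (mem_Ico.1 hi).1)
          refine sub_mem (SMulMemClass.smul_mem _ (one_mem _)) (SMulMemClass.smul_mem _ ?_)
          refine c.mem_Out.2 ⟨c.Kp_mem _ _ _ _ _, fun N => ?_⟩
          show kn (pc N l i) ((c.B a N).ξ g) ((c.B a N).ξ h) ∈ _
          rw [kn, ← Complex.coe_smul]
          exact SMulMemClass.smul_mem _ (sum_mem fun r hr => mul_mem
            ((c.B a N).ξ_away g fun hr' => disjoint_left.1 (hin N) hr hr')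
            ((c.B a N).ξ_away h fun hr' => disjoint_left.1 (hin N) hr hr'))
      obtain ⟨W, hW, hWn, hWe⟩ := pre
      obtain ⟨G, E, hG, hGn, hEn, hsum⟩ := hFd l n hn
      set d : ↥c.M0 := vm c a g h l n σ lam - pm c a g h l n σ lam with hd
      have e2 : F * (mix (n + 1) - mix n) = Z.π (G * W) * Z.π d + Z.π (E * W) * Z.π d := by
        rw [e, ← hWe, ← hsum, map_mul, map_mul, hd, map_sub]
        ring
      rw [e2, map_add]
      refine (norm_add_le _ _).trans (add_le_add ?_ ?_)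
      · refine (Z.step hη.le hθ a g h hn hσ (hal ▸ hl) hlam1 (X := G * W) (mul_mem hG hW)).trans ?_
        exact mul_le_mul_of_nonneg_right ((norm_mul_le _ _).trans
          ((mul_le_of_le_one_right (norm_nonneg _) hWn).trans hGn)) (by positivity)
      · refine (Z.bound (E * W) d).trans (mul_le_mul ((norm_mul_le _ _).trans
          ((mul_le_of_le_one_right (norm_nonneg _) hWn).trans hEn))
          ((Real.sqrt_le_left (by positivity)).2 (Z.sq_diff a g h hn hσ' hlam1))
          (Real.sqrt_nonneg _) (by positivity))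
    have hvp : ‖Z.φ (F * ∏ b ∈ range (2 ^ l), v b) - Z.φ (F * ∏ b ∈ range (2 ^ l), p b)‖ ≤
        (2 : ℝ) ^ l * (C * (η * lam ^ 2 + 13 * |lam| ^ 3) + C / 2 ^ l * (11 * |lam|)) := by
      have e : (∏ b ∈ range (2 ^ l), v b) - ∏ b ∈ range (2 ^ l), p b =
          ∑ n ∈ range (2 ^ l), (mix (n + 1) - mix n) := by
        rw [sum_range_sub mix]
        simp only [mix, prod_range_zero, Ico_self, prod_empty, one_mul, mul_one]
        rw [← range_eq_Ico]
      rw [← map_sub, ← mul_sub, e, mul_sum, map_sum]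
      refine (norm_sum_le _ _).trans ((sum_le_card_nsmul _ _ _ fun n hn =>
        hstep n (mem_range.1 hn)).trans_eq ?_)
      rw [card_range, nsmul_eq_mul, Nat.cast_pow, Nat.cast_ofNat]
    have hpq : ∀ n ≤ 2 ^ l, ‖(∏ b ∈ range n, p b) - ∏ b ∈ range n, q b‖ ≤ n * (4 * lam ^ 4) ∧
        ‖∏ b ∈ range n, q b‖ ≤ 1 := by
      intro n
      induction n with
      | zero =>
        intro _
        refine ⟨by simp, ?_⟩
        rw [prod_range_zero]
        rcases subsingleton_or_nontrivial M with _ | _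
        · rw [Subsingleton.elim (1 : M) 0, norm_zero]; exact zero_le_one
        · rw [norm_one]
      | succ n ih =>
        intro hn
        obtain ⟨h1, h2⟩ := ih (Nat.le_of_succ_le hn)
        obtain ⟨h3, h4⟩ := Z.norm_expK_sub_pm a g h l n hσ' hlam2
        refine ⟨?_, ?_⟩
        · rw [prod_range_succ, prod_range_succ,
            show (∏ b ∈ range n, p b) * p n - (∏ b ∈ range n, q b) * q n =
              ((∏ b ∈ range n, p b) - ∏ b ∈ range n, q b) * p n -
                (∏ b ∈ range n, q b) * (q n - p n) by ring]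
          refine (norm_sub_le _ _).trans ?_
          have b1 : ‖((∏ b ∈ range n, p b) - ∏ b ∈ range n, q b) * p n‖ ≤ n * (4 * lam ^ 4) :=
            (norm_mul_le _ _).trans ((mul_le_of_le_one_right (norm_nonneg _)
              ((NonUnitalStarAlgHom.norm_apply_le Z.π _).trans (norm_pm a g h l n hσ' hlam1))).trans h1)
          have b2 : ‖(∏ b ∈ range n, q b) * (q n - p n)‖ ≤ 4 * lam ^ 4 :=
            (norm_mul_le _ _).trans ((mul_le_of_le_one_left (norm_nonneg _) h2).trans h3)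
          push_cast
          linarith
        · rw [prod_range_succ]
          exact (norm_mul_le _ _).trans (mul_le_one₀ h2 (norm_nonneg _) h4)
    rw [eV, eQ]
    have hlast : ‖Z.φ (F * ∏ b ∈ range (2 ^ l), p b) - Z.φ (F * ∏ b ∈ range (2 ^ l), q b)‖ ≤
        ‖Φc‖ * (‖F‖ * (((2 ^ l : ℕ) : ℝ) * (4 * lam ^ 4))) := by
      rw [← map_sub, ← mul_sub]
      exact (Φc.le_opNorm _).trans (mul_le_mul_of_nonneg_left ((norm_mul_le _ _).trans
        (mul_le_mul_of_nonneg_left (hpq (2 ^ l) le_rfl).1 (norm_nonneg _))) (norm_nonneg _))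
    refine (norm_sub_le_norm_sub_add_norm_sub _ (Z.φ (F * ∏ b ∈ range (2 ^ l), p b)) _).trans
      ((add_le_add hvp hlast).trans (le_of_eq ?_))
    push_cast
    rw [← hal]
    have e1 : (2 : ℝ) ^ l * |lam| ^ 2 = t ^ 2 := by rw [sq_abs]; exact hm
    have e2 : (2 : ℝ) ^ l * (C / 2 ^ l * (11 * |lam|)) = C * (11 * |lam|) := by field_simp
    have e4 : (2 : ℝ) ^ l * lam ^ 4 = t ^ 2 * |lam| ^ 2 := by
      rw [sq_abs, ← hm]; ring
    linear_combination (C * 13 * |lam|) * e1 + e2 + (C * η) * hm + (4 * ‖Φc‖ * ‖F‖) * e4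
  show _ = _
  rw [← sub_eq_zero, ← norm_le_zero_iff]
  refine le_of_forall_pos_le_add fun e he => ?_
  rw [zero_add]
  refine (main (e / (C * t ^ 2 + 1)) (by positivity)).trans ?_
  rw [← mul_assoc, mul_comm C, mul_assoc, div_mul_eq_mul_div, div_le_iff₀ (by positivity)]
  exact mul_le_mul_of_nonneg_left (by linarith) he.le

end Ctx.Rz

end Vale.Agent.P095.General.Fair
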