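import Vale.Agent.P095.Exp

/-!
Commutators of exponentials in norm.
-/

noncomputable section

namespace Vale.Agent.P095.General.Fair

universe u

variable {A : Type u} [CStarAlgebra A] {a b x : A}

lemma gex_time (a : A) (s t : ℝ) : gex a (s + t) = gex a s * gex a t := by
  let +nondep : NormedAlgebra ℚ A := .restrictScalars ℚ ℂ A
  rw [gex, gex, gex, add_smul, NormedSpace.exp_add_of_commute]
  exact ((Commute.refl _).smul_left _).smul_right _

lemma gex_mul_neg (a : A) (t : ℝ) : gex a t * gex a (-t) = 1 := by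
  rw [← gex_time, add_neg_cancel, gex_zero]

lemma gex_neg_mul (a : A) (t : ℝ) : gex a (-t) * gex a t = 1 := by
  rw [← gex_time, neg_add_cancel, gex_zero]

lemma hasDerivAt_conj (a y : A) (u : ℝ) :
    HasDerivAt (fun u => gex a u * y * gex a (-u))
      (gex a u * (Complex.I • (a * y - y * a)) * gex a (-u)) u := by
  have h1 := (hasDerivAt_gex a (-u)).scomp u (hasDerivAt_neg u)
  refine (((hasDerivAt_gex' a u).mul_const y).mul h1).congr_deriv ?_
  simp only [Function.comp_apply, neg_smul, one_smul, smul_sub]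
  noncomm_ring

/-- A conjugation moves little what almost commutes. -/
lemma norm_conj_sub_le (ha : IsSelfAdjoint a) (y : A) (u : ℝ) :
    ‖gex a u * y * gex a (-u) - y‖ ≤ |u| * ‖a * y - y * a‖ := by
  have h := Convex.norm_image_sub_le_of_norm_hasDerivWithin_le (s := Set.univ) (x := 0) (y := u)
    (fun v _ => (hasDerivAt_conj a y v).hasDerivWithinAt) (C := ‖a * y - y * a‖) (fun v _ => ?_)
    convex_univ trivial trivial
  · simpa [mul_comm] using h
  · refine (norm_mul_le _ _).trans ((mul_le_of_le_one_right (norm_nonneg _) (norm_gex_le ha _)).trans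
      ((norm_mul_le _ _).trans ((mul_le_of_le_one_left (norm_nonneg _) (norm_gex_le ha _)).trans ?_)))
    rw [norm_smul, Complex.norm_I, one_mul]

/-- Commutator with an exponential. -/
lemma norm_comm_gex_le (ha : IsSelfAdjoint a) (y : A) (u : ℝ) :
    ‖gex a u * y - y * gex a u‖ ≤ |u| * ‖a * y - y * a‖ := by
  have e : gex a u * y - y * gex a u = (gex a u * y * gex a (-u) - y) * gex a u := by
    rw [sub_mul, mul_assoc (gex a u * y), gex_neg_mul, mul_one]
  rw [e]
  exact (norm_mul_le _ _).trans ((mul_le_of_le_one_right (norm_nonneg _) (norm_gex_le ha _)).trans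
    (norm_conj_sub_le ha y u))

/-- Conjugation to first order. -/
lemma norm_conj_sub_sub_le (ha : IsSelfAdjoint a) (y : A) (t : ℝ) :
    ‖gex a t * y * gex a (-t) - y - (Complex.I * t) • (a * y - y * a)‖ ≤
      t ^ 2 * ‖a * (a * y - y * a) - (a * y - y * a) * a‖ := by
  set d := a * y - y * a with hd'
  have hd : ∀ u : ℝ, HasDerivAt (fun u => gex a u * y * gex a (-u) - y - (Complex.I * u) • d)
      (Complex.I • (gex a u * d * gex a (-u) - d)) u := by
    intro u
    refine (((hasDerivAt_conj a y u).sub_const y).sub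
      (((Complex.ofRealCLM.hasDerivAt (x := u)).const_mul Complex.I).smul_const d)).congr_deriv ?_
    simp [mul_smul_comm, smul_mul_assoc, smul_sub, ← hd']
  have hb : ∀ u ∈ Set.uIcc 0 t, ‖Complex.I • (gex a u * d * gex a (-u) - d)‖ ≤
      |t| * ‖a * d - d * a‖ := fun u hu => by
    rw [norm_smul, Complex.norm_I, one_mul]
    refine (norm_conj_sub_le ha d u).trans (mul_le_mul_of_nonneg_right ?_ (norm_nonneg _))
    simpa using Set.abs_sub_left_of_mem_uIcc hu
  have h := Convex.norm_image_sub_le_of_norm_hasDerivWithin_le (s := Set.uIcc 0 t) (x := 0) (y := t)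
    (fun u _ => (hd u).hasDerivWithinAt) hb (convex_uIcc 0 t) Set.left_mem_uIcc Set.right_mem_uIcc
  simp only [sub_zero, gex_zero, neg_zero, one_mul, mul_one, sub_self, Complex.ofReal_zero,
    mul_zero, zero_smul, Real.norm_eq_abs] at h
  refine h.trans (le_of_eq ?_)
  rw [← sq_abs t]; ring

/-- Splitting an exponential. -/
lemma norm_gex_split_le (hb : IsSelfAdjoint b) (hx : IsSelfAdjoint x) (t : ℝ) :
    ‖gex (b + x) t - gex b t * gex x t‖ ≤ t ^ 2 * ‖b * x - x * b‖ := by
  have hd : ∀ u : ℝ, HasDerivAt (fun u => gex (b + x) (t - u) * gex b u * gex x u)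
      (gex (b + x) (t - u) * (Complex.I • (gex b u * x - x * gex b u)) * gex x u) u := by
    intro u
    have h1 := (hasDerivAt_gex' (b + x) (t - u)).scomp u ((hasDerivAt_id u).const_sub t)
    refine ((h1.mul (hasDerivAt_gex b u)).mul (hasDerivAt_gex x u)).congr_deriv ?_
    simp only [Pi.mul_apply, Function.comp_apply, neg_smul, one_smul, smul_add, smul_sub,
      mul_add, add_mul, mul_sub, sub_mul, neg_mul, mul_smul_comm, smul_mul_assoc, mul_assoc]
    abel
  have hb' : ∀ u ∈ Set.uIcc 0 t,
      ‖gex (b + x) (t - u) * (Complex.I • (gex b u * x - x * gex b u)) * gex x u‖ ≤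
        |t| * ‖b * x - x * b‖ := fun u hu => by
    refine (norm_mul_le _ _).trans ((mul_le_of_le_one_right (norm_nonneg _) (norm_gex_le hx _)).trans
      ((norm_mul_le _ _).trans ((mul_le_of_le_one_left (norm_nonneg _)
        (norm_gex_le (hb.add hx) _)).trans ?_)))
    rw [norm_smul, Complex.norm_I, one_mul]
    refine (norm_comm_gex_le hb x u).trans (mul_le_mul_of_nonneg_right ?_ (norm_nonneg _))
    simpa using Set.abs_sub_left_of_mem_uIcc hu
  have h := Convex.norm_image_sub_le_of_norm_hasDerivWithin_le (s := Set.uIcc 0 t) (x := 0) (y := t)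
    (fun u _ => (hd u).hasDerivWithinAt) hb' (convex_uIcc 0 t) Set.left_mem_uIcc Set.right_mem_uIcc
  simp only [sub_zero, gex_zero, mul_one, sub_self, one_mul, Real.norm_eq_abs] at h
  rw [norm_sub_rev]
  refine h.trans (le_of_eq ?_)
  rw [← sq_abs t]; ring

/-- Exponentials commute up to the exponential of the commutator. -/
lemma norm_gex_comm_le (ha : IsSelfAdjoint a) (hb : IsSelfAdjoint b) (s t : ℝ) :
    ‖gex a s * gex b t - gex b t * gex a s -
        gex b t * (gex ((Complex.I * s) • (a * b - b * a)) t - 1) * gex a s‖ ≤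
      |t| * (s ^ 2 * ‖a * (a * b - b * a) - (a * b - b * a) * a‖) +
        t ^ 2 * (|s| * ‖b * (a * b - b * a) - (a * b - b * a) * b‖) := by
  set d := a * b - b * a with hd
  set c := (Complex.I * s) • d with hc
  have hcsa : IsSelfAdjoint c := by
    rw [isSelfAdjoint_iff, hc, hd]
    simp only [star_smul, star_sub, star_mul, ha.star_eq, hb.star_eq, Complex.star_def,
      Complex.conj_ofReal, Complex.conj_I]
    rw [← neg_sub (a * b), smul_neg, ← neg_smul]
    congr 1
    ring
  set b' := gex a s * b * gex a (-s) with hb'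
  have hsu : star (gex a s) = gex a (-s) := by
    have h1 := Unitary.star_mul_self_of_mem (gex_mem_unitary ha s)
    calc star (gex a s) = star (gex a s) * (gex a s * gex a (-s)) := by rw [gex_mul_neg, mul_one]
      _ = gex a (-s) := by rw [← mul_assoc, h1, one_mul]
  have hb'sa : IsSelfAdjoint b' := by
    rw [hb', ← hsu]; exact hb.conjugate (gex a s)
  have hconj : gex b' t = gex a s * gex b t * gex a (-s) := by
    let +nondep : NormedAlgebra ℚ A := .restrictScalars ℚ ℂ A
    have h := NormedSpace.exp_units_conj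
      (⟨gex a s, gex a (-s), gex_mul_neg a s, gex_neg_mul a s⟩ : Aˣ) (t • (Complex.I • b))
    simp only [Units.inv_mk, mul_smul_comm, smul_mul_assoc] at h
    exact h
  have e : gex a s * gex b t - gex b t * gex a s - gex b t * (gex c t - 1) * gex a s =
      ((gex b' t - gex (b + c) t) + (gex (b + c) t - gex b t * gex c t)) * gex a s := by
    rw [sub_add_sub_cancel, hconj, sub_mul, mul_assoc _ (gex a (-s)), gex_neg_mul, mul_one, mul_sub,
      mul_one, sub_mul]
    abel
  rw [e]
  refine (norm_mul_le _ _).trans ((mul_le_of_le_one_right (norm_nonneg _) (norm_gex_le ha _)).trans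
    ((norm_add_le _ _).trans (add_le_add ?_ ?_)))
  · have h := norm_gex_add_sub_le (hb.add hcsa) (hb'sa.sub (hb.add hcsa)) t
    rw [add_sub_cancel] at h
    refine h.trans (mul_le_mul_of_nonneg_left ?_ (abs_nonneg t))
    rw [hb', ← sub_sub]
    exact norm_conj_sub_sub_le ha b s
  · refine (norm_gex_split_le hb hcsa t).trans (le_of_eq ?_)
    rw [hc, mul_smul_comm, smul_mul_assoc, ← smul_sub, norm_smul, norm_mul, Complex.norm_I, one_mul,
      Complex.norm_real, Real.norm_eq_abs]

end Vale.Agent.P095.General.Fair
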