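import Vale.Agent.P095.General.Fair.Near
import Vale.Agent.P095.General.Fair.Comm

/-!
The limit of groups of blocks along an ultrafilter: sequences, null elements and limits of values.
-/

noncomputable section

open Finset Filter Topology
open scoped BoundedContinuousFunction ComplexStarModule

namespace Vale.Agent.P095.General.Fair

attribute [local instance] CStarAlgebra.spectralOrder CStarAlgebra.spectralOrderedRing

universe u v

/-- The defect allowed with two to the N blocks. -/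
def dl (N : ℕ) : ℝ := (16 * ((2 : ℝ) ^ N) ^ 12)⁻¹

lemma dl_pos (N : ℕ) : 0 < dl N := by unfold dl; positivity

lemma dl_le_one (N : ℕ) : dl N ≤ 1 :=
  inv_le_one_of_one_le₀ (by nlinarith [one_le_pow₀ (a := (2 : ℝ) ^ N) (n := 12) (one_le_pow₀ (by norm_num))])

lemma dl_bound {n N : ℕ} (h : n ≤ N) : 16 * dl N * ((2 : ℝ) ^ n) ^ 8 ≤ ((2 : ℝ) ^ n)⁻¹ := by
  set a : ℝ := (2 : ℝ) ^ n with ha
  set b : ℝ := (2 : ℝ) ^ N with hb
  have ha1 : 1 ≤ a := one_le_pow₀ (by norm_num)
  have hab : a ≤ b := pow_le_pow_right₀ (by norm_num) h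
  have e : 16 * dl N * a ^ 8 = a ^ 8 / b ^ 12 := by rw [dl, ← hb]; field_simp
  rw [e, inv_eq_one_div, div_le_div_iff₀ (by positivity) (by positivity), one_mul, ← pow_succ]
  exact (pow_le_pow_left₀ (by linarith) hab 9).trans (pow_le_pow_right₀ (ha1.trans hab) (by norm_num))

variable {D : Type u} [CStarAlgebra D]

/-- Evaluation of bounded sequences. -/
def evH (n : ℕ) : (ℕ →ᵇ D) →⋆ₐ[ℂ] D where
  toFun x := x n
  map_one' := rfl
  map_mul' _ _ := rfl
  map_zero' := rfl
  map_add' _ _ := rfl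
  commutes' _ := rfl
  map_star' _ := rfl

@[simp] lemma evH_apply (n : ℕ) (x : ℕ →ᵇ D) : evH n x = x n := rfl

lemma continuous_evH (n : ℕ) : Continuous (evH (D := D) n) :=
  continuous_eval_const n

lemma evH_gex (x : ℕ →ᵇ D) (t : ℝ) (n : ℕ) : (gex x t) n = gex (x n) t := by
  let +nondep : NormedAlgebra ℚ (ℕ →ᵇ D) := .restrictScalars ℚ ℂ (ℕ →ᵇ D)
  let +nondep : NormedAlgebra ℚ D := .restrictScalars ℚ ℂ D
  rw [gex, gex, ← evH_apply n, NormedSpace.map_exp (evH n) (continuous_evH n)]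
  simp [← Complex.coe_smul]

/-- A bounded sequence. -/
def mkSeq (f : ℕ → D) (C : ℝ) (h : ∀ n, ‖f n‖ ≤ C) : ℕ →ᵇ D :=
  BoundedContinuousFunction.ofNormedAddCommGroupDiscrete f C h

@[simp] lemma mkSeq_apply (f : ℕ → D) (C : ℝ) (h : ∀ n, ‖f n‖ ≤ C) (n : ℕ) :
    mkSeq f C h n = f n := rfl

/-- A limit of groups of blocks with a fixed element commuting with all of them. -/
structure Ctx (D : Type u) [CStarAlgebra D] (ι : Type v) (I : Type) where
  hL : LinearStatement.{u}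
  B : I → ∀ N : ℕ, Blk D ι (Fin (2 ^ N)) (dl N)
  cross : ∀ a b : I, a ≠ b → ∀ N g h r s, Commute ((B a N).ξ g r) ((B b N).ξ h s) ∧
    Commute ((B a N).Y g r) ((B b N).ξ h s)
  s : D
  s_sa : IsSelfAdjoint s
  s_comm : ∀ a N g r, Commute ((B a N).ξ g r) s ∧ Commute ((B a N).Y g r) s
  U : Ultrafilter ℕ
  hU : (U : Filter ℕ) ≤ atTop
  Q : ℕ → QT D
  R : QT (ℕ →ᵇ D)
  hR : ∀ a : ℕ →ᵇ D, Tendsto (fun n => (Q n).sq (a n)) (U : Filter ℕ) (𝓝 (R.sq a))

namespace Ctx

variable {ι : Type v} {I : Type} (c : Ctx D ι I)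

lemma eventually_ge (k : ℕ) : ∀ᶠ N in (c.U : Filter ℕ), k ≤ N := c.hU (eventually_ge_atTop k)

lemma sq_le (x : ℕ →ᵇ D) {b : ℝ} (h : ∀ᶠ N in (c.U : Filter ℕ), (c.Q N).sq (x N) ≤ b) :
    c.R.sq x ≤ b := le_of_tendsto (c.hR x) h

lemma null_of_tendsto (x : ℕ →ᵇ D)
    (h : Tendsto (fun N => ‖x N‖) (c.U : Filter ℕ) (𝓝 0)) : c.R.Null x := by
  refine le_antisymm ?_ (c.R.sq_nonneg x)
  have h2 : Tendsto (fun N => ‖x N‖ ^ 2) (c.U : Filter ℕ) (𝓝 0) := by simpa using h.pow 2
  exact le_of_tendsto_of_tendsto' (c.hR x) h2 fun N => (c.Q N).sq_le_norm _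

lemma null_of_le (x : ℕ →ᵇ D) {e : ℕ → ℝ} (he : Tendsto e atTop (𝓝 0))
    (h : ∀ᶠ N in (c.U : Filter ℕ), ‖x N‖ ≤ e N) : c.R.Null x :=
  c.null_of_tendsto x (squeeze_zero' (Eventually.of_forall fun _ => norm_nonneg _) h
    (he.mono_left c.hU))

lemma null_of_eventually_eq (x : ℕ →ᵇ D) (h : ∀ᶠ N in (c.U : Filter ℕ), x N = 0) :
    c.R.Null x :=
  c.null_of_le x tendsto_const_nhds (h.mono fun N hN => by rw [hN, norm_zero])

lemma null_comm_of_commute (x y : ℕ →ᵇ D) (h : ∀ N, Commute (x N) (y N)) :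
    c.R.Null (x * y - y * x) :=
  c.null_of_eventually_eq _ (Eventually.of_forall fun N => sub_eq_zero.2 (h N).eq)

lemma tendsto_qs (x : ℕ →ᵇ D) (hx : IsSelfAdjoint x) :
    Tendsto (fun n => (c.Q n).qs (x n)) (c.U : Filter ℕ) (𝓝 (c.R.qs x)) := by
  set r := ‖x‖ with hr
  set d : ℕ →ᵇ D := Real.sqrt r • 1 with hd
  have hpos : 0 ≤ x + star d * d := by
    have h1 := IsSelfAdjoint.neg_algebraMap_norm_le_self hx
    have e : star d * d = algebraMap ℝ (ℕ →ᵇ D) r := by
      rw [hd, star_smul, star_trivial, star_one, smul_mul_smul_comm, one_mul,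
        Real.mul_self_sqrt (norm_nonneg x), Algebra.algebraMap_eq_smul_one]
    rw [e]
    exact neg_le_iff_add_nonneg.1 h1
  obtain ⟨y, hy⟩ := CStarAlgebra.nonneg_iff_eq_star_mul_self.1 hpos
  have e1 : c.R.sq y = c.R.qs x + c.R.sq d := by
    rw [← qs_star_mul_self, ← hy, c.hL.1 _ c.R x _ hx (IsSelfAdjoint.star_mul_self d) ?_,
      qs_star_mul_self]
    have : Commute x (star d * d) := by
      rw [hd, star_smul, star_trivial, star_one, smul_mul_smul_comm, one_mul]
      exact (Commute.one_right x).smul_right _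
    rw [this.eq, sub_self]; exact c.R.null_zero
  have e2 : ∀ n, (c.Q n).qs (x n) = (c.Q n).sq (y n) - (c.Q n).sq (d n) := fun n => by
    have hy' : x n + star (d n) * d n = star (y n) * y n := congrArg (fun z : ℕ →ᵇ D => z n) hy
    have hxn : IsSelfAdjoint (x n) := congrArg (fun z : ℕ →ᵇ D => z n) hx.star_eq
    rw [← qs_star_mul_self (c.Q n) (y n), ← hy',
      c.hL.1 _ (c.Q n) (x n) _ hxn (IsSelfAdjoint.star_mul_self _) ?_, qs_star_mul_self,
      add_sub_cancel_right]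
    have : Commute (x n) (star (d n) * d n) := by
      show Commute (x n) (star ((Real.sqrt r • (1 : ℕ →ᵇ D)) n) * (Real.sqrt r • (1 : ℕ →ᵇ D)) n)
      simp only [BoundedContinuousFunction.smul_apply, BoundedContinuousFunction.coe_one,
        Pi.one_apply, star_smul, star_trivial, star_one, smul_mul_smul_comm, one_mul]
      exact (Commute.one_right _).smul_right _
    rw [this.eq, sub_self]; exact (c.Q n).null_zero
  simp only [e2]
  rw [show c.R.qs x = c.R.sq y - c.R.sq d by linarith]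
  exact (c.hR y).sub (c.hR d)

lemma qs_sum {κ : Type*} (Q : QT D) (hL : LinearStatement.{u}) (s : Finset κ) (f : κ → D)
    (hsa : ∀ i ∈ s, IsSelfAdjoint (f i))
    (hc : ∀ i ∈ s, ∀ j ∈ s, i ≠ j → Q.Null (f i * f j - f j * f i)) :
    Q.qs (∑ i ∈ s, f i) = ∑ i ∈ s, Q.qs (f i) := by
  classical
  induction s using Finset.induction_on with
  | empty =>
    simp only [sum_empty]
    simpa [QT.sq_eq, Q.q_zero] using qs_star_mul_self Q (0 : D)
  | insert i s hi ih =>
    rw [sum_insert hi, sum_insert hi, hL.1 _ Q (f i) _ (hsa i (mem_insert_self i s))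
      (isSelfAdjoint_sum _ fun j hj => hsa j (mem_insert_of_mem hj)) ?_,
      ih (fun j hj => hsa j (mem_insert_of_mem hj))
        fun j hj k hk => hc j (mem_insert_of_mem hj) k (mem_insert_of_mem hk)]
    rw [mul_sum, sum_mul, ← sum_sub_distrib]
    exact sum_induction _ _ (fun a b ha hb => QT.Null.add Q ha hb) Q.null_zero fun j hj =>
      hc i (mem_insert_self i s) j (mem_insert_of_mem hj) fun e => hi (e ▸ hj)

end Ctx

end Vale.Agent.P095.General.Fair
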