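import Vale.Agent.P095.General.Fair.Char

/-!
Gaussian data from the limit.
-/

noncomputable section

open Finset Filter Topology
open scoped BoundedContinuousFunction ComplexConjugate

namespace Vale.Agent.P095.General.Fair

attribute [local instance] CStarAlgebra.spectralOrder CStarAlgebra.spectralOrderedRing

universe u v

namespace Ctx.Rz

variable {D : Type u} [CStarAlgebra D] {ι : Type v} {I : Type} {c : Ctx D ι I}
  {M : Type u} [CStarAlgebra M] (Z : c.Rz M)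

lemma mem_App_of_Out (a : I) (X : ↥c.M0) (h : ∀ l b, (X : ℕ →ᵇ D) ∈ c.Out a l b) :
    Z.π X ∈ Z.App a :=
  ⟨‖X‖, norm_nonneg _, fun l b _ => ⟨X, 0, h l b, le_rfl, by rw [norm_zero]; positivity,
    by rw [map_zero, add_zero]⟩⟩

lemma S_App (a : I) : Z.π c.Sm ∈ Z.App a :=
  Z.mem_App_of_Out a _ fun _ _ => c.mem_Out.2 ⟨c.sS_mem, fun N =>
    (c.B a N).mem_away fun g r _ => c.s_comm a N g r⟩

lemma W_App {a a' : I} (ha : a ≠ a') (g : ι) (t : ℝ) : Z.π (c.Wm a' g 0 0 t) ∈ Z.App a := by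
  refine Z.mem_App_of_Out a _ fun l b => c.mem_Out.2 ⟨c.W_mem _ _ _ _ _, fun N => ?_⟩
  refine (c.B a N).mem_away fun h r _ => ?_
  refine ⟨commute_gex ((Commute.sum_right _ _ _ fun s _ => ?_).smul_right _) t,
    commute_gex ((Commute.sum_right _ _ _ fun s _ => ?_).smul_right _) t⟩
  exacts [(c.cross a a' ha N h g r s).1, (c.cross a a' ha N h g r s).2]

lemma k_App (a a' : I) (g h : ι) : Z.k a' g h 0 0 ∈ Z.App a := by
  rcases eq_or_ne a a' with rfl | ha
  swap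
  · refine Z.mem_App_of_Out a _ fun l b => c.mem_Out.2 ⟨c.Kp_mem _ _ _ _ _, fun N => ?_⟩
    refine (c.B a N).mem_away fun h' r _ => ?_
    refine ⟨(Commute.sum_right _ _ _ fun s _ => ?_).smul_right _,
      (Commute.sum_right _ _ _ fun s _ => ?_).smul_right _⟩
    exacts [(c.cross a a' ha N h' g r s).1.mul_right (c.cross a a' ha N h' h r s).1,
      (c.cross a a' ha N h' g r s).2.mul_right (c.cross a a' ha N h' h r s).2]
  refine ⟨1, zero_le_one, fun l b hb => ?_⟩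
  set w : ℂ := ((((2 : ℝ) ^ l)⁻¹ : ℝ) : ℂ) with hw
  have hwn : ‖w‖ = ((2 : ℝ) ^ l)⁻¹ := by
    rw [hw, Complex.norm_real, Real.norm_eq_abs, abs_of_nonneg (by positivity)]
  refine ⟨w • ∑ i ∈ (range (2 ^ l)).erase b, c.Km a g h l i, w • c.Km a g h l b, ?_, ?_, ?_, ?_⟩
  · refine SMulMemClass.smul_mem _ ?_
    rw [AddSubmonoidClass.coe_finsetSum]
    refine sum_mem fun i hi => c.mem_Out.2 ⟨c.Kp_mem _ _ _ _ _, fun N => ?_⟩
    show kn (pc N l i) ((c.B a N).ξ g) ((c.B a N).ξ h) ∈ _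
    rw [kn, ← Complex.coe_smul]
    have hin := pc_disjoint (N := N) (l := l) (mem_erase.1 hi).1
    exact SMulMemClass.smul_mem _ (sum_mem fun r hr => mul_mem
      ((c.B a N).ξ_away g fun hr' => disjoint_left.1 hin hr hr')
      ((c.B a N).ξ_away h fun hr' => disjoint_left.1 hin hr hr'))
  · rw [norm_smul, hwn, inv_mul_le_iff₀ (by positivity), mul_one]
    refine (norm_sum_le _ _).trans ((sum_le_card_nsmul _ _ 1 fun i _ => c.norm_Km a g h l i).trans ?_)
    rw [nsmul_eq_mul, mul_one]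
    exact_mod_cast (card_erase_le).trans_eq (card_range _)
  · rw [norm_smul, hwn, div_eq_mul_inv, one_mul]
    exact mul_le_of_le_one_right (by positivity) (c.norm_Km a g h l b)
  · rw [map_smul, map_smul, map_sum, ← smul_add]
    simp only [← k.eq_def Z]
    rw [sum_erase_add _ _ (mem_range.2 hb), Z.k_sum a g h l, smul_smul, hw]
    rw [show ((((2 : ℝ) ^ l)⁻¹ : ℝ) : ℂ) * (2 : ℂ) ^ l = 1 by
      push_cast; exact inv_mul_cancel₀ (by positivity), one_smul]

lemma shk_eq {η : ℝ} (x : ℝ) :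
    shk η x = (2 * η ^ 2)⁻¹ * (Real.exp (-(η ^ 2 * (1 + -1 * x))) - Real.exp (-(η ^ 2 * (1 + 1 * x)))) := by
  rw [shk, Real.sinh_eq, show -(η ^ 2 * (1 + -1 * x)) = -η ^ 2 + η ^ 2 * x by ring,
    show -(η ^ 2 * (1 + 1 * x)) = -η ^ 2 + -(η ^ 2 * x) by ring, Real.exp_add, Real.exp_add]
  rcases eq_or_ne η 0 with rfl | hη
  · simp
  · field_simp

lemma cfc_shk_eq (a : I) (g h : ι) (η : ℝ) :
    cfc (shk η) (Z.k a g h 0 0) =
      (2 * η ^ 2)⁻¹ • (Z.expK a g h 0 0 (-1) (η ^ 2) - Z.expK a g h 0 0 1 (η ^ 2)) := by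
  have hk := Z.k_sa a g h 0 0
  rw [funext (shk_eq (η := η)), expK, expK, cfc_const_mul (R := ℝ) _
    (fun x : ℝ => Real.exp (-(η ^ 2 * (1 + -1 * x))) - Real.exp (-(η ^ 2 * (1 + 1 * x))))
    (Z.k a g h 0 0), cfc_sub (R := ℝ) (fun x : ℝ => Real.exp (-(η ^ 2 * (1 + -1 * x))))
    (fun x : ℝ => Real.exp (-(η ^ 2 * (1 + 1 * x)))) (Z.k a g h 0 0)]

/-- The bounded version in the algebra of the limit. -/
def fM (η : ℝ) (a : I) (g : ι) : M := Z.π (c.Tm' a g 0 0 η)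

lemma fM_eq (η : ℝ) (a : I) (g : ι) :
    Z.fM η a g = ((2 : ℂ) * Complex.I * η)⁻¹ • (Z.w a g 0 0 η - Z.w a g 0 0 (-η)) := by
  rw [fM, c.Tm'_eq, map_smul, map_sub]; rfl

lemma phi_fM (η : ℝ) (a : I) (g : ι) {F : M} (hF : F ∈ (Z.App a).topologicalClosure) :
    Z.φ (F * Z.fM η a g) = 0 := by
  have key : ∀ s : ℝ, Z.φ (F * Z.w a g 0 0 s) = Z.φ (F * Z.expK a g g 0 0 1 ((s / 2) ^ 2)) := fun s => by
    rw [← Z.char a g g (Or.inl rfl) (s / 2) hF]
    congr 2
    simp only [w, one_mul]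
    rw [← map_mul, c.W_add, add_halves]
  rw [Z.fM_eq, mul_smul_comm, map_smul, mul_sub, map_sub, key, key, neg_div, neg_sq, sub_self,
    smul_zero]

lemma phi_fM_fM {η : ℝ} (hη : 0 < η) (a : I) (g h : ι) {F : M}
    (hF : F ∈ (Z.App a).topologicalClosure) :
    Z.φ (F * (Z.fM η a g * Z.fM η a h)) = Z.φ (F * cfc (shk η) (Z.k a g h 0 0)) := by
  have hp : ∀ t : ℝ, Z.φ (F * (Z.w a g 0 0 t * Z.w a h 0 0 t)) =
      Z.φ (F * Z.expK a g h 0 0 1 (t ^ 2)) := fun t => by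
    have := Z.char a g h (Or.inl rfl) t hF
    rwa [one_mul] at this
  have hm : ∀ t : ℝ, Z.φ (F * (Z.w a g 0 0 t * Z.w a h 0 0 (-t))) =
      Z.φ (F * Z.expK a g h 0 0 (-1) (t ^ 2)) := fun t => by
    have := Z.char a g h (Or.inr rfl) t hF
    rwa [neg_one_mul] at this
  have h3 := hm (-η)
  rw [neg_neg] at h3
  rw [Z.cfc_shk_eq, ← Complex.coe_smul, Z.fM_eq, Z.fM_eq, smul_mul_smul_comm, mul_smul_comm,
    mul_smul_comm, map_smul, map_smul, sub_mul, mul_sub, mul_sub, mul_sub, mul_sub, mul_sub]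
  simp only [mul_sub, map_sub, hp, hm, h3, neg_sq, smul_eq_mul]
  have : (η : ℂ) ≠ 0 := Complex.ofReal_ne_zero.2 hη.ne'
  push_cast
  field_simp
  rw [Complex.I_sq]
  ring

lemma k_psd [Fintype ι] (a : I) (t : ι → ℂ) :
    ∃ B : M, star B * B = ∑ g, ∑ h, (conj (t g) * t h) • Z.k a g h 0 0 := by
  set P : ↥c.M0 := ∑ g, ∑ h, (conj (t g) * t h) • c.Km a g h 0 0 with hP
  have hπ : Z.π P = ∑ g, ∑ h, (conj (t g) * t h) • Z.k a g h 0 0 := by
    simp only [P, map_sum, map_smul]; rfl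
  set x : ∀ N, Fin (2 ^ N) → D := fun N r => ∑ g, t g • (c.B a N).ξ g r with hx
  have hPN : ∀ N, (P : ℕ →ᵇ D) N =
      ((pc N 0 0).card : ℝ)⁻¹ • ∑ r ∈ pc N 0 0, star (x N r) * x N r := by
    intro N
    have e : (P : ℕ →ᵇ D) N =
        ∑ g, ∑ h, (conj (t g) * t h) • kn (pc N 0 0) ((c.B a N).ξ g) ((c.B a N).ξ h) := by
      simp only [P, AddSubmonoidClass.coe_finsetSum, ← evH_apply N, map_sum]
      exact sum_congr rfl fun g _ => sum_congr rfl fun h _ => rfl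
    rw [e, smul_sum]
    simp only [kn, smul_sum, x, star_sum, star_smul, sum_mul_sum, smul_mul_smul_comm,
      ((c.B a N).sa _ _).star_eq, Complex.star_def]
    conv_rhs => rw [sum_comm]
    refine sum_congr rfl fun g _ => ?_
    rw [sum_comm]
    exact sum_congr rfl fun r _ => sum_congr rfl fun h _ => smul_comm _ _ _
  have hpos : ∀ N, 0 ≤ (P : ℕ →ᵇ D) N := fun N => by
    rw [hPN]
    exact smul_nonneg (by positivity) (sum_nonneg fun r _ => star_mul_self_nonneg _)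
  set cc : ℝ := ‖P‖ with hcc
  have hcc0 : 0 ≤ cc := norm_nonneg P
  have hPsa : star P = P := Subtype.ext (by
    ext N
    exact (IsSelfAdjoint.of_nonneg (hpos N)).star_eq)
  have hn : ‖(cc : ℂ) • (1 : ↥c.M0) - P‖ ≤ cc := by
    refine (BoundedContinuousFunction.norm_le hcc0).2 fun N => ?_
    show ‖(cc : ℂ) • (1 : D) - (P : ℕ →ᵇ D) N‖ ≤ cc
    rw [Complex.coe_smul, ← Algebra.algebraMap_eq_smul_one]
    have h1 : (P : ℕ →ᵇ D) N ≤ algebraMap ℝ D cc :=
      (IsSelfAdjoint.of_nonneg (hpos N)).le_algebraMap_norm_self.trans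
        (algebraMap_mono D ((P : ℕ →ᵇ D).norm_coe_le_norm N))
    exact (CStarAlgebra.norm_le_iff_le_algebraMap _ hcc0 (sub_nonneg.2 h1)).2
      (sub_le_self _ (hpos N))
  have hMsa : IsSelfAdjoint (Z.π P) := by rw [isSelfAdjoint_iff, ← map_star, hPsa]
  refine ⟨cfc Real.sqrt (Z.π P), ?_⟩
  rw [(cfc_predicate Real.sqrt (Z.π P) : IsSelfAdjoint _).star_eq, ← cfc_mul Real.sqrt Real.sqrt (Z.π P),
    ← hπ]
  conv_rhs => rw [← cfc_id' ℝ (Z.π P)]
  refine cfc_congr fun s hs => Real.mul_self_sqrt ?_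
  rcases subsingleton_or_nontrivial M with _ | _
  · exact absurd hs (by simp [spectrum.of_subsingleton])
  have h2 : cc - s ∈ spectrum ℝ ((cc : ℂ) • (1 : M) - Z.π P) := by
    rw [Complex.coe_smul, ← Algebra.algebraMap_eq_smul_one, ← spectrum.singleton_sub_eq]
    exact ⟨cc, rfl, s, hs, rfl⟩
  have h3 := spectrum.norm_le_norm_of_mem h2
  have h4 : ‖(cc : ℂ) • (1 : M) - Z.π P‖ ≤ cc := by
    rw [← map_one Z.π, ← map_smul, ← map_sub]
    exact (NonUnitalStarAlgHom.norm_apply_le Z.π _).trans hn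
  rw [Real.norm_eq_abs] at h3
  linarith [(abs_le.1 (h3.trans h4)).2]

/-- Gaussian data in the limit. -/
theorem exists_data [Fintype ι] {η τ : ℝ} (hη : 0 < η) (hτ0 : 0 ≤ τ)
    (hτ : ∀ t : ℝ, |t| ≤ 1 → |shk η t - t| ≤ τ) :
    ∃ d : Gauss M ι I τ η⁻¹, d.Φ = Z.φ ∧ d.base = StarAlgebra.adjoin ℂ {Z.π c.Sm} ∧
      d.f = Z.fM η ∧ d.K = fun a g h => Z.k a g h 0 0 := by
  set K : I → ι → ι → M := fun a g h => Z.k a g h 0 0
  set K' : I → ι → ι → M := fun a g h => cfc (shk η) (Z.k a g h 0 0)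
  set base : StarSubalgebra ℂ M := StarAlgebra.adjoin ℂ {Z.π c.Sm}
  have hout : ∀ a, ∀ x ∈ outGen (Z.fM η) K K' base a, x ∈ (Z.App a).topologicalClosure := by
    rintro a x ((hx | ⟨b, hb, g, rfl⟩) | ⟨b, g, h, rfl | rfl⟩)
    · exact StarSubalgebra.le_topologicalClosure _
        (StarAlgebra.adjoin_le (Set.singleton_subset_iff.2 (Z.S_App a)) hx)
    · refine StarSubalgebra.le_topologicalClosure _ ?_
      rw [Z.fM_eq]
      exact SMulMemClass.smul_mem _ (sub_mem (Z.W_App hb.symm g _) (Z.W_App hb.symm g _))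
    · exact StarSubalgebra.le_topologicalClosure _ (Z.k_App a b g h)
    · show cfc (shk η) (Z.k b g h 0 0) ∈ _
      rw [cfc_real_eq_complex (shk η) (Z.k_sa b g h 0 0)]
      exact (StarAlgebra.elemental.le_of_mem (Z.App a).isClosed_topologicalClosure
        (StarSubalgebra.le_topologicalClosure _ (Z.k_App a b g h))) (cfc_mem_elemental _ _)
  have hsub : ∀ a, ∀ F ∈ Submonoid.closure (outGen (Z.fM η) K K' base a ∪
      star '' outGen (Z.fM η) K K' base a), F ∈ (Z.App a).topologicalClosure := by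
    intro a F hF
    refine Submonoid.closure_induction (fun x hx => ?_) (one_mem _) (fun x y _ _ hx hy => mul_mem hx hy) hF
    rcases hx with hx | ⟨y, hy, rfl⟩
    exacts [hout a x hx, star_mem (hout a y hy)]
  obtain ⟨d, h1, h2, -, h3, h4⟩ := exists_gauss (ι := ι) (τ := τ) (C := η⁻¹) Z.comm Z.φ Z.one Z.pos
    (Z.fM η) K K' (fun a g => by
      rw [isSelfAdjoint_iff, fM, ← map_star]
      congr 1
      refine Subtype.ext ?_
      ext N
      show star (c.Ts a g 0 0 η N) = c.Ts a g 0 0 η N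
      rw [c.Ts_apply, (bsin_sa _ _).star_eq])
    (fun a g => (NonUnitalStarAlgHom.norm_apply_le Z.π _).trans
      ((BoundedContinuousFunction.norm_le (by positivity)).2 fun N => by
        show ‖c.Ts a g 0 0 η N‖ ≤ η⁻¹
        rw [c.Ts_apply]
        exact norm_bsin hη _))
    (fun a g h => by rw [(Z.k_sa a g h 0 0).star_eq]; exact Z.k_comm a g h 0 0)
    (fun a g h => (Z.norm_k a g h 0 0).trans one_le_two) (fun a g => Z.k_diag a g)
    (fun a t => Z.k_psd a t)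
    (fun a g h => norm_sub_cfc_shk hτ0 hτ (Z.k_sa a g h 0 0) (Z.norm_k a g h 0 0)) base
    (fun a g F hF => Z.phi_fM η a g (hsub a F hF))
    (fun a g h F hF => Z.phi_fM_fM hη a g h (hsub a F hF)) Z.cont
  exact ⟨d, h3, h4, h1, h2⟩

end Ctx.Rz

end Vale.Agent.P095.General.Fair
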