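import Vale.Agent.P095.General.Fair.Ctx

/-!
The generators of the limit algebra and their commutators, which are null.
-/

noncomputable section

open Finset Filter Topology
open scoped BoundedContinuousFunction

namespace Vale.Agent.P095.General.Fair

attribute [local instance] CStarAlgebra.spectralOrder CStarAlgebra.spectralOrderedRing

universe u v

section Finite

variable {D : Type u} [CStarAlgebra D] {κ : Type}

/-- Commutators of two sums of blocks only see the common blocks. -/
lemma norm_comm_sums_le (A A' : Finset κ) (x y : κ → D) {a : ℝ}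
    (hxy : ∀ r s, r ≠ s → Commute (x r) (y s)) (ha : ∀ r, ‖x r * y r - y r * x r‖ ≤ a) (ha0 : 0 ≤ a) :
    ‖(∑ r ∈ A, x r) * (∑ s ∈ A', y s) - (∑ s ∈ A', y s) * ∑ r ∈ A, x r‖ ≤ A.card * a ∧
      ‖(∑ r ∈ A, x r) * (∑ s ∈ A', y s) - (∑ s ∈ A', y s) * ∑ r ∈ A, x r‖ ≤ A'.card * a := by
  classical
  rw [sum_mul_sum, sum_mul_sum, sum_comm (f := fun s r => y s * x r), ← sum_sub_distrib]
  simp only [← sum_sub_distrib]
  have e : ∀ r s, x r * y s - y s * x r = if r = s then x r * y r - y r * x r else 0 := fun r s => by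
    split_ifs with h
    · subst h; rfl
    · exact sub_eq_zero.2 (hxy r s h).eq
  rw [sum_congr rfl fun r _ => sum_congr rfl fun s _ => e r s]
  simp only [sum_ite_eq]
  refine ⟨(norm_sum_le _ _).trans ((sum_le_card_nsmul _ _ a fun r _ => ?_).trans_eq
    (nsmul_eq_mul _ _)), ?_⟩
  · split_ifs
    exacts [ha r, by simpa using ha0]
  · rw [← sum_filter]
    refine (norm_sum_le _ _).trans ((sum_le_card_nsmul _ _ a fun r _ => ha r).trans_eq
      (nsmul_eq_mul _ _) |>.trans ?_)
    exact mul_le_mul_of_nonneg_right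
      (by exact_mod_cast card_le_card (fun r hr => (mem_filter.1 hr).2)) ha0

lemma rt_sq_card (A : Finset κ) : rt A.card * rt A.card * A.card ≤ 1 := by
  rw [rt_mul_self]; exact inv_mul_le_one

end Finite

lemma pc_of_le (N : ℕ) {l l' : ℕ} (h : l ≤ l') (b b' : ℕ) :
    pc N l' b' ⊆ pc N l b ∨ Disjoint (pc N l b) (pc N l' b') := by
  rcases eq_or_ne (b' % 2 ^ l) b with hb | hb
  · refine Or.inl fun r hr => mem_pc.2 ?_
    rw [← hb, ← mem_pc.1 hr, Nat.mod_mod_of_dvd _ (pow_dvd_pow 2 h)]
  · refine Or.inr (disjoint_left.2 fun r hr hr' => hb ?_)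
    rw [← mem_pc.1 hr', Nat.mod_mod_of_dvd _ (pow_dvd_pow 2 h)]
    exact mem_pc.1 hr

lemma rt_card_le (N l b : ℕ) (hl : l ≤ N) : rt (pc N l b).card ≤ (Real.sqrt 2⁻¹) ^ (N - l) := by
  rcases lt_or_ge b (2 ^ l) with hb | hb
  · rw [card_pc hl hb, rt, Nat.cast_pow, Nat.cast_ofNat, ← Real.sqrt_inv, ← inv_pow,
      Real.sqrt_le_left (by positivity), ← pow_mul, mul_comm, pow_mul, Real.sq_sqrt (by norm_num)]
  · have : pc N l b = ∅ := eq_empty_of_forall_notMem fun r hr =>
      absurd (mem_pc.1 hr) ((Nat.mod_lt _ (Nat.two_pow_pos l)).trans_le hb).ne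
    rw [this, card_empty, rt]
    simp

lemma tendsto_rt_bound (l : ℕ) (C : ℝ) :
    Tendsto (fun N : ℕ => C * (Real.sqrt 2⁻¹) ^ (N - l)) atTop (𝓝 0) := by
  have h : Real.sqrt 2⁻¹ < 1 := (Real.sqrt_lt' one_pos).2 (by norm_num)
  simpa using (((tendsto_pow_atTop_nhds_zero_of_lt_one (Real.sqrt_nonneg _) h).comp
    (tendsto_sub_atTop_nat l)).const_mul C)

namespace Blk

variable {D : Type u} [CStarAlgebra D] {ι : Type v} {κ : Type} {δ : ℝ} (B : Blk D ι κ δ)

/-- The commutator of two translates in one block. -/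
def dd (g h : ι) (r : κ) : D := Complex.I • (B.ξ g r * B.ξ h r - B.ξ h r * B.ξ g r)

lemma dd_sa (g h : ι) (r : κ) : IsSelfAdjoint (B.dd g h r) := by
  rw [isSelfAdjoint_iff, dd]
  simp only [star_smul, star_sub, star_mul, (B.sa g r).star_eq, (B.sa h r).star_eq,
    Complex.star_def, Complex.conj_I]
  rw [← neg_sub (B.ξ g r * B.ξ h r), smul_neg, neg_smul, neg_neg]

lemma norm_prod (g h : ι) (r : κ) : ‖B.ξ g r * B.ξ h r‖ ≤ 1 :=
  (norm_mul_le _ _).trans (mul_le_one₀ (B.norm g r) (norm_nonneg _) (B.norm h r))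

lemma norm_dd (g h : ι) (r : κ) : ‖B.dd g h r‖ ≤ 2 := by
  rw [dd, norm_smul, Complex.norm_I, one_mul]
  linarith [norm_sub_le (B.ξ g r * B.ξ h r) (B.ξ h r * B.ξ g r), B.norm_prod g h r, B.norm_prod h g r]

end Blk

namespace Ctx

variable {D : Type u} [CStarAlgebra D] {ι : Type v} {I : Type} (c : Ctx D ι I)

/-- The fixed element. -/
def sS : ℕ →ᵇ D := mkSeq (fun _ => c.s) ‖c.s‖ fun _ => le_rfl

/-- The exponentials of collective elements. -/
def W (a : I) (g : ι) (l b : ℕ) (t : ℝ) : ℕ →ᵇ D :=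
  mkSeq (fun N => gex ((c.B a N).pS g l b) t) 1 fun N => norm_gex_le ((c.B a N).pS_sa g l b) t

/-- The kernels. -/
def Kp (a : I) (g h : ι) (l b : ℕ) : ℕ →ᵇ D :=
  mkSeq (fun N => kn (pc N l b) ((c.B a N).ξ g) ((c.B a N).ξ h)) 1 fun N =>
    norm_kn _ _ _ ((c.B a N).norm g) ((c.B a N).norm h)

omit c in
lemma norm_mean_dd {κ : Type} {δ : ℝ} (B : Blk D ι κ δ) (A : Finset κ) (g h : ι) :
    ‖(A.card : ℝ)⁻¹ • ∑ r ∈ A, B.dd g h r‖ ≤ 2 := by
  rw [norm_smul, Real.norm_eq_abs, abs_of_nonneg (by positivity)]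
  refine (mul_le_mul_of_nonneg_left ((norm_sum_le _ _).trans ((sum_le_card_nsmul _ _ 2 fun r _ =>
    B.norm_dd g h r).trans_eq (nsmul_eq_mul _ _))) (by positivity)).trans ?_
  rw [← mul_assoc]
  exact mul_le_of_le_one_left (by norm_num) inv_mul_le_one

/-- The means of the commutators. -/
def Dp (a : I) (g h : ι) (l b : ℕ) : ℕ →ᵇ D :=
  mkSeq (fun N => ((pc N l b).card : ℝ)⁻¹ • ∑ r ∈ pc N l b, (c.B a N).dd g h r) 2 fun N =>
    norm_mean_dd _ _ g h

lemma norm_Dp (a : I) (g h : ι) (l b : ℕ) : ‖c.Dp a g h l b‖ ≤ 2 :=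
  (BoundedContinuousFunction.norm_le (by norm_num)).2 fun N => norm_mean_dd _ _ g h

lemma Dp_sa (a : I) (g h : ι) (l b : ℕ) : IsSelfAdjoint (c.Dp a g h l b) := by
  rw [isSelfAdjoint_iff]
  ext N
  exact ((IsSelfAdjoint.all _).smul (isSelfAdjoint_sum _ fun r _ => (c.B a N).dd_sa g h r)).star_eq

lemma null_Dp_split (a : I) (g h : ι) {l b : ℕ} (hb : b < 2 ^ l) :
    c.R.Null (c.Dp a g h l b -
      ((2 : ℝ)⁻¹ • c.Dp a g h (l + 1) b + (2 : ℝ)⁻¹ • c.Dp a g h (l + 1) (b + 2 ^ l))) := by
  refine c.null_of_eventually_eq _ ((c.eventually_ge (l + 1)).mono fun N hN => ?_)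
  have h1 : b < 2 ^ (l + 1) := hb.trans (by rw [pow_succ]; omega)
  have h2 : b + 2 ^ l < 2 ^ (l + 1) := by rw [pow_succ]; omega
  simp only [BoundedContinuousFunction.sub_apply, BoundedContinuousFunction.add_apply,
    BoundedContinuousFunction.smul_apply, Dp, mkSeq_apply, sub_eq_zero, card_pc hN h1, card_pc hN h2,
    card_pc (Nat.le_of_succ_le hN) hb, smul_smul, ← smul_add]
  rw [pc_succ N hb, sum_union (pc_succ_disjoint N l b)]
  congr 1
  rw [show N - l = N - (l + 1) + 1 by omega]
  push_cast [pow_succ]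
  ring

/-- The identity on which the trace trick rests. -/
lemma dd_eq {κ : Type} {δ : ℝ} (B : Blk D ι κ δ) (g h : ι) (r : κ) :
    star (B.ξ g r + Complex.I • B.ξ h r) * (B.ξ g r + Complex.I • B.ξ h r) -
      (B.ξ g r + Complex.I • B.ξ h r) * star (B.ξ g r + Complex.I • B.ξ h r) =
      (2 : ℝ) • B.dd g h r := by
  simp only [Blk.dd, star_add, star_smul, (B.sa g r).star_eq, (B.sa h r).star_eq, Complex.star_def,
    Complex.conj_I, mul_add, add_mul, mul_smul_comm, smul_mul_assoc, smul_smul, neg_smul,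
    mul_neg, neg_mul, smul_neg, smul_sub, two_smul]
  module

/-- Means of commutators are orthogonal to what commutes exactly with their blocks. -/
lemma qs_mul_Dp (a : I) (g h : ι) (l b : ℕ) (G : ℕ →ᵇ D) (hG : ∀ N, 0 ≤ G N)
    (hGc : ∀ N r, r ∈ pc N l b → ∀ g', Commute ((c.B a N).ξ g' r) (G N)) :
    c.R.qs ((2 : ℝ) • (G * c.Dp a g h l b)) = 0 := by
  set A : ∀ N, Fin (2 ^ N) → D := fun N r =>
    (c.B a N).ξ g r + Complex.I • (c.B a N).ξ h r with hA
  have hAn : ∀ N r, ‖A N r‖ ≤ 2 := fun N r => (norm_add_le _ _).trans (by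
    rw [norm_smul, Complex.norm_I, one_mul]
    linarith [(c.B a N).norm g r, (c.B a N).norm h r])
  have hmean : ∀ (N : ℕ) (z : Fin (2 ^ N) → D), (∀ r, ‖z r‖ ≤ 4) →
      ‖((pc N l b).card : ℝ)⁻¹ • ∑ r ∈ pc N l b, z r‖ ≤ 4 := fun N z hz => by
    rw [norm_smul, Real.norm_eq_abs, abs_of_nonneg (by positivity)]
    refine (mul_le_mul_of_nonneg_left ((norm_sum_le _ _).trans ((sum_le_card_nsmul _ _ 4 fun r _ =>
      hz r).trans_eq (nsmul_eq_mul _ _))) (by positivity)).trans ?_
    rw [← mul_assoc]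
    exact mul_le_of_le_one_left (by norm_num) inv_mul_le_one
  have h4 : ∀ N r, ‖star (A N r) * A N r‖ ≤ 4 ∧ ‖A N r * star (A N r)‖ ≤ 4 := fun N r => by
    rw [CStarRing.norm_star_mul_self, CStarRing.norm_self_mul_star]
    constructor <;> nlinarith [hAn N r, norm_nonneg (A N r)]
  set P : ℕ →ᵇ D := mkSeq (fun N => ((pc N l b).card : ℝ)⁻¹ • ∑ r ∈ pc N l b, star (A N r) * A N r)
    4 (fun N => hmean N _ fun r => (h4 N r).1) with hP
  set P' : ℕ →ᵇ D := mkSeq (fun N => ((pc N l b).card : ℝ)⁻¹ • ∑ r ∈ pc N l b, A N r * star (A N r))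
    4 (fun N => hmean N _ fun r => (h4 N r).2) with hP'
  have e : (2 : ℝ) • (G * c.Dp a g h l b) = G * P - G * P' := by
    rw [← mul_sub, ← mul_smul_comm]
    congr 1
    ext N
    simp only [Dp, P, P', BoundedContinuousFunction.smul_apply, BoundedContinuousFunction.sub_apply,
      mkSeq_apply, ← smul_sub, ← sum_sub_distrib]
    rw [smul_comm]
    congr 1
    rw [smul_sum]
    exact sum_congr rfl fun r _ => (dd_eq _ g h r).symm
  have hGA : ∀ N r, r ∈ pc N l b → Commute (A N r) (G N) ∧ Commute (star (A N r)) (G N) := by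
    intro N r hr
    refine ⟨(hGc N r hr g).add_left ((hGc N r hr h).smul_left _), ?_⟩
    simp only [A, star_add, star_smul, ((c.B a N).sa g r).star_eq, ((c.B a N).sa h r).star_eq]
    exact (hGc N r hr g).add_left ((hGc N r hr h).smul_left _)
  have hAA : ∀ N r s, r ≠ s → ∀ x ∈ [A N r, star (A N r)], ∀ y ∈ [A N s, star (A N s)],
      Commute x y := by
    intro N r s hrs x hx y hy
    have k1 : ∀ g' h', Commute ((c.B a N).ξ g' r) ((c.B a N).ξ h' s) := fun g' h' =>
      ((c.B a N).comm g' h' r s hrs).1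
    simp only [List.mem_cons, List.not_mem_nil, or_false, A, star_add, star_smul,
      ((c.B a N).sa g _).star_eq, ((c.B a N).sa h _).star_eq] at hx hy
    rcases hx with rfl | rfl <;> rcases hy with rfl | rfl <;>
      exact ((k1 g g).add_right ((k1 g h).smul_right _)).add_left
        (((k1 h g).add_right ((k1 h h).smul_right _)).smul_left _)
  have hsaG : ∀ N, IsSelfAdjoint (G N) := fun N => IsSelfAdjoint.of_nonneg (hG N)
  have hsa1 : IsSelfAdjoint (G * P) := by
    rw [isSelfAdjoint_iff]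
    ext N
    show star (G N * P N) = G N * P N
    simp only [P, mkSeq_apply]
    refine ((IsSelfAdjoint.commute_iff (hsaG N) ((IsSelfAdjoint.all _).smul (isSelfAdjoint_sum _
      fun r _ => IsSelfAdjoint.star_mul_self _))).1 ((Commute.sum_right _ _ _ fun r hr =>
        ((hGA N r hr).2.symm).mul_right (hGA N r hr).1.symm).smul_right _)).star_eq
  have hsa2 : IsSelfAdjoint (G * P') := by
    rw [isSelfAdjoint_iff]
    ext N
    show star (G N * P' N) = G N * P' N
    simp only [P', mkSeq_apply]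
    refine ((IsSelfAdjoint.commute_iff (hsaG N) ((IsSelfAdjoint.all _).smul (isSelfAdjoint_sum _
      fun r _ => IsSelfAdjoint.mul_star_self _))).1 ((Commute.sum_right _ _ _ fun r hr =>
        ((hGA N r hr).1.symm).mul_right (hGA N r hr).2.symm).smul_right _)).star_eq
  have hnull : c.R.Null (G * P * (G * P') - G * P' * (G * P)) := by
    refine c.null_of_le _ (tendsto_rt_bound l (‖G‖ * ‖G‖ * 32)) ((c.eventually_ge l).mono fun N hN =>
      ?_)
    have hGP : Commute (G N) (P N) ∧ Commute (G N) (P' N) := by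
      simp only [P, P', mkSeq_apply]
      exact ⟨(Commute.sum_right _ _ _ fun r hr =>
        ((hGA N r hr).2.symm).mul_right (hGA N r hr).1.symm).smul_right _,
        (Commute.sum_right _ _ _ fun r hr =>
        ((hGA N r hr).1.symm).mul_right (hGA N r hr).2.symm).smul_right _⟩
    have e2 : (G * P * (G * P') - G * P' * (G * P)) N =
        G N * G N * (P N * P' N - P' N * P N) := by
      simp only [BoundedContinuousFunction.sub_apply, BoundedContinuousFunction.mul_apply, mul_sub]
      rw [mul_assoc (G N) (P N), ← mul_assoc (P N), ← hGP.1.eq, mul_assoc (G N) (P' N),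
        ← mul_assoc (P' N), ← hGP.2.eq]
      simp only [mul_assoc]
    rw [e2]
    have hb : ‖P N * P' N - P' N * P N‖ ≤ 32 * (Real.sqrt 2⁻¹) ^ (N - l) := by
      simp only [P, P', mkSeq_apply, smul_mul_smul_comm, ← smul_sub, norm_smul]
      rw [Real.norm_eq_abs, abs_of_nonneg (by positivity)]
      set k : ℝ := ((pc N l b).card : ℝ) with hk
      refine (mul_le_mul_of_nonneg_left ((norm_comm_sums_le (pc N l b) (pc N l b) _ _ (a := 32)
        (fun r s hrs => ((hAA N r s hrs _ (by simp) _ (by simp)).mul_right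
          (hAA N r s hrs _ (by simp) _ (by simp))).mul_left
          ((hAA N r s hrs _ (by simp) _ (by simp)).mul_right
          (hAA N r s hrs _ (by simp) _ (by simp)))) (fun r => ?_) (by norm_num)).1)
        (by positivity)).trans ?_
      · have u1 := (norm_mul_le (star (A N r) * A N r) (A N r * star (A N r))).trans
          (mul_le_mul (h4 N r).1 (h4 N r).2 (norm_nonneg _) (by norm_num))
        have u2 := (norm_mul_le (A N r * star (A N r)) (star (A N r) * A N r)).trans
          (mul_le_mul (h4 N r).2 (h4 N r).1 (norm_nonneg _) (by norm_num))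
        linarith [norm_sub_le (star (A N r) * A N r * (A N r * star (A N r)))
          (A N r * star (A N r) * (star (A N r) * A N r))]
      · have hr := rt_card_le N l b hN
        have hk1 : k⁻¹ * k⁻¹ * (k * 32) = 32 * k⁻¹ := by
          rcases eq_or_ne k 0 with h0 | h0
          · simp [h0]
          · field_simp
        rw [hk1, hk, ← rt_mul_self]
        refine mul_le_mul_of_nonneg_left ?_ (by norm_num)
        refine (mul_le_of_le_one_right (rt_nonneg _) ?_).trans hr
        exact hr.trans (pow_le_one₀ (Real.sqrt_nonneg _) (Real.sqrt_le_one.2 (by norm_num)))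
    refine (norm_mul_le _ _).trans ((mul_le_mul ((norm_mul_le _ _).trans (mul_le_mul
      (G.norm_coe_le_norm N) (G.norm_coe_le_norm N) (norm_nonneg _) (norm_nonneg _))) hb
      (norm_nonneg _) (by positivity)).trans_eq (by ring))
  have heq : ∀ N, (c.Q N).qs ((G * P) N) = (c.Q N).qs ((G * P') N) := by
    intro N
    set p := CFC.sqrt (G N) with hp
    have hpp : p * p = G N := CFC.sqrt_mul_sqrt_self _ (hG N)
    have hps : IsSelfAdjoint p := IsSelfAdjoint.of_nonneg (CFC.sqrt_nonneg _)
    set t := Real.sqrt ((pc N l b).card : ℝ)⁻¹ with ht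
    have htt : t * t = ((pc N l b).card : ℝ)⁻¹ := Real.mul_self_sqrt (by positivity)
    have hpA : ∀ r ∈ pc N l b, Commute (A N r) p ∧ Commute (star (A N r)) p := fun r hr => by
      have k : ∀ z : D, Commute z (G N) → Commute z p := fun z hz => by
        rw [hp, CFC.sqrt_eq_real_sqrt (G N) (hG N), cfcₙ_eq_cfc (hf0 := Real.sqrt_zero)]
        exact (hz.symm.cfc_real _).symm
      exact ⟨k _ (hGA N r hr).1, k _ (hGA N r hr).2⟩
    set y : Fin (2 ^ N) → D := fun r => t • (A N r * p) with hy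
    have f1 : ∀ r ∈ pc N l b,
        star (y r) * y r = ((pc N l b).card : ℝ)⁻¹ • (G N * (star (A N r) * A N r)) := fun r hr => by
      rw [hy]
      simp only [star_smul, star_trivial, smul_mul_smul_comm, htt, star_mul, hps.star_eq]
      congr 1
      rw [mul_assoc, (hpA r hr).1.eq, ← mul_assoc (star (A N r)), (hpA r hr).2.eq, mul_assoc p,
        ← mul_assoc p p, hpp]
    have f2 : ∀ r ∈ pc N l b,
        y r * star (y r) = ((pc N l b).card : ℝ)⁻¹ • (G N * (A N r * star (A N r))) := fun r hr => by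
      rw [hy]
      simp only [star_smul, star_trivial, smul_mul_smul_comm, htt, star_mul, hps.star_eq]
      congr 1
      rw [mul_assoc, ← mul_assoc p p, hpp, ← mul_assoc, (hGA N r hr).1.eq, mul_assoc]
    have hc1 : ∀ r ∈ pc N l b, ∀ s ∈ pc N l b, r ≠ s →
        Commute (star (A N r) * A N r) (star (A N s) * A N s) ∧
        Commute (A N r * star (A N r)) (A N s * star (A N s)) := fun r _ s _ hrs =>
      ⟨((hAA N r s hrs _ (by simp) _ (by simp)).mul_right (hAA N r s hrs _ (by simp) _ (by simp))).mul_left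
        ((hAA N r s hrs _ (by simp) _ (by simp)).mul_right (hAA N r s hrs _ (by simp) _ (by simp))),
      ((hAA N r s hrs _ (by simp) _ (by simp)).mul_right (hAA N r s hrs _ (by simp) _ (by simp))).mul_left
        ((hAA N r s hrs _ (by simp) _ (by simp)).mul_right (hAA N r s hrs _ (by simp) _ (by simp)))⟩
    simp only [BoundedContinuousFunction.mul_apply, P, P', mkSeq_apply, mul_smul_comm, mul_sum,
      smul_sum]
    rw [sum_congr rfl fun r hr => (f1 r hr).symm, sum_congr rfl fun r hr => (f2 r hr).symm,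
      qs_sum (c.Q N) c.hL, qs_sum (c.Q N) c.hL]
    · refine sum_congr rfl fun r _ => ?_
      have h2 := qs_star_mul_self (c.Q N) (star (y r))
      rw [star_star] at h2
      rw [qs_star_mul_self, h2, (c.Q N).sq_star]
    · exact fun r _ => IsSelfAdjoint.mul_star_self _
    · intro r hr s hs hrs
      rw [f2 r hr, f2 s hs]
      have : Commute (((pc N l b).card : ℝ)⁻¹ • (G N * (A N r * star (A N r))))
          (((pc N l b).card : ℝ)⁻¹ • (G N * (A N s * star (A N s)))) :=
        (((Commute.refl (G N)).mul_right ((hGA N s hs).1.symm.mul_right (hGA N s hs).2.symm)).mul_left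
          (((hGA N r hr).1.mul_left (hGA N r hr).2).mul_right (hc1 r hr s hs hrs).2)).smul_left _
          |>.smul_right _
      rw [this.eq, sub_self]; exact (c.Q N).null_zero
    · exact fun r _ => IsSelfAdjoint.star_mul_self _
    · intro r hr s hs hrs
      rw [f1 r hr, f1 s hs]
      have : Commute (((pc N l b).card : ℝ)⁻¹ • (G N * (star (A N r) * A N r)))
          (((pc N l b).card : ℝ)⁻¹ • (G N * (star (A N s) * A N s))) :=
        (((Commute.refl (G N)).mul_right ((hGA N s hs).2.symm.mul_right (hGA N s hs).1.symm)).mul_left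
          (((hGA N r hr).2.mul_left (hGA N r hr).1).mul_right (hc1 r hr s hs hrs).1)).smul_left _
          |>.smul_right _
      rw [this.eq, sub_self]; exact (c.Q N).null_zero
  rw [e, sub_eq_add_neg, c.hL.1 _ c.R _ _ hsa1 hsa2.neg ?_, QT.qs_neg, ← sub_eq_add_neg, sub_eq_zero]
  · exact tendsto_nhds_unique (c.tendsto_qs _ hsa1)
      ((c.tendsto_qs _ hsa2).congr fun N => (heq N).symm)
  · have h' := QT.Null.neg c.R hnull
    rwa [show -(G * P * (G * P') - G * P' * (G * P)) =
      G * P * -(G * P') - -(G * P') * (G * P) by noncomm_ring] at h'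

/-- Means of commutators are null. -/
theorem null_Dp (a : I) (g h : ι) (l b : ℕ) : c.R.Null (c.Dp a g h l b) := by
  rcases lt_or_ge b (2 ^ l) with hb | hb
  swap
  · refine c.null_of_eventually_eq _ (Eventually.of_forall fun N => ?_)
    have : pc N l b = ∅ := eq_empty_of_forall_notMem fun r hr =>
      absurd (mem_pc.1 hr) ((Nat.mod_lt _ (Nat.two_pow_pos l)).trans_le hb).ne
    simp [Dp, this]
  have hsplit : ∀ j, c.R.Null (c.Dp a g h l b -
      ∑ i ∈ range (2 ^ j), ((2 : ℝ) ^ j)⁻¹ • c.Dp a g h (l + j) (b + 2 ^ l * i)) := by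
    intro j
    induction j with
    | zero => simpa using c.R.null_zero
    | succ j ih =>
      have h1 : c.R.Null (∑ i ∈ range (2 ^ j), ((2 : ℝ) ^ j)⁻¹ • c.Dp a g h (l + j) (b + 2 ^ l * i) -
          ∑ i ∈ range (2 ^ (j + 1)),
            ((2 : ℝ) ^ (j + 1))⁻¹ • c.Dp a g h (l + (j + 1)) (b + 2 ^ l * i)) := by
        rw [pow_succ 2 j, mul_two, sum_range_add, ← sum_add_distrib, ← sum_sub_distrib]
        refine sum_induction _ _ (fun x y hx hy => QT.Null.add c.R hx hy) c.R.null_zero fun i hi => ?_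
        rw [mem_range] at hi
        have hbi : b + 2 ^ l * i < 2 ^ (l + j) := by
          rw [pow_add]
          have := Nat.mul_le_mul_left (2 ^ l) hi
          rw [Nat.mul_succ] at this
          omega
        have h2 := QT.Null.smul c.R (c.null_Dp_split a g h hbi) ((((2 : ℝ) ^ j)⁻¹ : ℝ) : ℂ)
        rw [Complex.coe_smul] at h2
        convert h2 using 1
        rw [smul_sub, smul_add, smul_smul, smul_smul, pow_succ (2 : ℝ) j, mul_inv,
          show b + 2 ^ l * (2 ^ j + i) = b + 2 ^ l * i + 2 ^ (l + j) by rw [pow_add]; ring,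
          ← add_assoc l j 1]
      have := QT.Null.add c.R ih h1
      rwa [sub_add_sub_cancel] at this
  refine le_antisymm ?_ (c.R.sq_nonneg _)
  have key : ∀ j : ℕ, c.R.sq (c.Dp a g h l b) ≤ 4 * ((2 : ℝ) ^ j)⁻¹ := by
    intro j
    rw [QT.sq_congr c.R (hsplit j)]
    set w : ℝ := ((2 : ℝ) ^ j)⁻¹ with hw
    set F : ℕ → ℕ →ᵇ D := fun i => c.Dp a g h (l + j) (b + 2 ^ l * i) with hF
    have hFsa : ∀ i, IsSelfAdjoint (F i) := fun i => c.Dp_sa a g h _ _
    have hdj : ∀ i i', i ≠ i' → ∀ N,
        Disjoint (pc N (l + j) (b + 2 ^ l * i)) (pc N (l + j) (b + 2 ^ l * i')) := fun i i' hii N =>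
      pc_disjoint fun e => hii (Nat.eq_of_mul_eq_mul_left (Nat.two_pow_pos l) (by omega))
    have hξF : ∀ i i', i ≠ i' → ∀ N r, r ∈ pc N (l + j) (b + 2 ^ l * i) → ∀ g',
        Commute ((c.B a N).ξ g' r) (F i' N) := fun i i' hii N r hr g' => by
      simp only [F, Dp, mkSeq_apply]
      refine (Commute.sum_right _ _ _ fun s hs => ?_).smul_right _
      have hrs : r ≠ s := fun e => disjoint_left.1 (hdj i i' hii N) hr (e ▸ hs)
      exact ((((c.B a N).comm g' g r s hrs).1.mul_right ((c.B a N).comm g' h r s hrs).1).sub_right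
        (((c.B a N).comm g' h r s hrs).1.mul_right ((c.B a N).comm g' g r s hrs).1)).smul_right _
    have hFc : ∀ i i', Commute (F i) (F i') := fun i i' => by
      rcases eq_or_ne i i' with rfl | hii
      · exact Commute.refl _
      ext N
      show (F i N) * (F i' N) = F i' N * F i N
      have : Commute (F i N) (F i' N) := by
        simp only [F, Dp, mkSeq_apply]
        refine (Commute.sum_left _ _ _ fun r hr => ?_).smul_left _
        have k : ∀ g', Commute ((c.B a N).ξ g' r) (F i' N) := hξF i i' hii N r hr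
        simp only [F, Dp, mkSeq_apply] at k
        exact (((k g).mul_left (k h)).sub_left ((k h).mul_left (k g))).smul_left _
      exact this.eq
    have e : c.R.sq (∑ i ∈ range (2 ^ j), w • F i) =
        ∑ p ∈ range (2 ^ j) ×ˢ range (2 ^ j), c.R.qs ((w * w) • (F p.1 * F p.2)) := by
      rw [← qs_star_mul_self, (isSelfAdjoint_sum _ fun i _ =>
        (IsSelfAdjoint.all w).smul (hFsa i)).star_eq, sum_mul_sum, ← sum_product']
      simp only [smul_mul_smul_comm]
      refine qs_sum c.R c.hL _ _ (fun p _ => (IsSelfAdjoint.all _).smul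
        ((IsSelfAdjoint.commute_iff (hFsa _) (hFsa _)).1 (hFc _ _))) fun p _ q _ _ => ?_
      have : Commute ((w * w) • (F p.1 * F p.2)) ((w * w) • (F q.1 * F q.2)) :=
        ((((hFc _ _).mul_right (hFc _ _)).mul_left ((hFc _ _).mul_right (hFc _ _))).smul_left
          _).smul_right _
      rw [this.eq, sub_self]; exact c.R.null_zero
    rw [e]
    have hoff : ∀ i i', i ≠ i' → c.R.qs ((w * w) • (F i' * F i)) = 0 := by
      intro i i' hii
      have h2c : ∀ N, ‖F i' N‖ ≤ 2 := fun N =>
        ((F i').norm_coe_le_norm N).trans (c.norm_Dp a g h _ _)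
      have hp : ∀ N, 0 ≤ F i' N + algebraMap ℝ D 2 := fun N => by
        have hs : IsSelfAdjoint (F i' N) := congrArg (fun z : ℕ →ᵇ D => z N) (hFsa i').star_eq
        have := hs.neg_algebraMap_norm_le_self
        refine le_trans ?_ (add_le_add_left this _)
        rw [neg_add_eq_sub, sub_nonneg]
        exact algebraMap_mono D (h2c N)
      have z1 := c.qs_mul_Dp a g h (l + j) (b + 2 ^ l * i) (F i' + (2 : ℝ) • 1)
        (fun N => by
          have := hp N
          rwa [Algebra.algebraMap_eq_smul_one] at this)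
        (fun N r hr g' => (hξF i i' hii N r hr g').add_right ((Commute.one_right _).smul_right _))
      have z2 := c.qs_mul_Dp a g h (l + j) (b + 2 ^ l * i) 1
        (fun N => zero_le_one) (fun N r _ g' => Commute.one_right _)
      rw [one_mul, QT.qs_smul] at z2
      have z2' : c.R.qs (F i) = 0 := by linarith
      rw [add_mul, smul_add, smul_mul_assoc, one_mul,
        c.hL.1 _ c.R _ _ ((IsSelfAdjoint.all _).smul
          ((IsSelfAdjoint.commute_iff (hFsa i') (hFsa i)).1 (hFc i' i)))
          ((IsSelfAdjoint.all _).smul ((IsSelfAdjoint.all _).smul (hFsa i))) ?_,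
        QT.qs_smul, QT.qs_smul, QT.qs_smul, z2', mul_zero, mul_zero, add_zero] at z1
      · rw [QT.qs_smul, show c.R.qs (F i' * F i) = 0 by linarith, mul_zero]
      · have : Commute ((2 : ℝ) • (F i' * F i)) ((2 : ℝ) • (2 : ℝ) • F i) :=
          ((((hFc i' i).mul_left (Commute.refl _)).smul_right _).smul_right _).smul_left _
        rw [this.eq, sub_self]; exact c.R.null_zero
    rw [sum_product]
    refine (sum_le_card_nsmul _ _ (4 * w ^ 2) fun i hi => ?_).trans_eq ?_
    · rw [sum_eq_single i (fun i' _ hne => hoff i' i hne) (fun h => absurd hi h)]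
      rw [QT.qs_smul]
      have : c.R.qs (F i * F i) ≤ 4 := by
        nth_rw 1 [← (hFsa i).star_eq]
        rw [qs_star_mul_self]
        refine (c.R.sq_le_norm _).trans ?_
        have h2 : ‖F i‖ ≤ 2 := c.norm_Dp a g h _ _
        nlinarith [norm_nonneg (F i)]
      rw [← _root_.sq, mul_comm 4]
      exact mul_le_mul_of_nonneg_left this (sq_nonneg _)
    · rw [card_range, nsmul_eq_mul, hw]
      push_cast
      field_simp
  have ht : Tendsto (fun j : ℕ => 4 * ((2 : ℝ) ^ j)⁻¹) atTop (𝓝 0) := by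
    simpa using ((tendsto_pow_atTop_atTop_of_one_lt (one_lt_two : (1 : ℝ) < 2)).inv_tendsto_atTop.const_mul
      (4 : ℝ))
  exact ge_of_tendsto' ht key

end Ctx

end Vale.Agent.P095.General.Fair
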