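import Vale.Agent.P095.General.Fair.Alg

/-!
The two laws of the limit: one translate is Gaussian, and two bounded versions multiply to the
kernel.
-/

noncomputable section

open Finset Filter Topology
open scoped BoundedContinuousFunction

namespace Vale.Agent.P095.General.Fair

attribute [local instance] CStarAlgebra.spectralOrder CStarAlgebra.spectralOrderedRing

universe u v

section Alg

variable {D : Type u} [CStarAlgebra D]

lemma gex_cfc {S : D} (hS : IsSelfAdjoint S) (t : ℝ) :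
    gex S t = cfc (fun z : ℂ => Complex.exp (Complex.I * t * z)) S := by
  have hn : IsStarNormal S := hS.isStarNormal
  rw [gex_eq, ← CFC.exp_eq_normedSpace_exp (𝕜 := ℂ) (a := (Complex.I * t) • S),
    ← cfc_comp_const_mul (Complex.I * t) _ S, Complex.exp_eq_exp_ℂ]

lemma bsin_eq_gex {S : D} (hS : IsSelfAdjoint S) (θ : ℝ) :
    bsin θ S = ((2 : ℂ) * Complex.I * θ)⁻¹ • (gex S θ - gex S (-θ)) := by
  have hn : IsStarNormal S := hS.isStarNormal
  rw [gex_cfc hS, gex_cfc hS, ← cfc_sub .., ← cfc_smul .., bsin, cfc_real_eq_complex _ hS]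
  refine cfc_congr fun z hz => ?_
  obtain ⟨x, rfl⟩ : ∃ x : ℝ, (x : ℂ) = z := ⟨z.re, (hS.mem_spectrum_eq_re hz).symm⟩
  simp only [Complex.ofReal_re, smul_eq_mul, Complex.ofReal_div, Complex.ofReal_sin,
    Complex.ofReal_mul, Complex.ofReal_neg]
  rcases eq_or_ne (θ : ℂ) 0 with h | h
  · simp [h]
  have e2 := Complex.two_sin ((θ : ℂ) * x)
  rw [show Complex.I * (θ : ℂ) * x = (θ : ℂ) * x * Complex.I by ring,
    show Complex.I * -(θ : ℂ) * x = -((θ : ℂ) * x) * Complex.I by ring]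
  field_simp
  rw [neg_mul] at e2
  linear_combination Complex.I * e2 + (Complex.exp (-((θ : ℂ) * x * Complex.I)) -
    Complex.exp ((θ : ℂ) * x * Complex.I)) * Complex.I_sq

lemma gex_smul (r : ℝ) (a : D) (t : ℝ) : gex (r • a) t = gex a (t * r) := by
  rw [gex, gex, ← Complex.coe_smul r, smul_comm Complex.I, Complex.coe_smul, smul_smul]

end Alg

namespace Ctx

variable {D : Type u} [CStarAlgebra D] {ι : Type v} {I : Type} (c : Ctx D ι I)

/-- The state of the limit. -/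
def P : PSt c.R where
  C := c.M0
  closed := c.isClosed_M0
  φ := (c.hL.2.2 _ c.R c.M0 c.isClosed_M0 c.null_M0).choose
  one := (c.hL.2.2 _ c.R c.M0 c.isClosed_M0 c.null_M0).choose_spec.1
  sq_eq := (c.hL.2.2 _ c.R c.M0 c.isClosed_M0 c.null_M0).choose_spec.2.1
  qs_eq := (c.hL.2.2 _ c.R c.M0 c.isClosed_M0 c.null_M0).choose_spec.2.2

/-- The state. -/
def ev (x : ℕ →ᵇ D) : ℂ := c.P.ev x

lemma tendsto_ev {x : ℕ →ᵇ D} (hx : x ∈ c.M0) (T : ∀ N, PSt (c.Q N))
    (hT : ∀ᶠ N in (c.U : Filter ℕ), x N ∈ (T N).C) :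
    Tendsto (fun N => (T N).ev (x N)) (c.U : Filter ℕ) (𝓝 (c.ev x)) := by
  set a : ℕ →ᵇ D := (2 : ℂ)⁻¹ • (x + star x) with ha
  set b : ℕ →ᵇ D := (-Complex.I * (2 : ℂ)⁻¹) • (x - star x) with hb
  have haC : a ∈ c.M0 := SMulMemClass.smul_mem _ (add_mem hx (star_mem hx))
  have hbC : b ∈ c.M0 := SMulMemClass.smul_mem _ (sub_mem hx (star_mem hx))
  have hasa : IsSelfAdjoint a := by
    rw [isSelfAdjoint_iff, ha, star_smul, star_add, star_star, add_comm (star x)]
    simp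
  have hbsa : IsSelfAdjoint b := by
    rw [isSelfAdjoint_iff, hb, star_smul, star_sub, star_star]
    simp only [Complex.star_def, map_mul, map_neg, Complex.conj_I, map_inv₀, map_ofNat]
    rw [← neg_sub x (star x), smul_neg, ← neg_smul]
    congr 1; ring
  have e1 : x = a + Complex.I • b := by
    rw [ha, hb, smul_smul, ← mul_assoc, mul_neg, Complex.I_mul_I, neg_neg, one_mul, ← smul_add,
      add_add_sub_cancel, ← two_smul ℂ x, smul_smul]
    norm_num
  have hlim : Tendsto (fun N => ((c.Q N).qs (a N) : ℂ) + Complex.I * ((c.Q N).qs (b N) : ℂ))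
      (c.U : Filter ℕ) (𝓝 ((c.R.qs a : ℂ) + Complex.I * (c.R.qs b : ℂ))) :=
    ((Complex.continuous_ofReal.tendsto _).comp (c.tendsto_qs a hasa)).add
      (((Complex.continuous_ofReal.tendsto _).comp (c.tendsto_qs b hbsa)).const_mul Complex.I)
  have hev : c.ev x = (c.R.qs a : ℂ) + Complex.I * (c.R.qs b : ℂ) := by
    show c.P.ev x = _
    conv_lhs => rw [e1]
    rw [c.P.ev_add haC (SMulMemClass.smul_mem _ hbC), c.P.ev_smul _ hbC, c.P.ev_qs haC hasa,
      c.P.ev_qs hbC hbsa]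
  rw [hev]
  refine hlim.congr' (hT.mono fun N hN => ?_)
  have haN : a N ∈ (T N).C := by
    simp only [a, BoundedContinuousFunction.smul_apply, BoundedContinuousFunction.add_apply]
    exact SMulMemClass.smul_mem _ (add_mem hN (star_mem hN))
  have hbN : b N ∈ (T N).C := by
    simp only [b, BoundedContinuousFunction.smul_apply, BoundedContinuousFunction.sub_apply]
    exact SMulMemClass.smul_mem _ (sub_mem hN (star_mem hN))
  show _ = (T N).ev (x N)
  conv_rhs => rw [show x N = a N + Complex.I • b N from congrArg (fun z : ℕ →ᵇ D => z N) e1]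
  rw [(T N).ev_add haN (SMulMemClass.smul_mem _ hbN), (T N).ev_smul _ hbN,
    (T N).ev_qs haN (congrArg (fun z : ℕ →ᵇ D => z N) hasa.star_eq),
    (T N).ev_qs hbN (congrArg (fun z : ℕ →ᵇ D => z N) hbsa.star_eq)]

/-- The sequences commuting exactly with one piece of one group. -/
def Out (a : I) (l b : ℕ) : StarSubalgebra ℂ (ℕ →ᵇ D) :=
  c.M0 ⊓ ⨅ N, ((c.B a N).away (pc N l b)).comap (evH N)

lemma mem_Out {a : I} {l b : ℕ} {x : ℕ →ᵇ D} :
    x ∈ c.Out a l b ↔ x ∈ c.M0 ∧ ∀ N, x N ∈ (c.B a N).away (pc N l b) := by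
  simp [Out, StarSubalgebra.mem_inf, StarSubalgebra.mem_iInf, StarSubalgebra.mem_comap]

/-- The bounded version of a collective element of a piece, in the limit algebra. -/
def Ts (a : I) (g : ι) (l b : ℕ) (θ : ℝ) : ℕ →ᵇ D :=
  ((2 : ℂ) * Complex.I * θ)⁻¹ • (c.W a g l b θ - c.W a g l b (-θ))

lemma Ts_apply (a : I) (g : ι) (l b : ℕ) (θ : ℝ) (N : ℕ) :
    c.Ts a g l b θ N = bsin θ ((c.B a N).pS g l b) := by
  rw [bsin_eq_gex ((c.B a N).pS_sa g l b)]; rfl

lemma Ts_mem (a : I) (g : ι) (l b : ℕ) (θ : ℝ) : c.Ts a g l b θ ∈ c.M0 :=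
  SMulMemClass.smul_mem _ (sub_mem (c.W_mem _ _ _ _ _) (c.W_mem _ _ _ _ _))

lemma W_Out_of_disjoint {a : I} {g : ι} {l b l' b' : ℕ}
    (h : ∀ N, Disjoint (pc N l b) (pc N l' b')) (t : ℝ) : c.W a g l b t ∈ c.Out a l' b' := by
  refine c.mem_Out.2 ⟨c.W_mem _ _ _ _ _, fun N => ?_⟩
  show gex _ t ∈ _
  refine gex_mem ((c.B a N).away_closed _) ?_ t
  rw [Blk.pS, cl, ← Complex.coe_smul]
  exact SMulMemClass.smul_mem _ (sum_mem fun r hr =>
    (c.B a N).ξ_away g fun hr' => disjoint_left.1 (h N) hr hr')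

/-- The Gaussian law of one translate. -/
theorem law_one {a : I} (g : ι) {l b : ℕ} (hb : b < 2 ^ l) {G : ℕ →ᵇ D} (hG : G ∈ c.Out a l b)
    (t : ℝ) : c.ev (G * c.W a g l b t) = (Real.exp (-(t ^ 2) / 2) : ℂ) * c.ev G := by
  have sa_case : ∀ H : ℕ →ᵇ D, IsSelfAdjoint H → H ∈ c.Out a l b →
      c.ev (H * c.W a g l b t) = (Real.exp (-(t ^ 2) / 2) : ℂ) * c.ev H := by
    intro H hH hHo
    obtain ⟨hHM, hHa⟩ := c.mem_Out.1 hHo
    have hHs : ∀ N, IsSelfAdjoint (H N) := fun N => congrArg (fun z : ℕ →ᵇ D => z N) hH.star_eq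
    have hT : ∀ N, ∃ T : St (c.Q N), H N ∈ T.C ∧ ∀ r ∈ pc N l b, (c.B a N).ξ g r ∈ T.C := by
      intro N
      obtain ⟨T, hT, -⟩ := exists_st (c.Q N) c.hL
        (insert (H N) ((fun r => (c.B a N).ξ g r) '' (pc N l b : Set _))) (by
          rintro x (rfl | ⟨r, -, rfl⟩)
          exacts [hHs N, (c.B a N).sa g r]) (by
          rintro x (rfl | ⟨r, hr, rfl⟩) y (rfl | ⟨s, hs, rfl⟩)
          · exact Commute.refl _
          · exact ((c.B a N).comm_away (hHa N) g hs).1.symm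
          · exact ((c.B a N).comm_away (hHa N) g hr).1
          · rcases eq_or_ne r s with rfl | hne
            exacts [Commute.refl _, ((c.B a N).comm g g r s hne).1])
      exact ⟨T, hT (Set.mem_insert _ _), fun r hr => hT (Or.inr ⟨r, hr, rfl⟩)⟩
    choose T hT1 hT2 using hT
    have hmem : ∀ N, (H * c.W a g l b t) N ∈ (T N).C := fun N => by
      refine mul_mem (hT1 N) ?_
      show gex _ t ∈ _
      refine gex_mem (T N).closed ?_ t
      rw [Blk.pS, cl, ← Complex.coe_smul]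
      exact SMulMemClass.smul_mem _ (sum_mem (hT2 N))
    have L1 := c.tendsto_ev (mul_mem hHM (c.W_mem a g l b t)) (fun N => (T N).toPSt)
      (Eventually.of_forall hmem)
    have L2 := c.tendsto_ev hHM (fun N => (T N).toPSt) (Eventually.of_forall hT1)
    set n : ℕ → ℕ := fun N => 2 ^ (N - l) with hn
    have hntop : Tendsto n atTop atTop :=
      (tendsto_pow_atTop_atTop_of_one_lt (one_lt_two : (1 : ℕ) < 2)).comp (tendsto_sub_atTop_nat l)
    have L3 : Tendsto (fun N => (((1 - (t * rt (n N)) ^ 2 / 2 : ℝ) : ℂ)) ^ n N) (c.U : Filter ℕ)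
        (𝓝 ((Real.exp (-(t ^ 2) / 2) : ℝ) : ℂ)) := by
      have h := ((Real.tendsto_one_add_div_pow_exp (-(t ^ 2) / 2)).comp hntop).mono_left c.hU
      refine ((Complex.continuous_ofReal.tendsto _).comp h).congr fun N => ?_
      simp only [Function.comp_apply, ← Complex.ofReal_pow]
      congr 2
      rw [mul_pow, _root_.sq (rt (n N)), rt_mul_self]
      ring
    have hsub : Tendsto (fun N => (T N).ev ((H * c.W a g l b t) N) -
        (((1 - (t * rt (n N)) ^ 2 / 2 : ℝ) : ℂ)) ^ n N * (T N).ev (H N)) (c.U : Filter ℕ) (𝓝 0) := by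
      refine squeeze_zero_norm' (a := fun N => (17 * ((2 : ℝ) ^ N)⁻¹ + |t| ^ 3 * Real.sqrt 2⁻¹ ^ (N - l)) *
        ‖H‖) ?_ ?_
      · filter_upwards [c.eventually_ge l,
          ((tendsto_rt_bound l |t|).mono_left c.hU).eventually_le_const (show (0 : ℝ) < 1 by norm_num)]
          with N hN hsmall
        have hcard : (pc N l b).card = n N := card_pc hN hb
        have hr : rt (n N) ≤ Real.sqrt 2⁻¹ ^ (N - l) := hcard ▸ rt_card_le N l b hN
        have ht1 : |t * rt (n N)| ≤ 1 := by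
          rw [abs_mul, abs_of_nonneg (rt_nonneg _)]
          exact (mul_le_mul_of_nonneg_left hr (abs_nonneg t)).trans hsmall
        have h := (c.B a N).ev_law (dl_pos N) (dl_le_one N) (T N) (hT2 N) (hT1 N) (hHa N) ht1
        rw [hcard] at h
        have eW : (H * c.W a g l b t) N =
            H N * gex (∑ r ∈ pc N l b, (c.B a N).ξ g r) (t * rt (n N)) := by
          show H N * gex ((c.B a N).pS g l b) t = _
          rw [Blk.pS, cl, gex_smul, hcard]
        rw [eW]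
        refine h.trans ?_
        rw [← mul_assoc]
        refine mul_le_mul ?_ (H.norm_coe_le_norm N) (norm_nonneg _) (by positivity)
        set m : ℝ := (n N : ℝ) with hm
        have hm1 : 1 ≤ m := by rw [hm, hn]; exact_mod_cast Nat.one_le_two_pow
        have hmd : m * dl N ≤ ((2 : ℝ) ^ N)⁻¹ / 16 := by
          have hmN : m ≤ (2 : ℝ) ^ N := by
            rw [hm, hn]; push_cast; exact pow_le_pow_right₀ (by norm_num) (Nat.sub_le N l)
          rw [dl, mul_inv, ← mul_assoc, mul_comm _ ((16 : ℝ)⁻¹), mul_assoc, div_eq_inv_mul]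
          refine mul_le_mul_of_nonneg_left ?_ (by norm_num)
          have h1 : (1 : ℝ) ≤ 2 ^ N := one_le_pow₀ (by norm_num)
          rw [← div_eq_mul_inv, div_le_iff₀ (by positivity)]
          refine hmN.trans ?_
          rw [show ((2 : ℝ) ^ N) ^ 12 = (2 ^ N) * (2 ^ N) ^ 11 by ring, ← mul_assoc,
            inv_mul_cancel₀ (by positivity), one_mul]
          exact le_self_pow₀ h1 (by norm_num)
        have h3 : m * |t * rt (n N)| ^ 3 ≤ |t| ^ 3 * Real.sqrt 2⁻¹ ^ (N - l) := by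
          rw [abs_mul, abs_of_nonneg (rt_nonneg _), mul_pow]
          calc m * (|t| ^ 3 * rt (n N) ^ 3) = |t| ^ 3 * rt (n N) * (rt (n N) * rt (n N) * m) := by ring
            _ ≤ |t| ^ 3 * Real.sqrt 2⁻¹ ^ (N - l) * 1 := by
              refine mul_le_mul (mul_le_mul_of_nonneg_left hr (by positivity)) ?_
                (mul_nonneg (mul_nonneg (rt_nonneg _) (rt_nonneg _)) (Nat.cast_nonneg _)) (by positivity)
              rw [rt_mul_self]; exact inv_mul_le_one
            _ = _ := mul_one _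
        have h4 : (t * rt (n N)) ^ 2 ≤ 1 := by
          rw [← sq_abs]; exact pow_le_one₀ (abs_nonneg _) ht1
        have hd0 := (dl_pos N).le
        have hinv : (0 : ℝ) ≤ ((2 : ℝ) ^ N)⁻¹ := by positivity
        nlinarith [mul_le_mul_of_nonneg_left ht1 (mul_nonneg (zero_le_one.trans hm1) hd0),
          mul_le_mul_of_nonneg_left h4 (mul_nonneg (zero_le_one.trans hm1) hd0)]
      · have a1 : Tendsto (fun N : ℕ => 17 * ((2 : ℝ) ^ N)⁻¹) atTop (𝓝 0) := by
          simpa using (tendsto_pow_atTop_atTop_of_one_lt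
            (one_lt_two : (1 : ℝ) < 2)).inv_tendsto_atTop.const_mul (17 : ℝ)
        simpa using ((a1.add (tendsto_rt_bound l (|t| ^ 3))).mul_const ‖H‖).mono_left c.hU
    exact sub_eq_zero.1 (tendsto_nhds_unique (L1.sub (L3.mul L2)) hsub)
  set A : ℕ →ᵇ D := (2 : ℂ)⁻¹ • (G + star G) with hA
  set Bi : ℕ →ᵇ D := (-Complex.I * (2 : ℂ)⁻¹) • (G - star G) with hB
  have hAo : A ∈ c.Out a l b := SMulMemClass.smul_mem _ (add_mem hG (star_mem hG))
  have hBo : Bi ∈ c.Out a l b := SMulMemClass.smul_mem _ (sub_mem hG (star_mem hG))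
  have hAs : IsSelfAdjoint A := by
    rw [isSelfAdjoint_iff, hA, star_smul, star_add, star_star, add_comm (star G)]
    simp
  have hBs : IsSelfAdjoint Bi := by
    rw [isSelfAdjoint_iff, hB, star_smul, star_sub, star_star]
    simp only [Complex.star_def, map_mul, map_neg, Complex.conj_I, map_inv₀, map_ofNat]
    rw [← neg_sub G (star G), smul_neg, ← neg_smul]
    congr 1; ring
  have e : G = A + Complex.I • Bi := by
    rw [hA, hB, smul_smul, ← mul_assoc, mul_neg, Complex.I_mul_I, neg_neg, one_mul, ← smul_add,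
      add_add_sub_cancel, ← two_smul ℂ G, smul_smul]
    norm_num
  have hAM := (c.mem_Out.1 hAo).1
  have hBM := (c.mem_Out.1 hBo).1
  have hW := c.W_mem a g l b t
  clear_value A Bi
  have r1 := sa_case A hAs hAo
  have r2 := sa_case Bi hBs hBo
  simp only [ev] at r1 r2 ⊢
  rw [e, add_mul, smul_mul_assoc, c.P.ev_add (mul_mem hAM hW) (SMulMemClass.smul_mem _ (mul_mem hBM hW)),
    c.P.ev_smul _ (mul_mem hBM hW), c.P.ev_add hAM (SMulMemClass.smul_mem _ hBM), c.P.ev_smul _ hBM,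
    r1, r2]
  ring

lemma ev_mul_Ts {a : I} (g : ι) {l b : ℕ} (hb : b < 2 ^ l) {G : ℕ →ᵇ D} (hG : G ∈ c.Out a l b)
    (θ : ℝ) : c.ev (G * c.Ts a g l b θ) = 0 := by
  have hGM := (c.mem_Out.1 hG).1
  have h1 := c.law_one g hb hG θ
  have h2 := c.law_one g hb hG (-θ)
  simp only [ev] at h1 h2 ⊢
  rw [Ts, mul_smul_comm, c.P.ev_smul _ (mul_mem hGM (sub_mem (c.W_mem _ _ _ _ _) (c.W_mem _ _ _ _ _))),
    mul_sub, c.P.ev_sub (mul_mem hGM (c.W_mem _ _ _ _ _)) (mul_mem hGM (c.W_mem _ _ _ _ _)), h1, h2,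
    neg_sq, sub_self, mul_zero]

/-- Two bounded versions multiply to the kernel, uniformly over the pieces. -/
theorem law_two {η : ℝ} (hη : 0 < η) : ∃ θ₀ : ℝ, 0 < θ₀ ∧ ∀ θ : ℝ, 0 < θ → θ ≤ θ₀ →
    ∀ (a : I) (g h : ι) (l b : ℕ), b < 2 ^ l → ∀ G ∈ c.Out a l b,
      ‖c.ev (G * (c.Ts a g l b θ * c.Ts a h l b θ - c.Kp a g h l b))‖ ≤ η * ‖G‖ := by
  obtain ⟨e, he, he3⟩ : ∃ e : ℝ, 0 < e ∧ Real.sqrt (e ^ 3) ≤ η := by
    refine ⟨min 1 η, by positivity, (Real.sqrt_le_left hη.le).2 ?_⟩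
    calc min 1 η ^ 3 ≤ min 1 η ^ 2 := pow_le_pow_of_le_one (by positivity) (min_le_left _ _) (by norm_num)
      _ ≤ η ^ 2 := pow_le_pow_left₀ (by positivity) (min_le_right _ _) 2
  obtain ⟨j, hj⟩ := exists_pow_lt_of_lt_one (show (0 : ℝ) < e / 30 by positivity)
    (show (4 : ℝ) / 5 < 1 by norm_num)
  set N₀ : ℝ := 2 * j * 2 ^ j with hN₀
  have hN₀0 : 0 ≤ N₀ := by positivity
  obtain ⟨u, hu, hu1, hub⟩ : ∃ u : ℝ, 0 < u ∧ u ≤ 1 ∧ N₀ * (32 * u ^ 2) ≤ e / 3 := by
    refine ⟨min 1 (e / (96 * (N₀ + 1))), by positivity, min_le_left _ _, ?_⟩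
    set u := min 1 (e / (96 * (N₀ + 1))) with hu'
    have hu0 : 0 < u := by positivity
    have h1 : u ^ 2 ≤ u := by rw [_root_.sq]; exact mul_le_of_le_one_left hu0.le (min_le_left _ _)
    have h2 : u * (96 * (N₀ + 1)) ≤ e := (le_div_iff₀ (by positivity)).1 (min_le_right _ _)
    nlinarith
  set M : ℝ := 24 + 24 * ((N₀ + 1) / u ^ 2) ^ 2 with hM
  have hM0 : 0 < M := by positivity
  set v₀ : ℝ := min 1 (e / (3 * M)) with hv₀
  refine ⟨v₀ ^ 3, by positivity, fun θ hθ hθ0 a g h l b hb G hG => ?_⟩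
  obtain ⟨v, hv, rfl⟩ : ∃ v : ℝ, 0 < v ∧ v ^ 3 = θ :=
    ⟨θ ^ ((3 : ℝ)⁻¹), by positivity, by
      rw [← Real.rpow_natCast, ← Real.rpow_mul hθ.le]; norm_num⟩
  have hvv : v ≤ v₀ := le_of_pow_le_pow_left₀ (by norm_num) (by positivity) hθ0
  have hv1 : v ≤ 1 := hvv.trans (min_le_left _ _)
  set O : ℕ →ᵇ D := ∑ i ∈ range j, ∑ k ∈ range (2 ^ i), ((((2 : ℝ) ^ (i + 1))⁻¹) •
      (c.Ts a g (l + (i + 1)) (b + 2 ^ l * k) (u ^ 3) *
        c.Ts a h (l + (i + 1)) (b + 2 ^ l * (k + 2 ^ i)) (u ^ 3)) +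
      (((2 : ℝ) ^ (i + 1))⁻¹) • (c.Ts a g (l + (i + 1)) (b + 2 ^ l * (k + 2 ^ i)) (u ^ 3) *
        c.Ts a h (l + (i + 1)) (b + 2 ^ l * k) (u ^ 3))) with hO
  set d := c.Ts a g l b (v ^ 3) * c.Ts a h l b (v ^ 3) - c.Kp a g h l b with hd
  obtain ⟨hGM, hGa⟩ := c.mem_Out.1 hG
  have hdM : d ∈ c.M0 := sub_mem (mul_mem (c.Ts_mem _ _ _ _ _) (c.Ts_mem _ _ _ _ _)) (c.Kp_mem _ _ _ _ _)
  have hterm : ∀ i k, (((2 : ℝ) ^ (i + 1))⁻¹) • (c.Ts a g (l + (i + 1)) k (u ^ 3)) ∈ c.M0 := fun i k => by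
    rw [← Complex.coe_smul]; exact SMulMemClass.smul_mem _ (c.Ts_mem _ _ _ _ _)
  have hOM : O ∈ c.M0 := sum_mem fun i _ => sum_mem fun k _ => by
    rw [← smul_mul_assoc, ← smul_mul_assoc]
    exact add_mem (mul_mem (hterm i _) (c.Ts_mem _ _ _ _ _)) (mul_mem (hterm i _) (c.Ts_mem _ _ _ _ _))
  have hz : c.ev (G * O) = 0 := by
    simp only [ev]
    rw [hO, mul_sum, c.P.ev_sum _ _ fun i _ => mul_mem hGM (sum_mem fun k _ => by
      rw [← smul_mul_assoc, ← smul_mul_assoc]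
      exact add_mem (mul_mem (hterm i _) (c.Ts_mem _ _ _ _ _)) (mul_mem (hterm i _) (c.Ts_mem _ _ _ _ _)))]
    refine sum_eq_zero fun i hi => ?_
    rw [mul_sum, c.P.ev_sum _ _ fun k _ => mul_mem hGM (by
      rw [← smul_mul_assoc, ← smul_mul_assoc]
      exact add_mem (mul_mem (hterm i _) (c.Ts_mem _ _ _ _ _)) (mul_mem (hterm i _) (c.Ts_mem _ _ _ _ _)))]
    refine sum_eq_zero fun k hk => ?_
    have hk' := mem_range.1 hk
    have hlt : ∀ q, q < 2 ^ (i + 1) → b + 2 ^ l * q < 2 ^ (l + (i + 1)) := fun q hq => by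
      rw [pow_add 2 l]
      have := Nat.mul_le_mul_left (2 ^ l) hq
      rw [Nat.mul_succ] at this
      omega
    have one : ∀ p q, q < 2 ^ (i + 1) → p ≠ q → c.P.ev (G *
        (c.Ts a g (l + (i + 1)) (b + 2 ^ l * p) (u ^ 3) *
          c.Ts a h (l + (i + 1)) (b + 2 ^ l * q) (u ^ 3))) = 0 := by
      intro p q hq hpq
      rw [← mul_assoc]
      refine c.ev_mul_Ts h (hlt q hq) (mul_mem (c.mem_Out.2 ⟨hGM, fun N =>
        (c.B a N).away_mono (fun r hr => mem_pc.2 ?_) (hGa N)⟩) ?_) _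
      · rw [← Nat.mod_mod_of_dvd _ (pow_dvd_pow 2 (Nat.le_add_right l (i + 1))), mem_pc.1 hr,
          Nat.add_mul_mod_self_left, Nat.mod_eq_of_lt hb]
      · refine SMulMemClass.smul_mem _ (sub_mem ?_ ?_) <;>
          exact c.W_Out_of_disjoint (fun N => pc_disjoint fun e =>
            hpq (Nat.eq_of_mul_eq_mul_left (Nat.two_pow_pos l) (by omega))) _
    have hm1 : k < 2 ^ (i + 1) := hk'.trans (by rw [pow_succ]; omega)
    have hm2 : k + 2 ^ i < 2 ^ (i + 1) := by rw [pow_succ]; omega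
    have hne : k ≠ k + 2 ^ i := by have := Nat.two_pow_pos i; omega
    rw [mul_add, mul_smul_comm, mul_smul_comm]
    have t1 : ∀ p q, G * (c.Ts a g (l + (i + 1)) p (u ^ 3) * c.Ts a h (l + (i + 1)) q (u ^ 3)) ∈ c.M0 :=
      fun p q => mul_mem hGM (mul_mem (c.Ts_mem _ _ _ _ _) (c.Ts_mem _ _ _ _ _))
    rw [← Complex.coe_smul, ← Complex.coe_smul,
      c.P.ev_add (SMulMemClass.smul_mem _ (t1 _ _)) (SMulMemClass.smul_mem _ (t1 _ _)),
      c.P.ev_smul _ (t1 _ _), c.P.ev_smul _ (t1 _ _), one k _ hm2 hne, one _ k hm1 hne.symm,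
      mul_zero, add_zero]
  have hbound : c.R.sq (d - O) ≤ e ^ 3 := by
    refine c.sq_le _ ((c.eventually_ge (l + j)).mono fun N hN => ?_)
    have hlN : l ≤ N := by omega
    set B' := (c.B a N).sub (emb N l b hlN hb) with hB'
    have hnear := B'.near (Q := c.Q N) c.hL (dl_pos N) (dl_le_one N) (dl_bound (Nat.sub_le N l)) g h
      (show j ≤ N - l by omega) hu hu1 hv
    have epS : ∀ (g' : ι) (i k : ℕ), (c.B a N).pS g' (l + i) (b + 2 ^ l * k) = B'.pS g' i k :=
      fun g' i k => by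
        rw [Blk.pS, ← pc_map hlN hb, cl_map]; rfl
    have epS0 : ∀ g' : ι, (c.B a N).pS g' l b = cl univ (B'.ξ g') := fun g' => by
      rw [Blk.pS, pc_eq_map hlN hb, cl_map]; rfl
    have eK : c.Kp a g h l b N = kn univ (B'.ξ g) (B'.ξ h) := by
      show kn (pc N l b) _ _ = _
      rw [pc_eq_map hlN hb, kn_map]; rfl
    have eO : O N = ∑ i ∈ range j, B'.TX (u ^ 3) g h i := by
      rw [hO, ← evH_apply N, map_sum]
      refine sum_congr rfl fun i _ => ?_
      rw [map_sum, Blk.TX]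
      refine sum_congr rfl fun k _ => ?_
      simp only [map_add, evH_apply, BoundedContinuousFunction.smul_apply,
        BoundedContinuousFunction.mul_apply, c.Ts_apply, epS]
    rw [hd, BoundedContinuousFunction.sub_apply, BoundedContinuousFunction.sub_apply,
      BoundedContinuousFunction.mul_apply, c.Ts_apply, c.Ts_apply, epS0, epS0, eK, eO]
    refine hnear.trans (pow_le_pow_left₀ (by positivity) ?_ 3)
    have hv4 : v ^ 4 * M ≤ e / 3 := by
      have h1 : v ^ 4 ≤ v := pow_le_of_le_one hv.le hv1 (by norm_num)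
      have h2 : v * (3 * M) ≤ e := (le_div_iff₀ (by positivity)).1 (hvv.trans (min_le_right _ _))
      nlinarith
    rw [hM] at hv4
    linarith
  have hsplit : c.ev (G * d) = c.ev (G * (d - O)) := by
    simp only [ev] at hz ⊢
    rw [mul_sub G d O, c.P.ev_sub (mul_mem hGM hdM) (mul_mem hGM hOM), hz, sub_zero]
  rw [hsplit, mul_comm η]
  exact (c.P.cs' hGM (sub_mem hdM hOM)).trans (mul_le_mul_of_nonneg_left
    ((Real.sqrt_le_sqrt hbound).trans he3) (norm_nonneg _))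

end Ctx

end Vale.Agent.P095.General.Fair
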