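import Vale.Agent.P095.General.Ingredient

/-!
Almost symmetries with flips from a single order zero matrix family of large even size, uniformly in
the quasitracial states of the algebra containing it.
-/

noncomputable section

open Filter Topology

namespace Vale.Agent.P095.General.Fair

open Vale.Agent.P101
open Vale.Agent.P101.CombineN (IsOrderZero supp)

universe u

/-- A letter from an order zero family of even size. -/
theorem exists_letter {D : Type u} [CStarAlgebra D] {n : ℕ} {i₀ : Fin n} {E : Fin n → Fin n → D}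
    {v : D} (heven : Even n) (hE : IsOrderZero E) (hs : ∀ i j, star (E i j) = E j i)
    (hpos : ∀ i, ∃ r, star r * r = E i i) (hv : star v * v = 1 - supp E) (hfix : E i₀ i₀ * v = v)
    {ε : ℝ} (hε : 0 < ε) (hn : 64 ≤ ε * n) :
    ∃ z y : D, IsSelfAdjoint z ∧ ‖z‖ ≤ 1 ∧ star y * y = 1 ∧ y * star y = 1 ∧
      ∀ Q : QT D, Q.sq (z * z - 1) ≤ ε ∧ Q.sq (y * z * star y + z) ≤ ε := by
  let := CStarAlgebra.spectralOrder D
  have := CStarAlgebra.spectralOrderedRing D
  set H := supp E with hH
  have hHc : ∀ i j, Commute H (E i j) := fun i j => commute_H hE i j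
  have hH0 : 0 ≤ H := Finset.sum_nonneg fun i _ => by
    obtain ⟨r, hr⟩ := hpos i
    exact hr ▸ star_mul_self_nonneg r
  have hHsa : IsSelfAdjoint H := IsSelfAdjoint.of_nonneg hH0
  have hH1 : H ≤ 1 := by rw [← sub_nonneg, ← hv]; exact star_mul_self_nonneg v
  have hspec : ∀ t ∈ spectrum ℝ H, 0 ≤ t ∧ t ≤ 1 := fun t ht => by
    refine ⟨spectrum_nonneg_of_nonneg hH0 ht, ?_⟩
    have := (le_algebraMap_iff_spectrum_le (a := H) (r := (1 : ℝ))).1 (by simpa using hH1) t ht
    exact this
  set R := cfc rec34 H with hR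
  set cc := cfc (fun t : ℝ => Real.sqrt (1 - (t * rec34 t) ^ 2)) H with hcc
  set ρ := cfc bump H with hρ
  have hRsa : IsSelfAdjoint R := cfc_predicate _ H
  have hcsa : IsSelfAdjoint cc := cfc_predicate _ H
  set Dd : D := ∑ i, sign i • E i i with hD
  set W : D := ∑ i, (1 : ℝ) • E i (partner i) with hW
  have comH : ∀ (f : ℝ → ℝ) (a : Fin n → ℝ) (p : Fin n → Fin n),
      Commute (cfc f H) (∑ i, a i • E i (p i)) := fun f a p =>
    Commute.sum_right _ _ _ fun i _ => ((hHc i (p i)).cfc_real f).smul_right _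
  have hfun : ∀ f g : ℝ → ℝ, Commute (cfc f H) (cfc g H) := fun f g => cfc_commute_cfc f g H
  have hRD : Commute R Dd := comH rec34 sign id
  have hRW : Commute R W := comH rec34 (fun _ => 1) partner
  have hcD : Commute cc Dd := comH _ sign id
  have hcW : Commute cc W := comH _ (fun _ => 1) partner
  have hcR : Commute cc R := hfun _ _
  have hDsa : IsSelfAdjoint Dd := by
    rw [IsSelfAdjoint, hD, star_sum]
    exact Finset.sum_congr rfl fun i _ => by rw [star_smul, hs, star_trivial]
  have hWsa : IsSelfAdjoint W := by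
    rw [IsSelfAdjoint, hW, star_sum]
    refine Finset.sum_nbij' partner partner (by simp) (by simp)
      (fun i _ => partner_partner heven i) (fun i _ => partner_partner heven i) fun i _ => ?_
    rw [star_smul, hs, star_trivial, partner_partner heven]
  have hDD : Dd * Dd = H * H := by
    rw [hD]
    refine (sum_perm_mul hE id id sign sign).trans ?_
    simp only [id, sign_sq, one_smul, hH, supp]
  have hWW : W * W = H * H := by
    rw [hW, sum_perm_mul hE partner partner _ _]
    simp only [mul_one, one_smul, partner_partner heven, hH, supp]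
  have hWD : W * Dd = -(Dd * W) := by
    rw [hD, hW]
    refine (sum_perm_mul hE partner id (fun _ => (1 : ℝ)) sign).trans
      (Eq.trans ?_ (congrArg Neg.neg (sum_perm_mul hE id partner sign fun _ => (1 : ℝ))).symm)
    rw [← mul_neg, ← Finset.sum_neg_distrib]
    refine congrArg (H * ·) (Finset.sum_congr rfl fun i _ => ?_)
    simp only [id, one_mul, mul_one, sign_partner heven, neg_smul]
  set z := Dd * R with hz
  set w := W * R with hw
  have hzsa : IsSelfAdjoint z := (IsSelfAdjoint.commute_iff hDsa hRsa).1 hRD.symm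
  have hwsa : IsSelfAdjoint w := (IsSelfAdjoint.commute_iff hWsa hRsa).1 hRW.symm
  have hc₁ : Continuous fun t : ℝ => Real.sqrt (1 - (t * rec34 t) ^ 2) := by
    have := continuous_rec34
    fun_prop
  have hsqR : H * H * (R * R) + cc * cc = 1 := by
    have c0 : Continuous fun t : ℝ => t := continuous_id
    have c1 := continuous_rec34
    have e : H * H * (R * R) = cfc (fun t : ℝ => t * t * (rec34 t * rec34 t)) H := by
      rw [cfc_mul (fun t : ℝ => t * t) (fun t => rec34 t * rec34 t) H (c0.mul c0).continuousOn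
        (c1.mul c1).continuousOn, cfc_mul (fun t : ℝ => t) (fun t => t) H,
        cfc_mul rec34 rec34 H c1.continuousOn c1.continuousOn, cfc_id' ℝ H]
    rw [e, hcc, ← cfc_mul _ _ H hc₁.continuousOn hc₁.continuousOn,
      ← cfc_add (a := H) (fun t : ℝ => t * t * (rec34 t * rec34 t))
        (fun t : ℝ => Real.sqrt (1 - (t * rec34 t) ^ 2) * Real.sqrt (1 - (t * rec34 t) ^ 2))
        ((c0.mul c0).mul (c1.mul c1)).continuousOn (hc₁.mul hc₁).continuousOn,
      ← cfc_const_one ℝ H]
    refine cfc_congr fun t ht => ?_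
    have h := clamp_le_one (hspec t ht).1
    rw [Real.mul_self_sqrt (by nlinarith [h.1, h.2])]
    ring
  have hzz : z * z = 1 - cc * cc := by
    rw [eq_sub_iff_add_eq, hz, hRD.mul_mul_mul_comm, hDD, hsqR]
  have hww : w * w = 1 - cc * cc := by
    rw [eq_sub_iff_add_eq, hw, hRW.mul_mul_mul_comm, hWW, hsqR]
  have hcw : Commute cc w := hcW.mul_right hcR
  have hcz : Commute cc z := hcD.mul_right hcR
  have hwz : w * z = -(z * w) := by
    rw [hw, hz, hRD.mul_mul_mul_comm, hWD, hRW.mul_mul_mul_comm, neg_mul]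
  have hc1 : ‖cc‖ ≤ 1 := norm_cfc_le zero_le_one fun t ht => by
    rw [Real.norm_eq_abs, abs_of_nonneg (Real.sqrt_nonneg _)]
    exact Real.sqrt_le_one.2 (by nlinarith [sq_nonneg (t * rec34 t)])
  have norm1 : ∀ x : D, IsSelfAdjoint x → x * x = 1 - cc * cc → ‖x‖ ≤ 1 := fun x hx hxx => by
    have h0 : 0 ≤ x * x := hx.mul_self_nonneg
    have h1 : x * x ≤ 1 := by
      rw [hxx]; exact sub_le_self _ hcsa.mul_self_nonneg
    have := (CStarAlgebra.norm_le_one_iff_of_nonneg _ h0).2 h1
    rw [hx.norm_mul_self] at this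
    nlinarith [norm_nonneg x]
  set y := w + Complex.I • cc with hy
  have hys : star y = w - Complex.I • cc := by
    rw [hy, star_add, star_smul, hwsa.star_eq, hcsa.star_eq, Complex.star_def, Complex.conj_I,
      neg_smul, ← sub_eq_add_neg]
  have hyy : star y * y = 1 ∧ y * star y = 1 := by
    constructor <;>
    · rw [hys, hy]
      simp only [add_mul, sub_mul, mul_add, mul_sub, smul_mul_assoc, mul_smul_comm, smul_add,
        smul_sub, smul_smul, Complex.I_mul_I, neg_smul, one_smul, hww, hcw.eq]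
      abel
  refine ⟨z, y, hzsa, norm1 z hzsa hzz, hyy.1, hyy.2, fun Q => ?_⟩
  have hsmall : Q.sq cc ≤ ε / 16 := by
    have hvn : ‖v‖ ≤ 1 := by
      have : ‖star v * v‖ ≤ 1 := (CStarAlgebra.norm_le_one_iff_of_nonneg _
        (star_mul_self_nonneg v)).2 (by rw [hv]; exact sub_le_self _ hH0)
      rw [CStarRing.norm_star_mul_self] at this
      nlinarith [norm_nonneg v]
    set y₀ := cfc (fun t : ℝ => Real.sqrt (2 * (1 - t) - (1 - (t * rec34 t) ^ 2))) H with hy₀
    have hy₀sa : IsSelfAdjoint y₀ := cfc_predicate _ H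
    have hcont : Continuous fun t : ℝ => Real.sqrt (2 * (1 - t) - (1 - (t * rec34 t) ^ 2)) := by
      have := continuous_rec34; fun_prop
    have hcont' : Continuous fun t : ℝ => Real.sqrt (1 - (t * rec34 t) ^ 2) := by
      have := continuous_rec34; fun_prop
    have hsum : star cc * cc + star y₀ * y₀ = (2 : ℝ) • (star v * v) := by
      have e : (2 : ℝ) • (star v * v) = cfc (fun t : ℝ => (2 : ℝ) * (1 - t)) H := by
        rw [cfc_const_mul (2 : ℝ) (fun t : ℝ => 1 - t) H,
          cfc_sub (fun _ : ℝ => (1 : ℝ)) (fun t => t) H, cfc_const_one ℝ H, cfc_id' ℝ H, hv]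
      rw [hcsa.star_eq, hy₀sa.star_eq, hcc, hy₀, e,
        ← cfc_mul _ _ H hcont'.continuousOn hcont'.continuousOn,
        ← cfc_mul _ _ H hcont.continuousOn hcont.continuousOn,
        ← cfc_add (a := H)
          (fun t : ℝ => Real.sqrt (1 - (t * rec34 t) ^ 2) * Real.sqrt (1 - (t * rec34 t) ^ 2))
          (fun t : ℝ => Real.sqrt (2 * (1 - t) - (1 - (t * rec34 t) ^ 2)) *
            Real.sqrt (2 * (1 - t) - (1 - (t * rec34 t) ^ 2)))
          (hcont'.mul hcont').continuousOn (hcont.mul hcont).continuousOn]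
      refine cfc_congr fun t ht => ?_
      obtain ⟨h0, h1⟩ := hspec t ht
      have g1 := clamp_le_one h0
      have g2 := self_le_clamp h0 h1
      rw [Real.mul_self_sqrt (by nlinarith), Real.mul_self_sqrt (by nlinarith)]
      ring
    have h1 : Q.sq cc ≤ 2 * Q.sq v := by
      have h := Q.mono cc y₀
      rw [hsum, Q.smul _ _ zero_le_two] at h
      exact h
    have h2 : Q.sq v ≤ Q.sq (E i₀ i₀) := by
      have h := Q.sq_mul_left_le (a := star v) ((norm_star v).le.trans hvn) (E i₀ i₀)
      rw [show star v * E i₀ i₀ = star v by rw [← hs i₀ i₀, ← star_mul, hfix], Q.sq_adj,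
        one_pow, one_mul] at h
      exact h
    have h3 : (n : ℝ) * Q.sq (E i₀ i₀) ≤ 1 := by
      rw [← sq_supp hE hs Q i₀]
      simpa using Q.sq_le ((CStarAlgebra.norm_le_one_iff_of_nonneg H hH0).2 hH1)
    have hne : (64 : ℝ) ≤ ε * n := hn
    nlinarith [Q.sq_nn (E i₀ i₀), Q.sq_nn v, mul_le_mul_of_nonneg_left h3 hε.le]
  constructor
  · have e : z * z - 1 = (-cc) * cc := by rw [hzz]; noncomm_ring
    rw [e]
    have := Q.sq_mul_left_le (a := -cc) ((norm_neg cc).le.trans hc1) cc
    nlinarith [Q.sq_nn cc]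
  · set a := (2 : ℂ) • (z * cc) + (2 * Complex.I) • (z * w) with ha
    have e : y * z * star y + z = a * cc := by
      rw [hys, hy, ha]
      simp only [add_mul, mul_add, sub_mul, mul_sub, smul_mul_assoc, mul_smul_comm, smul_add,
        smul_sub, smul_smul, Complex.I_mul_I]
      have e1 : w * z * w = -(z * (1 - cc * cc)) := by rw [hwz, neg_mul, mul_assoc, hww]
      have e2 : w * z * cc = -(z * w * cc) := by rw [hwz, neg_mul]
      have e3 : cc * z * w = z * w * cc := by
        rw [hcz.eq, mul_assoc z, hcw.eq, ← mul_assoc]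
      have e4 : cc * z * cc = z * cc * cc := by rw [hcz.eq]
      rw [e1, e2, e3, e4, mul_sub, mul_one, ← mul_assoc]
      module
    have ha4 : ‖a‖ ≤ 4 := by
      have hzc : ‖z * cc‖ ≤ 1 :=
        (norm_mul_le _ _).trans (mul_le_one₀ (norm1 z hzsa hzz) (norm_nonneg _) hc1)
      have hzw : ‖z * w‖ ≤ 1 :=
        (norm_mul_le _ _).trans (mul_le_one₀ (norm1 z hzsa hzz) (norm_nonneg _) (norm1 w hwsa hww))
      refine (norm_add_le _ _).trans ?_
      rw [norm_smul, norm_smul, norm_mul (2 : ℂ), Complex.norm_I, Complex.norm_two]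
      linarith
    rw [e]
    have := Q.sq_mul_left_le ha4 cc
    linarith

end Vale.Agent.P095.General.Fair
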