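import Vale.Agent.P095.General.Fair.Single

/-!
Dyadic pieces of the blocks and the geometric decay of the off diagonal levels.
-/

noncomputable section

open Finset

namespace Vale.Agent.P095.General.Fair

universe u v

/-- The piece with index b at level l. -/
def pc (N l b : ℕ) : Finset (Fin (2 ^ N)) := univ.filter fun r => (r : ℕ) % 2 ^ l = b

lemma mem_pc {N l b : ℕ} {r : Fin (2 ^ N)} : r ∈ pc N l b ↔ (r : ℕ) % 2 ^ l = b := by simp [pc]

lemma pc_zero (N : ℕ) : pc N 0 0 = univ := by ext r; simp [mem_pc, Nat.mod_one]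

lemma pc_disjoint {N l b b' : ℕ} (h : b ≠ b') : Disjoint (pc N l b) (pc N l b') :=
  disjoint_left.2 fun r hr hr' => h ((mem_pc.1 hr).symm.trans (mem_pc.1 hr'))

lemma pc_succ_disjoint (N l b : ℕ) : Disjoint (pc N (l + 1) b) (pc N (l + 1) (b + 2 ^ l)) :=
  pc_disjoint (by have := Nat.two_pow_pos l; omega)

lemma pc_succ (N : ℕ) {l b : ℕ} (hb : b < 2 ^ l) :
    pc N l b = pc N (l + 1) b ∪ pc N (l + 1) (b + 2 ^ l) := by
  ext r
  simp only [mem_union, mem_pc, Nat.mod_pow_succ]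
  have h1 := Nat.mod_lt (r : ℕ) (Nat.two_pow_pos l)
  rcases Nat.mod_two_eq_zero_or_one ((r : ℕ) / 2 ^ l) with h | h <;> rw [h] <;> omega

/-- The blocks of a piece. -/
def emb (N l b : ℕ) (hl : l ≤ N) (hb : b < 2 ^ l) : Fin (2 ^ (N - l)) ↪ Fin (2 ^ N) where
  toFun t := ⟨b + 2 ^ l * t, by
    have h : (t : ℕ) + 1 ≤ 2 ^ (N - l) := t.2
    have h2 := Nat.mul_le_mul_left (2 ^ l) h
    rw [← pow_add, Nat.add_sub_cancel' hl, mul_add, mul_one] at h2
    omega⟩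
  inj' s t h := by
    have h' := congrArg Fin.val h
    simp only at h'
    exact Fin.ext (Nat.eq_of_mul_eq_mul_left (Nat.two_pow_pos l) (by omega))

lemma pc_eq_map {N l b : ℕ} (hl : l ≤ N) (hb : b < 2 ^ l) :
    pc N l b = univ.map (emb N l b hl hb) := by
  ext r
  simp only [mem_pc, mem_map, mem_univ, true_and]
  constructor
  · intro h
    have h2 : (r : ℕ) / 2 ^ l < 2 ^ (N - l) := by
      rw [Nat.div_lt_iff_lt_mul (Nat.two_pow_pos l), ← pow_add, Nat.sub_add_cancel hl]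
      exact r.2
    exact ⟨⟨_, h2⟩, Fin.ext (by
      have := Nat.mod_add_div (r : ℕ) (2 ^ l)
      show b + 2 ^ l * ((r : ℕ) / 2 ^ l) = (r : ℕ)
      omega)⟩
  · rintro ⟨t, rfl⟩
    show (b + 2 ^ l * (t : ℕ)) % 2 ^ l = b
    rw [Nat.add_mul_mod_self_left, Nat.mod_eq_of_lt hb]

lemma card_pc {N l b : ℕ} (hl : l ≤ N) (hb : b < 2 ^ l) : (pc N l b).card = 2 ^ (N - l) := by
  rw [pc_eq_map hl hb, card_map, card_univ, Fintype.card_fin]

lemma pc_map {N l b i c : ℕ} (hl : l ≤ N) (hb : b < 2 ^ l) :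
    (pc (N - l) i c).map (emb N l b hl hb) = pc N (l + i) (b + 2 ^ l * c) := by
  ext r
  have h0 := Nat.mod_lt (r : ℕ) (Nat.two_pow_pos l)
  have hm : (r : ℕ) % 2 ^ (l + i) = (r : ℕ) % 2 ^ l + 2 ^ l * ((r : ℕ) / 2 ^ l % 2 ^ i) := by
    rw [pow_add, Nat.mod_mul]
  simp only [mem_map, mem_pc]
  constructor
  · rintro ⟨t, ht, rfl⟩
    have e1 : ((emb N l b hl hb t : Fin (2 ^ N)) : ℕ) = b + 2 ^ l * (t : ℕ) := rfl
    rw [pow_add, Nat.mod_mul, e1, Nat.add_mul_mod_self_left, Nat.mod_eq_of_lt hb,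
      Nat.add_mul_div_left _ _ (Nat.two_pow_pos l), Nat.div_eq_of_lt hb, zero_add, ht]
  · intro h
    rw [hm] at h
    have hb' : (r : ℕ) % 2 ^ l = b := by
      have := congrArg (· % 2 ^ l) h
      simpa [Nat.add_mul_mod_self_left, Nat.mod_eq_of_lt hb] using this
    rw [hb'] at h
    have hc : (r : ℕ) / 2 ^ l % 2 ^ i = c :=
      Nat.eq_of_mul_eq_mul_left (Nat.two_pow_pos l) (by omega)
    have hr : r ∈ univ.map (emb N l b hl hb) := by rw [← pc_eq_map hl hb]; exact mem_pc.2 hb'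
    obtain ⟨t, -, rfl⟩ := mem_map.1 hr
    refine ⟨t, ?_, rfl⟩
    have e1 : ((emb N l b hl hb t : Fin (2 ^ N)) : ℕ) = b + 2 ^ l * (t : ℕ) := rfl
    rwa [e1, Nat.add_mul_div_left _ _ (Nat.two_pow_pos l), Nat.div_eq_of_lt hb, zero_add] at hc

variable {D : Type u} [CStarAlgebra D] {ι : Type v} {δ : ℝ}

/-- The blocks along an embedding. -/
def Blk.sub {κ κ' : Type} (B : Blk D ι κ δ) (e : κ' ↪ κ) : Blk D ι κ' δ where
  ξ g t := B.ξ g (e t)
  Y g t := B.Y g (e t)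
  sa g t := B.sa g _
  norm g t := B.norm g _
  comm g h r s hrs := B.comm g h _ _ fun he => hrs (e.injective he)
  unit g t := B.unit g _
  sq_one g t := B.sq_one g _
  flip g t := B.flip g _

lemma cl_map {κ κ' : Type} (e : κ' ↪ κ) (A : Finset κ') (x : κ → D) :
    cl (A.map e) x = cl A fun t => x (e t) := by
  rw [cl, cl, card_map, sum_map]

lemma kn_map {κ κ' : Type} (e : κ' ↪ κ) (A : Finset κ') (x y : κ → D) :
    kn (A.map e) x y = kn A (fun t => x (e t)) fun t => y (e t) := by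
  rw [kn, kn, card_map, sum_map]

namespace Blk

variable {n : ℕ} (B : Blk D ι (Fin (2 ^ n)) δ)

/-- The sum over a piece. -/
def Su (g : ι) (l c : ℕ) : D := ∑ r ∈ pc n l c, B.ξ g r

/-- The products within the pieces of one level, normalised. -/
def U (g h : ι) (l : ℕ) : D := ((2 : ℝ) ^ n)⁻¹ • ∑ c ∈ range (2 ^ l), B.Su g l c * B.Su h l c

/-- One half of the products between halves of the pieces of one level, normalised. -/
def X (g h : ι) (l : ℕ) : D :=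
  ((2 : ℝ) ^ n)⁻¹ • ∑ c ∈ range (2 ^ l), B.Su g (l + 1) c * B.Su h (l + 1) (c + 2 ^ l)

/-- The other half. -/
def X' (g h : ι) (l : ℕ) : D :=
  ((2 : ℝ) ^ n)⁻¹ • ∑ c ∈ range (2 ^ l), B.Su g (l + 1) (c + 2 ^ l) * B.Su h (l + 1) c

lemma U_succ (g h : ι) (l : ℕ) : B.U g h l = B.U g h (l + 1) + B.X g h l + B.X' g h l := by
  simp only [U, X, X', ← smul_add, pow_succ, mul_two, sum_range_add, ← sum_add_distrib]
  congr 1
  refine sum_congr rfl fun c hc => ?_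
  rw [Su, Su, pc_succ n (mem_range.1 hc), sum_union (pc_succ_disjoint n l c),
    sum_union (pc_succ_disjoint n l c), add_comm (2 ^ l) c, mul_add, add_mul, add_mul]
  simp only [Su]
  abel

lemma U_eq (g h : ι) (j : ℕ) : ∀ d, B.U g h j =
    B.U g h (j + d) + ∑ l ∈ range d, (B.X g h (j + l) + B.X' g h (j + l)) := by
  intro d
  induction d with
  | zero => simp
  | succ d ih =>
    rw [ih, B.U_succ g h (j + d), sum_range_succ, ← add_assoc j d 1]
    abel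

lemma U_zero (g h : ι) :
    B.U g h 0 = cl univ (B.ξ g) * cl univ (B.ξ h) := by
  rw [U, cl, cl, smul_mul_smul_comm, rt_mul_self, card_univ, Fintype.card_fin, Nat.cast_pow,
    Nat.cast_ofNat]
  simp [Su, pc_zero]

lemma U_last (g h : ι) : B.U g h n = kn univ (B.ξ g) (B.ξ h) := by
  rw [U, kn, card_univ, Fintype.card_fin, Nat.cast_pow, Nat.cast_ofNat]
  congr 1
  rw [← Fin.sum_univ_eq_sum_range (fun c => B.Su g n c * B.Su h n c) (2 ^ n)]
  refine sum_congr rfl fun c _ => ?_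
  have hc : pc n n (c : ℕ) = {c} := by
    ext r
    rw [mem_pc, mem_singleton, Nat.mod_eq_of_lt r.2, Fin.val_inj]
  rw [Su, Su, hc, sum_singleton, sum_singleton]

variable [PartialOrder D] [StarOrderedRing D] {Q : QT D}

lemma sq_level (hL : LinearStatement.{u}) (hδ : 0 < δ) (hδ1 : δ ≤ 1)
    (hR : 16 * δ * ((2 : ℝ) ^ n) ^ 8 ≤ ((2 : ℝ) ^ n)⁻¹) (g h : ι) {l : ℕ} (hl : l < n) :
    Q.sq (B.X g h l) ≤ (((4 : ℝ) / 5) ^ l) ^ 3 ∧ Q.sq (B.X' g h l) ≤ (((4 : ℝ) / 5) ^ l) ^ 3 := by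
  classical
  set R : ℝ := (2 : ℝ) ^ n with hRdef
  have hR1 : 1 ≤ R := one_le_pow₀ (by norm_num)
  set Lo : Finset (Fin (2 ^ n)) := univ.filter fun r => (r : ℕ) % 2 ^ (l + 1) < 2 ^ l with hLo
  set Hi : Finset (Fin (2 ^ n)) := univ.filter fun r => ¬ (r : ℕ) % 2 ^ (l + 1) < 2 ^ l with hHi
  have key : ∀ (A A' : Finset (Fin (2 ^ n))) (u w : ℕ → ℕ), Disjoint A A' →
      (∀ c < 2 ^ l, u c < 2 ^ (l + 1) ∧ pc n (l + 1) (u c) ⊆ A) →
      (∀ c < 2 ^ l, w c < 2 ^ (l + 1) ∧ pc n (l + 1) (w c) ⊆ A') →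
      (∀ c < 2 ^ l, ∀ c' < 2 ^ l, u c = u c' → c = c') →
      Q.sq (R⁻¹ • ∑ c ∈ range (2 ^ l), B.Su g (l + 1) (u c) * B.Su h (l + 1) (w c)) ≤
        (((4 : ℝ) / 5) ^ l) ^ 3 := by
    intro A A' u w hAA' hu hw hinj
    set P := (range (2 ^ l)).biUnion fun c => pc n (l + 1) (u c) ×ˢ pc n (l + 1) (w c) with hP
    have hdis : Set.PairwiseDisjoint (range (2 ^ l) : Set ℕ)
        fun c => pc n (l + 1) (u c) ×ˢ pc n (l + 1) (w c) := fun c hc c' hc' hne =>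
      disjoint_left.2 fun p hp hp' => hne (hinj c (mem_range.1 hc) c' (mem_range.1 hc')
        ((mem_pc.1 (mem_product.1 hp).1).symm.trans (mem_pc.1 (mem_product.1 hp').1)))
    have hsub : P ⊆ A ×ˢ A' := biUnion_subset.2 fun c hc =>
      product_subset_product (hu c (mem_range.1 hc)).2 (hw c (mem_range.1 hc)).2
    have hcard : (P.card : ℝ) = R ^ 2 / (4 * (2 : ℝ) ^ l) := by
      rw [hP, card_biUnion hdis, sum_congr rfl fun c hc => by
        rw [card_product, card_pc hl (hu c (mem_range.1 hc)).1, card_pc hl (hw c (mem_range.1 hc)).1],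
        sum_const, card_range, smul_eq_mul]
      push_cast
      have e : (2 : ℝ) ^ (n - (l + 1)) * (2 * (2 : ℝ) ^ l) = R := by
        rw [← pow_succ' (2 : ℝ) l, ← pow_add, hRdef, Nat.sub_add_cancel hl]
      rw [← e]
      field_simp
      ring
    have hsum : ∑ c ∈ range (2 ^ l), B.Su g (l + 1) (u c) * B.Su h (l + 1) (w c) =
        ∑ p ∈ P, B.ξ g p.1 * B.ξ h p.2 := by
      rw [hP, sum_biUnion hdis]
      refine sum_congr rfl fun c _ => ?_
      rw [Su, Su, sum_mul_sum, sum_product]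
    rw [hsum, sq_smul_real]
    refine (mul_le_mul_of_nonneg_left (B.sq_cross hL hδ hδ1 hAA' hsub) (sq_nonneg _)).trans ?_
    rw [hcard]
    have hpl : (0 : ℝ) < 2 ^ l := by positivity
    have hpl1 : (1 : ℝ) ≤ 2 ^ l := one_le_pow₀ (by norm_num)
    have h3 : 1 / (2 : ℝ) ^ l ≤ (((4 : ℝ) / 5) ^ l) ^ 3 := by
      rw [← one_div_pow, ← pow_mul, mul_comm, pow_mul]
      exact pow_le_pow_left₀ (by norm_num) (by norm_num) l
    have h4 : R⁻¹ ≤ 1 / (2 * (2 : ℝ) ^ l) := by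
      rw [← one_div, ← pow_succ', hRdef]
      exact one_div_le_one_div_of_le (by positivity) (pow_le_pow_right₀ (by norm_num) hl)
    have h5 : R⁻¹ ^ 2 * ((R ^ 2 / (4 * 2 ^ l)) ^ 2 * (16 * δ)) ≤ R⁻¹ := by
      refine le_trans ?_ hR
      have e : R⁻¹ ^ 2 * ((R ^ 2 / (4 * 2 ^ l)) ^ 2 * (16 * δ)) =
          16 * δ * R ^ 2 * (1 / (4 * 2 ^ l) ^ 2) := by field_simp
      rw [e]
      have h6 : R ^ 2 ≤ R ^ 8 := pow_le_pow_right₀ hR1 (by norm_num)
      have h7 : 1 / (4 * (2 : ℝ) ^ l) ^ 2 ≤ 1 := by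
        rw [div_le_one (by positivity)]; nlinarith
      calc 16 * δ * R ^ 2 * (1 / (4 * 2 ^ l) ^ 2) ≤ 16 * δ * R ^ 2 * 1 :=
            mul_le_mul_of_nonneg_left h7 (by positivity)
        _ ≤ 16 * δ * R ^ 8 := by rw [mul_one]; exact mul_le_mul_of_nonneg_left h6 (by positivity)
    have e2 : R⁻¹ ^ 2 * (R ^ 2 / (4 * 2 ^ l)) = 1 / (4 * 2 ^ l) := by field_simp
    have h8 : 1 / (4 * (2 : ℝ) ^ l) + 1 / (2 * 2 ^ l) ≤ 1 / 2 ^ l := by
      field_simp; norm_num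
    rw [mul_add, e2]
    linarith
  have hlo : ∀ c < 2 ^ l, c < 2 ^ (l + 1) ∧ pc n (l + 1) c ⊆ Lo := fun c hc =>
    ⟨hc.trans (by rw [pow_succ]; have := Nat.two_pow_pos l; omega),
      fun r hr => mem_filter.2 ⟨mem_univ _, by rw [mem_pc.1 hr]; exact hc⟩⟩
  have hhi : ∀ c < 2 ^ l, c + 2 ^ l < 2 ^ (l + 1) ∧ pc n (l + 1) (c + 2 ^ l) ⊆ Hi := fun c hc =>
    ⟨by rw [pow_succ]; omega,
      fun r hr => mem_filter.2 ⟨mem_univ _, by rw [mem_pc.1 hr]; omega⟩⟩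
  have hdj : Disjoint Lo Hi := disjoint_filter_filter_not _ _ _
  exact ⟨key Lo Hi id (fun c => c + 2 ^ l) hdj hlo hhi fun _ _ _ _ h => h,
    key Hi Lo (fun c => c + 2 ^ l) id hdj.symm hhi hlo fun c _ c' _ h => by simpa using h⟩

/-- The levels beyond j are uniformly small. -/
theorem sq_tail (hL : LinearStatement.{u}) (hδ : 0 < δ) (hδ1 : δ ≤ 1)
    (hR : 16 * δ * ((2 : ℝ) ^ n) ^ 8 ≤ ((2 : ℝ) ^ n)⁻¹) (g h : ι) {j : ℕ} (hj : j ≤ n) :
    Q.sq (cl univ (B.ξ g) * cl univ (B.ξ h) - kn univ (B.ξ g) (B.ξ h) -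
      ∑ l ∈ range j, (B.X g h l + B.X' g h l)) ≤ (10 * ((4 : ℝ) / 5) ^ j) ^ 3 := by
  have e : cl univ (B.ξ g) * cl univ (B.ξ h) - kn univ (B.ξ g) (B.ξ h) -
      ∑ l ∈ range j, (B.X g h l + B.X' g h l) =
      ∑ l ∈ range (n - j), (B.X g h (j + l) + B.X' g h (j + l)) := by
    rw [← B.U_zero, ← B.U_last]
    have h1 := B.U_eq g h 0 j
    have h2 := B.U_eq g h j (n - j)
    simp only [zero_add] at h1
    rw [Nat.add_sub_cancel' hj] at h2
    rw [h1, h2]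
    abel
  rw [e]
  refine (sq_sum_le Q _ _ (fun l => 2 * ((4 : ℝ) / 5) ^ (j + l)) (fun _ _ => by positivity)
    fun l hl => ?_).trans (pow_le_pow_left₀ (sum_nonneg fun _ _ => by positivity) ?_ 3)
  · have hln : j + l < n := by rw [mem_range] at hl; omega
    obtain ⟨h1, h2⟩ := B.sq_level (Q := Q) hL hδ hδ1 hR g h hln
    rw [two_mul]
    exact sq_add_le Q (by positivity) (by positivity) h1 h2
  · simp only [pow_add, ← mul_sum]
    rw [show (10 : ℝ) * (4 / 5) ^ j = 2 * ((4 / 5) ^ j * 5) by ring]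
    refine mul_le_mul_of_nonneg_left (mul_le_mul_of_nonneg_left ?_ (by positivity)) (by norm_num)
    rw [geom_sum_eq (by norm_num)]
    have : (0 : ℝ) < (4 / 5) ^ (n - j) := by positivity
    rw [div_le_iff_of_neg (by norm_num)]
    linarith

end Blk

lemma norm_kn {κ : Type} (A : Finset κ) (x y : κ → D) (hx : ∀ r, ‖x r‖ ≤ 1)
    (hy : ∀ r, ‖y r‖ ≤ 1) : ‖kn A x y‖ ≤ 1 := by
  rw [kn, norm_smul, Real.norm_eq_abs, abs_of_nonneg (by positivity)]
  refine (mul_le_mul_of_nonneg_left ((norm_sum_le _ _).trans ((sum_le_card_nsmul _ _ _ fun r _ =>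
    (norm_mul_le _ _).trans (mul_le_one₀ (hx r) (norm_nonneg _) (hy r))).trans_eq
      (nsmul_eq_mul _ _))) (by positivity)).trans ?_
  rw [mul_one]
  exact inv_mul_le_one

end Vale.Agent.P095.General.Fair
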