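import Vale.Agent.P095.General.Fair.Levels

/-!
Bounded versions of two collective elements multiply to the kernel, up to bounded off diagonal
terms of finitely many levels and a small two-norm.
-/

noncomputable section

open Finset

namespace Vale.Agent.P095.General.Fair

universe u v

variable {D : Type u} [CStarAlgebra D]

/-- The damping factor of a bounded version. -/
def damp (θ : ℝ) (S : D) : D := cfc (fun s : ℝ => Real.sinc (θ * s)) S

lemma one_sub_sinc_le (x : ℝ) : |1 - Real.sinc x| ≤ x ^ 2 ∧ |1 - Real.sinc x| ≤ |x| := by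
  suffices h : ∀ y : ℝ, 0 < y → |1 - Real.sinc y| ≤ y ^ 2 / 6 by
    have h1 : |1 - Real.sinc x| ≤ x ^ 2 / 6 := by
      rcases lt_trichotomy x 0 with h0 | rfl | h0
      · have := h (-x) (neg_pos.2 h0)
        rwa [Real.sinc_neg, neg_sq] at this
      · simp
      · exact h x h0
    refine ⟨h1.trans (by linarith [sq_nonneg x]), ?_⟩
    rcases le_total |x| 6 with h6 | h6
    · refine h1.trans ?_
      rw [← sq_abs x]
      nlinarith [abs_nonneg x]
    · rw [abs_le]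
      constructor <;> linarith [Real.sinc_le_one x, Real.neg_one_le_sinc x]
  intro y hy
  rw [Real.sinc_of_ne_zero hy.ne', abs_of_nonneg (by
    rw [sub_nonneg, div_le_one hy]; exact Real.sin_le hy.le), sub_le_iff_le_add, ← sub_le_iff_le_add',
    le_div_iff₀ hy]
  have := Real.sin_ge_sub_cube hy.le
  linarith

lemma norm_damp (θ : ℝ) (S : D) : ‖damp θ S‖ ≤ 1 :=
  norm_cfc_le zero_le_one fun s _ => by
    simpa [Real.norm_eq_abs] using Real.abs_sinc_le_one (θ * s)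

lemma bsin_eq_mul {θ : ℝ} (hθ : θ ≠ 0) {S : D} (hS : IsSelfAdjoint S) :
    bsin θ S = damp θ S * S ∧ bsin θ S = S * damp θ S := by
  have e : ∀ s : ℝ, Real.sin (θ * s) / θ = Real.sinc (θ * s) * s := fun s => by
    rcases eq_or_ne s 0 with rfl | hs
    · simp
    · rw [Real.sinc_of_ne_zero (mul_ne_zero hθ hs)]; field_simp
  have h1 : bsin θ S = damp θ S * S := by
    rw [bsin, damp, funext e, cfc_mul (fun s => Real.sinc (θ * s)) (fun s => s) S
      (Real.continuous_sinc.comp (by fun_prop)).continuousOn continuousOn_id, cfc_id' ℝ S]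
  refine ⟨h1, h1.trans (Commute.cfc_real (Commute.refl S) _).eq⟩

variable [PartialOrder D] [StarOrderedRing D] {Q : QT D}

/-- Comparison of functions of one element. -/
lemma sq_cfc_mul_le (f g : ℝ → ℝ) (hf : Continuous f) (hg : Continuous g)
    (h : ∀ s, |f s| ≤ |g s|) {S : D} (hS : IsSelfAdjoint S) (W : D) :
    Q.sq (cfc f S * W) ≤ Q.sq (cfc g S * W) := by
  refine q_mono_sq Q ?_
  rw [star_mul, star_mul, (cfc_predicate f S).star_eq, (cfc_predicate g S).star_eq,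
    show star W * cfc f S * (cfc f S * W) = star W * (cfc f S * cfc f S) * W by
      simp only [mul_assoc],
    show star W * cfc g S * (cfc g S * W) = star W * (cfc g S * cfc g S) * W by
      simp only [mul_assoc], ← cfc_mul f f S, ← cfc_mul g g S]
  refine star_left_conjugate_le_conjugate (cfc_mono (fun s _ => ?_) ?_ ?_) W
  · simpa [← _root_.sq, sq_abs] using pow_le_pow_left₀ (abs_nonneg _) (h s) 2
  · exact (hf.mul hf).continuousOn
  · exact (hg.mul hg).continuousOn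

lemma sq_damp_sub_one (θ : ℝ) {S : D} (hS : IsSelfAdjoint S) :
    Q.sq (damp θ S - 1) ≤ θ ^ 4 * Q.sq (S * S) := by
  have e : damp θ S - 1 = cfc (fun s : ℝ => Real.sinc (θ * s) - 1) S * 1 := by
    rw [mul_one, cfc_sub (fun s : ℝ => Real.sinc (θ * s)) (fun _ => 1) S
      (Real.continuous_sinc.comp (by fun_prop)).continuousOn continuousOn_const, cfc_const_one ℝ S]
    rfl
  rw [e]
  refine (sq_cfc_mul_le _ (fun s => θ ^ 2 * (s * s))
    ((Real.continuous_sinc.comp (by fun_prop)).sub continuous_const) (by fun_prop) (fun s => ?_) hS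
    1).trans (le_of_eq ?_)
  · simp only [Pi.sub_apply, Function.comp_apply]
    rw [abs_sub_comm]
    refine ((one_sub_sinc_le _).1).trans ((le_abs_self _).trans_eq ?_)
    congr 1; ring
  · rw [mul_one, cfc_const_mul (θ ^ 2) (fun s => s * s) S, cfc_mul (fun s => s) (fun s => s) S,
      cfc_id' ℝ S, sq_smul_real]
    ring

lemma sq_sub_bsin_mul {θ : ℝ} (hθ : θ ≠ 0) {S : D} (hS : IsSelfAdjoint S) (W : D) :
    Q.sq ((S - bsin θ S) * W) ≤ θ ^ 2 * Q.sq (S * S * W) := by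
  have e : S - bsin θ S = cfc (fun s : ℝ => (1 - Real.sinc (θ * s)) * s) S := by
    rw [(bsin_eq_mul hθ hS).1, damp]
    conv_lhs => rw [← cfc_id' ℝ S]
    rw [cfc_id' ℝ S, cfc_mul (fun s => 1 - Real.sinc (θ * s)) (fun s => s) S
      ((continuous_const.sub (Real.continuous_sinc.comp (by fun_prop))).continuousOn) continuousOn_id,
      cfc_sub (fun _ => (1 : ℝ)) (fun s => Real.sinc (θ * s)) S continuousOn_const
      (Real.continuous_sinc.comp (by fun_prop)).continuousOn, cfc_const_one ℝ S, cfc_id' ℝ S,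
      sub_mul, one_mul]
  rw [e]
  refine (sq_cfc_mul_le _ (fun s => θ * (s * s))
    (((continuous_const.sub (Real.continuous_sinc.comp (by fun_prop)))).mul continuous_id)
    (by fun_prop) (fun s => ?_) hS W).trans (le_of_eq ?_)
  · simp only [Pi.sub_apply, Pi.mul_apply, Function.comp_apply, id]
    rw [abs_mul, abs_mul θ, abs_mul s s, ← mul_assoc]
    refine mul_le_mul_of_nonneg_right ?_ (abs_nonneg s)
    exact ((one_sub_sinc_le _).2).trans_eq (abs_mul _ _)
  · rw [cfc_const_mul θ (fun s => s * s) S, cfc_mul (fun s => s) (fun s => s) S, cfc_id' ℝ S,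
      smul_mul_assoc, sq_smul_real]

namespace Blk

variable {ι : Type v} {δ : ℝ} {n : ℕ} (B : Blk D ι (Fin (2 ^ n)) δ)

/-- The normalised collective element of a piece. -/
def pS (g : ι) (l c : ℕ) : D := cl (pc n l c) (B.ξ g)

/-- The bounded surrogate of one level. -/
def TX (u : ℝ) (g h : ι) (l : ℕ) : D :=
  ∑ c ∈ range (2 ^ l), (((2 : ℝ) ^ (l + 1))⁻¹ •
    (bsin u (B.pS g (l + 1) c) * bsin u (B.pS h (l + 1) (c + 2 ^ l))) +
    ((2 : ℝ) ^ (l + 1))⁻¹ • (bsin u (B.pS g (l + 1) (c + 2 ^ l)) * bsin u (B.pS h (l + 1) c)))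

lemma pS_sa (g : ι) (l c : ℕ) : IsSelfAdjoint (B.pS g l c) :=
  (IsSelfAdjoint.all _).smul (isSelfAdjoint_sum _ fun r _ => B.sa g r)

omit [PartialOrder D] [StarOrderedRing D] in
lemma Su_eq (g : ι) (l c : ℕ) : B.Su g l c = Real.sqrt (pc n l c).card • B.pS g l c := by
  rw [pS, cl, smul_smul, Su]
  rcases Nat.eq_zero_or_pos (pc n l c).card with h | h
  · rw [card_eq_zero.1 h, sum_empty, smul_zero]
  · rw [rt, mul_inv_cancel₀ (by positivity), one_smul]

lemma X_eq (g h : ι) {l : ℕ} (hl : l < n) :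
    B.X g h l + B.X' g h l = ∑ c ∈ range (2 ^ l), (((2 : ℝ) ^ (l + 1))⁻¹ •
      (B.pS g (l + 1) c * B.pS h (l + 1) (c + 2 ^ l)) +
      ((2 : ℝ) ^ (l + 1))⁻¹ • (B.pS g (l + 1) (c + 2 ^ l) * B.pS h (l + 1) c)) := by
  rw [X, X', smul_sum, smul_sum, ← sum_add_distrib]
  refine sum_congr rfl fun c hc => ?_
  rw [mem_range] at hc
  have h1 : c < 2 ^ (l + 1) := hc.trans (by rw [pow_succ]; omega)
  have h2 : c + 2 ^ l < 2 ^ (l + 1) := by rw [pow_succ]; omega
  rw [B.Su_eq, B.Su_eq, B.Su_eq, B.Su_eq, card_pc hl h1, card_pc hl h2, smul_mul_smul_comm,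
    smul_mul_smul_comm, smul_smul, smul_smul]
  have e : ((2 : ℝ) ^ n)⁻¹ * (Real.sqrt ((2 ^ (n - (l + 1)) : ℕ) : ℝ) *
      Real.sqrt ((2 ^ (n - (l + 1)) : ℕ) : ℝ)) = ((2 : ℝ) ^ (l + 1))⁻¹ := by
    rw [Real.mul_self_sqrt (Nat.cast_nonneg _), Nat.cast_pow, Nat.cast_ofNat,
      show (2 : ℝ) ^ n = 2 ^ (n - (l + 1)) * 2 ^ (l + 1) by
        rw [← pow_add, Nat.sub_add_cancel hl]]
    field_simp
  rw [e]

lemma norm_TX {u : ℝ} (hu : 0 < u) (g h : ι) (l : ℕ) :
    ‖B.TX u g h l‖ ≤ 2 * 2 ^ l * (u⁻¹ * u⁻¹) := by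
  refine (norm_sum_le _ _).trans ((sum_le_card_nsmul _ _ (2 * (u⁻¹ * u⁻¹)) fun c _ => ?_).trans_eq
    (by rw [nsmul_eq_mul, card_range]; push_cast; ring))
  have h1 : ∀ a b : D, ‖((2 : ℝ) ^ (l + 1))⁻¹ • (bsin u a * bsin u b)‖ ≤ u⁻¹ * u⁻¹ := fun a b => by
    rw [norm_smul, Real.norm_eq_abs, abs_of_nonneg (by positivity)]
    refine (mul_le_of_le_one_left (norm_nonneg _) (inv_le_one_of_one_le₀
      (one_le_pow₀ (by norm_num)))).trans ((norm_mul_le _ _).trans
        (mul_le_mul (norm_bsin hu a) (norm_bsin hu b) (norm_nonneg _) (by positivity)))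
  refine (norm_add_le _ _).trans ?_
  linarith [h1 (B.pS g (l + 1) c) (B.pS h (l + 1) (c + 2 ^ l)),
    h1 (B.pS g (l + 1) (c + 2 ^ l)) (B.pS h (l + 1) c)]

variable (hL : LinearStatement.{u}) (hδ : 0 < δ) (hδ1 : δ ≤ 1)

include hL hδ hδ1

lemma sq_square (hR : 16 * δ * ((2 : ℝ) ^ n) ^ 8 ≤ ((2 : ℝ) ^ n)⁻¹) (g : ι) :
    Q.sq (cl univ (B.ξ g) * cl univ (B.ξ g)) ≤ 11 ^ 3 := by
  have h := B.sq_tail (Q := Q) hL hδ hδ1 hR g g (j := 0) (Nat.zero_le _)
  simp only [range_zero, sum_empty, sub_zero, pow_zero, mul_one] at h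
  have hk : Q.sq (kn univ (B.ξ g) (B.ξ g)) ≤ (1 : ℝ) ^ 3 := by
    refine (Q.sq_le_norm _).trans ?_
    rw [one_pow]
    exact pow_le_one₀ (norm_nonneg _) (norm_kn univ _ _ (B.norm g) (B.norm g))
  have := sq_add_le Q zero_le_one (by norm_num) hk h
  rw [add_sub_cancel] at this
  exact this.trans_eq (by norm_num)

lemma sq_mixed_piece (hR : 16 * δ * ((2 : ℝ) ^ n) ^ 8 ≤ ((2 : ℝ) ^ n)⁻¹) (g h : ι) {l a a' : ℕ}
    (hl : l ≤ n) (ha : a < 2 ^ l) (ha' : a' < 2 ^ l) (hne : a ≠ a') :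
    Q.sq (B.pS g l a * B.pS g l a * B.pS h l a') ≤ 11 ^ 3 + 1 := by
  have hcard := card_pc (N := n) hl ha
  have hcard' := card_pc (N := n) hl ha'
  set m : ℝ := (2 : ℝ) ^ (n - l) with hm
  have hm1 : 1 ≤ m := one_le_pow₀ (by norm_num)
  have hmn : m ≤ (2 : ℝ) ^ n := pow_le_pow_right₀ (by norm_num) (Nat.sub_le n l)
  have hR' : 16 * δ * m ^ 8 ≤ m⁻¹ :=
    le_trans (mul_le_mul_of_nonneg_left (pow_le_pow_left₀ (by positivity) hmn 8) (by positivity))
      (hR.trans (inv_anti₀ (by positivity) hmn))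
  have hS : Q.sq (B.pS g l a * B.pS g l a) ≤ 11 ^ 3 := by
    have h2 := (B.sub (emb n l a hl ha)).sq_square (Q := Q) hL hδ hδ1 hR' g
    rwa [pS, pc_eq_map hl ha, cl_map]
  have h := B.sq_mixed (Q := Q) hL hδ hδ1 (g := g) (h := h) (pc_disjoint (N := n) (l := l) hne)
  simp only [pS, cl, hcard, hcard', Nat.cast_pow, Nat.cast_ofNat, ← hm, smul_mul_smul_comm,
    sq_smul_real] at hS h ⊢
  have hr : rt (2 ^ (n - l)) ^ 2 = m⁻¹ := by
    rw [_root_.sq, rt_mul_self, Nat.cast_pow, Nat.cast_ofNat]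
  have hm0 : (0 : ℝ) < m := by linarith
  set s2 := Q.sq ((∑ r ∈ pc n l a, B.ξ g r) * ∑ r ∈ pc n l a, B.ξ g r) with hs2
  rw [show (rt (2 ^ (n - l)) * rt (2 ^ (n - l))) ^ 2 = m⁻¹ ^ 2 by rw [← hr]; ring] at hS
  rw [show (rt (2 ^ (n - l)) * rt (2 ^ (n - l)) * rt (2 ^ (n - l))) ^ 2 = m⁻¹ ^ 3 by rw [← hr]; ring]
  refine (mul_le_mul_of_nonneg_left h (by positivity)).trans ?_
  have e1 : m⁻¹ ^ 3 * (m * s2 + m ^ 2 * (m ^ 4 * (16 * δ))) = m⁻¹ ^ 2 * s2 + 16 * δ * m ^ 3 := by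
    field_simp
  rw [e1]
  have h3 : 16 * δ * m ^ 3 ≤ 1 :=
    (mul_le_mul_of_nonneg_left (pow_le_pow_right₀ hm1 (by norm_num)) (by positivity)).trans
      (hR'.trans (inv_le_one_of_one_le₀ hm1))
  linarith

/-- The bounded versions multiply to the kernel. -/
theorem near (hR : 16 * δ * ((2 : ℝ) ^ n) ^ 8 ≤ ((2 : ℝ) ^ n)⁻¹) (g h : ι) {j : ℕ} (hj : j ≤ n)
    {u v : ℝ} (hu : 0 < u) (hu1 : u ≤ 1) (hv : 0 < v) :
    Q.sq (bsin (v ^ 3) (cl univ (B.ξ g)) * bsin (v ^ 3) (cl univ (B.ξ h)) -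
        kn univ (B.ξ g) (B.ξ h) - ∑ l ∈ range j, B.TX (u ^ 3) g h l) ≤
      (10 * ((4 : ℝ) / 5) ^ j + 24 * v ^ 4 + (2 * j * 2 ^ j) * (32 * u ^ 2) +
        24 * v ^ 4 * ((2 * j * 2 ^ j + 1) / u ^ 2) ^ 2) ^ 3 := by
  set Sg := cl univ (B.ξ g) with hSg
  set Sh := cl univ (B.ξ h) with hSh
  have hsag : IsSelfAdjoint Sg := (IsSelfAdjoint.all _).smul (isSelfAdjoint_sum _ fun r _ => B.sa g r)
  have hsah : IsSelfAdjoint Sh := (IsSelfAdjoint.all _).smul (isSelfAdjoint_sum _ fun r _ => B.sa h r)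
  set χg := damp (v ^ 3) Sg with hχg
  set χh := damp (v ^ 3) Sh with hχh
  set K := kn univ (B.ξ g) (B.ξ h) with hK
  set low := ∑ l ∈ range j, (B.X g h l + B.X' g h l) with hlow
  set lowT := ∑ l ∈ range j, B.TX (u ^ 3) g h l with hlowT
  have hv3 : (0 : ℝ) < v ^ 3 := by positivity
  rw [(bsin_eq_mul hv3.ne' hsag).1, (bsin_eq_mul hv3.ne' hsah).2]
  have e : χg * Sg * (Sh * χh) - K - lowT = χg * (Sg * Sh - K - low) * χh + (χg * K * χh - K) +
      χg * (low - lowT) * χh + (χg * lowT * χh - lowT) := by noncomm_ring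
  rw [e]
  have hsand : ∀ (y : D) (A : ℝ), Q.sq y ≤ A ^ 3 → Q.sq (χg * y * χh) ≤ A ^ 3 := fun y A hy => by
    refine (sq_mul_right Q _ _).trans ?_
    refine (mul_le_of_le_one_right (Q.sq_nonneg _) (pow_le_one₀ (norm_nonneg _) (norm_damp _ _))).trans ?_
    refine (sq_mul_left Q _ _).trans ((mul_le_of_le_one_left (Q.sq_nonneg _)
      (pow_le_one₀ (norm_nonneg _) (norm_damp _ _))).trans hy)
  have hdamp : ∀ (y : D) (b : ℝ), ‖y‖ ≤ b ^ 3 → 0 ≤ b →
      Q.sq (χg * y * χh - y) ≤ (24 * v ^ 4 * b ^ 2) ^ 3 := fun y b hy hb => by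
    have hy2 : ‖y‖ ^ 2 ≤ (b ^ 3) ^ 2 := pow_le_pow_left₀ (norm_nonneg _) hy 2
    have d : ∀ (S : D), IsSelfAdjoint S → Q.sq (S * S) ≤ 11 ^ 3 →
        Q.sq (damp (v ^ 3) S - 1) ≤ (v ^ 4 * 11) ^ 3 := fun S hS h2 =>
      (sq_damp_sub_one (v ^ 3) hS).trans
        ((mul_le_mul_of_nonneg_left h2 (by positivity)).trans_eq (by ring))
    have d1 := d Sg hsag (B.sq_square hL hδ hδ1 hR g)
    have d2 := d Sh hsah (B.sq_square hL hδ hδ1 hR h)
    have e1 : χg * y * χh - y = (χg - 1) * (y * χh) + y * (χh - 1) := by noncomm_ring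
    have c1 : Q.sq ((χg - 1) * (y * χh)) ≤ (12 * v ^ 4 * b ^ 2) ^ 3 := by
      refine (sq_mul_right Q _ _).trans ((mul_le_mul d1 (le_trans (pow_le_pow_left₀ (norm_nonneg _)
        ((norm_mul_le _ _).trans (mul_le_of_le_one_right (norm_nonneg _) (norm_damp _ _))) 2) hy2)
        (sq_nonneg _) (by positivity)).trans ?_)
      rw [show (v ^ 4 * 11) ^ 3 * (b ^ 3) ^ 2 = (11 * v ^ 4 * b ^ 2) ^ 3 by ring]
      gcongr; norm_num
    have c2 : Q.sq (y * (χh - 1)) ≤ (12 * v ^ 4 * b ^ 2) ^ 3 := by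
      refine (sq_mul_left Q _ _).trans ((mul_le_mul hy2 d2 (Q.sq_nonneg _) (by positivity)).trans ?_)
      rw [show (b ^ 3) ^ 2 * (v ^ 4 * 11) ^ 3 = (11 * v ^ 4 * b ^ 2) ^ 3 by ring]
      gcongr; norm_num
    rw [e1]
    refine (sq_add_le Q (by positivity) (by positivity) c1 c2).trans (le_of_eq ?_)
    ring
  have h1 := hsand _ _ (B.sq_tail (Q := Q) hL hδ hδ1 hR g h hj)
  have h2 := hdamp K 1 ((norm_kn univ _ _ (B.norm g) (B.norm h)).trans_eq (one_pow 3).symm) zero_le_one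
  rw [one_pow, mul_one] at h2
  set N : ℝ := 2 * j * 2 ^ j with hN
  have hN0 : 0 ≤ N := by positivity
  have hlo : Q.sq (low - lowT) ≤ (N * (32 * u ^ 2)) ^ 3 := by
    rw [hlow, hlowT, ← sum_sub_distrib]
    refine (sq_sum_le Q _ _ (fun _ => 2 * 2 ^ j * (32 * u ^ 2)) (fun _ _ => by positivity)
      fun l hl => ?_).trans (pow_le_pow_left₀ (sum_nonneg fun _ _ => by positivity)
        (le_of_eq (by rw [sum_const, card_range, nsmul_eq_mul, hN]; ring)) 3)
    rw [mem_range] at hl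
    rw [B.X_eq g h (hl.trans_le hj), TX, ← sum_sub_distrib]
    refine (sq_sum_le Q _ _ (fun _ => 2 * (32 * u ^ 2)) (fun _ _ => by positivity)
      fun c hc => ?_).trans (pow_le_pow_left₀ (sum_nonneg fun _ _ => by positivity) ?_ 3)
    · rw [mem_range] at hc
      have hl1 : l + 1 ≤ n := hl.trans_le hj
      have h1 : c < 2 ^ (l + 1) := hc.trans (by rw [pow_succ]; omega)
      have h2 : c + 2 ^ l < 2 ^ (l + 1) := by rw [pow_succ]; omega
      have hne : c ≠ c + 2 ^ l := by have := Nat.two_pow_pos l; omega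
      have hu3 : (0 : ℝ) < u ^ 3 := by positivity
      have pair : ∀ a a', a < 2 ^ (l + 1) → a' < 2 ^ (l + 1) → a ≠ a' →
          Q.sq (((2 : ℝ) ^ (l + 1))⁻¹ • (B.pS g (l + 1) a * B.pS h (l + 1) a') -
            ((2 : ℝ) ^ (l + 1))⁻¹ • (bsin (u ^ 3) (B.pS g (l + 1) a) *
              bsin (u ^ 3) (B.pS h (l + 1) a'))) ≤ (32 * u ^ 2) ^ 3 := by
        intro a a' ha ha' haa'
        rw [← smul_sub, sq_smul_real]
        refine (mul_le_of_le_one_left (Q.sq_nonneg _) (pow_le_one₀ (by positivity)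
          (inv_le_one_of_one_le₀ (one_le_pow₀ (by norm_num))))).trans ?_
        set x := B.pS g (l + 1) a
        set y := B.pS h (l + 1) a'
        set tx := bsin (u ^ 3) x with htx
        set ty := bsin (u ^ 3) y with hty
        have c1 : Q.sq ((x - tx) * y) ≤ (16 * u ^ 2) ^ 3 := by
          refine (sq_sub_bsin_mul hu3.ne' (B.pS_sa g _ _) y).trans
            ((mul_le_mul_of_nonneg_left (B.sq_mixed_piece hL hδ hδ1 hR g h hl1 ha ha' haa')
              (by positivity)).trans ?_)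
          rw [show (16 * u ^ 2) ^ 3 = (u ^ 3) ^ 2 * 16 ^ 3 by ring]
          exact mul_le_mul_of_nonneg_left (by norm_num) (by positivity)
        have hxy : Commute x y :=
          ((Commute.sum_left _ _ _ fun r hr => Commute.sum_right _ _ _ fun s hs =>
            (B.comm g h r s fun e => disjoint_left.1 (pc_disjoint haa') hr (e ▸ hs)).1).smul_left
              _).smul_right _
        have hcy : Commute (damp (u ^ 3) x) y := hxy.cfc_real _
        have c2 : Q.sq (tx * (y - ty)) ≤ (16 * u ^ 2) ^ 3 := by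
          have e3 : tx * (y - ty) = damp (u ^ 3) x * ((y - ty) * x) := by
            rw [htx, (bsin_eq_mul hu3.ne' (B.pS_sa g _ _)).1, mul_assoc]
            congr 1
            rw [mul_sub, sub_mul, hxy.eq, hty,
              show bsin (u ^ 3) y * x = x * bsin (u ^ 3) y from (hxy.symm.cfc_real _).eq]
          rw [e3]
          refine (sq_mul_left Q _ _).trans ((mul_le_of_le_one_left (Q.sq_nonneg _)
            (pow_le_one₀ (norm_nonneg _) (norm_damp _ _))).trans ?_)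
          refine (sq_sub_bsin_mul hu3.ne' (B.pS_sa h _ _) x).trans
            ((mul_le_mul_of_nonneg_left (B.sq_mixed_piece hL hδ hδ1 hR h g hl1 ha' ha haa'.symm)
              (by positivity)).trans ?_)
          rw [show (16 * u ^ 2) ^ 3 = (u ^ 3) ^ 2 * 16 ^ 3 by ring]
          exact mul_le_mul_of_nonneg_left (by norm_num) (by positivity)
        have e4 : x * y - tx * ty = (x - tx) * y + tx * (y - ty) := by noncomm_ring
        rw [e4]
        exact (sq_add_le Q (by positivity) (by positivity) c1 c2).trans_eq (by ring)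
      rw [two_mul, add_sub_add_comm]
      exact sq_add_le Q (by positivity) (by positivity) (pair _ _ h1 h2 hne) (pair _ _ h2 h1 hne.symm)
    · rw [sum_const, card_range, nsmul_eq_mul]
      push_cast
      have : (2 : ℝ) ^ l ≤ 2 ^ j := pow_le_pow_right₀ (by norm_num) hl.le
      nlinarith [sq_nonneg u]
  have h3 := hsand _ _ hlo
  have hb : ‖lowT‖ ≤ ((N + 1) / u ^ 2) ^ 3 := by
    refine ((norm_sum_le _ _).trans (sum_le_card_nsmul _ _ (2 * 2 ^ j * ((u ^ 3)⁻¹ * (u ^ 3)⁻¹))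
      fun l hl => ?_)).trans ?_
    · refine (B.norm_TX (by positivity) g h l).trans (mul_le_mul_of_nonneg_right ?_ (by positivity))
      exact mul_le_mul_of_nonneg_left (pow_le_pow_right₀ (by norm_num) (mem_range.1 hl).le)
        (by norm_num)
    · rw [card_range, nsmul_eq_mul, div_pow]
      have e5 : (j : ℝ) * (2 * 2 ^ j * ((u ^ 3)⁻¹ * (u ^ 3)⁻¹)) = N / (u ^ 2) ^ 3 := by
        rw [hN]; field_simp
      rw [e5]
      gcongr
      nlinarith [sq_nonneg N, mul_nonneg hN0 hN0]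
  have h4 := hdamp lowT _ hb (by positivity)
  exact sq_add_le Q (by positivity) (by positivity)
    (sq_add_le Q (by positivity) (by positivity) (sq_add_le Q (by positivity) (by positivity) h1 h2) h3)
    h4

end Blk

end Vale.Agent.P095.General.Fair
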