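import Vale.Agent.P095.General.Linear

/-!
Elementary facts about quasitracial states, and the state of a commutative subalgebra.
-/

noncomputable section

open Filter Topology
open scoped BoundedContinuousFunction

namespace Vale.Agent.P095.General.Fair

universe u

variable {D : Type u} [CStarAlgebra D] [PartialOrder D] [StarOrderedRing D] (Q : QT D)

omit [PartialOrder D] [StarOrderedRing D] in
lemma sq_smul (z : ℂ) (x : D) : Q.sq (z • x) = ‖z‖ ^ 2 * Q.sq x := by
  have h : star (z • x) * (z • x) = (‖z‖ ^ 2 : ℝ) • (star x * x) := by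
    rw [star_smul, smul_mul_smul_comm, ← Complex.coe_smul (‖z‖ ^ 2 : ℝ)]
    congr 1
    rw [Complex.ofReal_pow]
    exact RCLike.conj_mul z
  rw [QT.sq, h, Q.smul _ _ (by positivity)]
  rfl

omit [PartialOrder D] [StarOrderedRing D] in
lemma sq_smul_real (r : ℝ) (x : D) : Q.sq (r • x) = r ^ 2 * Q.sq x := by
  rw [← Complex.coe_smul, sq_smul, Complex.norm_real, Real.norm_eq_abs, sq_abs]

lemma q_mono_sq {x y : D} (h : star x * x ≤ star y * y) : Q.sq x ≤ Q.sq y :=
  Q.q_mono (star_mul_self_nonneg x) h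

lemma sq_mul_left (c x : D) : Q.sq (c * x) ≤ ‖c‖ ^ 2 * Q.sq x := by
  rw [← sq_smul_real]
  refine q_mono_sq Q ?_
  rw [star_mul, star_smul, (IsSelfAdjoint.all ‖c‖).star_eq, smul_mul_smul_comm,
    ← CStarRing.norm_star_mul_self,
    mul_assoc, ← mul_assoc (star c) c x, ← mul_assoc (star x)]
  exact CStarAlgebra.star_left_conjugate_le_norm_smul (hb := IsSelfAdjoint.star_mul_self c)

lemma sq_mul_right (x c : D) : Q.sq (x * c) ≤ Q.sq x * ‖c‖ ^ 2 := by
  rw [← Q.sq_star (x * c), star_mul, mul_comm, ← norm_star c, ← Q.sq_star x]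
  exact sq_mul_left Q _ _

lemma q_add_le (a b : D) {t : ℝ} (ht : 0 < t) :
    Q.sq (a + b) ≤ (1 + t) ^ 2 * Q.sq a + (1 + 1 / t) ^ 2 * Q.sq b := by
  have ht' : (0 : ℝ) ≤ 1 + 1 / t := by positivity
  set u := Real.sqrt (1 + t) • a with hu
  set v := Real.sqrt (1 + 1 / t) • b with hv
  set w := Real.sqrt t • a - (Real.sqrt t)⁻¹ • b with hw
  have e : star (a + b) * (a + b) + star w * w = star u * u + star v * v := by
    have h1 : Real.sqrt t * Real.sqrt t = t := Real.mul_self_sqrt ht.le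
    have h2 : Real.sqrt t * (Real.sqrt t)⁻¹ = 1 := mul_inv_cancel₀ (by positivity)
    have h3 : (Real.sqrt t)⁻¹ * (Real.sqrt t)⁻¹ = 1 / t := by rw [← mul_inv, h1, one_div]
    have h4 : Real.sqrt (1 + t) * Real.sqrt (1 + t) = 1 + t := Real.mul_self_sqrt (by positivity)
    have h5 : Real.sqrt (1 + 1 / t) * Real.sqrt (1 + 1 / t) = 1 + 1 / t := Real.mul_self_sqrt ht'
    simp only [hu, hv, hw, star_add, star_sub, star_smul, star_trivial, add_mul, mul_add, sub_mul,
      mul_sub, smul_mul_smul_comm, h1, h2, h3, h4, h5, mul_comm ((Real.sqrt t)⁻¹) (Real.sqrt t)]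
    simp only [add_smul, one_smul]
    abel
  refine (Q.q_mono (star_mul_self_nonneg _) (le_add_of_nonneg_right (star_mul_self_nonneg w))).trans
    ?_
  rw [e]
  refine (Q.tri u v t ht).trans (le_of_eq ?_)
  show (1 + t) * Q.sq u + (1 + 1 / t) * Q.sq v = _
  rw [hu, hv, sq_smul_real, sq_smul_real, Real.sq_sqrt (by positivity), Real.sq_sqrt ht']
  ring

/-- The cube roots of squared two-norms satisfy the triangle inequality. -/
lemma sq_add_le {a b : D} {A B : ℝ} (hA : 0 ≤ A) (hB : 0 ≤ B) (ha : Q.sq a ≤ A ^ 3)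
    (hb : Q.sq b ≤ B ^ 3) : Q.sq (a + b) ≤ (A + B) ^ 3 := by
  have key : ∀ e : ℝ, 0 < e → Q.sq (a + b) ≤ (A + e + (B + e)) ^ 3 := fun e he => by
    have hA' : 0 < A + e := by linarith
    have hB' : 0 < B + e := by linarith
    refine (q_add_le Q a b (div_pos hB' hA')).trans ?_
    have ha' : Q.sq a ≤ (A + e) ^ 3 := ha.trans (pow_le_pow_left₀ hA (by linarith) 3)
    have hb' : Q.sq b ≤ (B + e) ^ 3 := hb.trans (pow_le_pow_left₀ hB (by linarith) 3)
    refine (add_le_add (mul_le_mul_of_nonneg_left ha' (sq_nonneg _))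
      (mul_le_mul_of_nonneg_left hb' (sq_nonneg _))).trans (le_of_eq ?_)
    field_simp
    ring
  have h : Tendsto (fun e : ℝ => (A + e + (B + e)) ^ 3) (𝓝[>] 0) (𝓝 ((A + B) ^ 3)) := by
    refine Tendsto.mono_left ?_ nhdsWithin_le_nhds
    have : Continuous fun e : ℝ => (A + e + (B + e)) ^ 3 := by fun_prop
    simpa using this.tendsto 0
  exact ge_of_tendsto h (eventually_nhdsWithin_of_forall key)

lemma sq_sum_le {κ : Type*} (s : Finset κ) (f : κ → D) (A : κ → ℝ) (hA : ∀ i ∈ s, 0 ≤ A i)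
    (h : ∀ i ∈ s, Q.sq (f i) ≤ A i ^ 3) : Q.sq (∑ i ∈ s, f i) ≤ (∑ i ∈ s, A i) ^ 3 := by
  classical
  induction s using Finset.induction_on with
  | empty => simp [QT.sq_eq, QT.q_zero]
  | insert i s hi ih =>
    rw [Finset.sum_insert hi, Finset.sum_insert hi]
    exact sq_add_le Q (hA i (Finset.mem_insert_self i s))
      (Finset.sum_nonneg fun j hj => hA j (Finset.mem_insert_of_mem hj))
      (h i (Finset.mem_insert_self i s))
      (ih (fun j hj => hA j (Finset.mem_insert_of_mem hj))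
        fun j hj => h j (Finset.mem_insert_of_mem hj))

lemma abs_sq_sub_le (a b : D) {M t : ℝ} (ha : ‖a‖ ^ 2 ≤ M) (hb : ‖b‖ ^ 2 ≤ M) (ht : 0 < t)
    (ht1 : t ≤ 1) : |Q.sq a - Q.sq b| ≤ 3 * t * M + 4 / t ^ 2 * Q.sq (a - b) := by
  have key : ∀ x y : D, ‖y‖ ^ 2 ≤ M → Q.sq x - Q.sq y ≤ 3 * t * M + 4 / t ^ 2 * Q.sq (x - y) := by
    intro x y hy
    have h := q_add_le Q y (x - y) ht
    rw [add_sub_cancel] at h
    have h1 : Q.sq y ≤ M := (Q.sq_le_norm y).trans hy
    have h2 : (1 + 1 / t) ^ 2 ≤ 4 / t ^ 2 := by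
      rw [show (1 + 1 / t) ^ 2 = (t + 1) ^ 2 / t ^ 2 by field_simp]
      gcongr
      nlinarith
    have h3 := mul_le_mul_of_nonneg_right h2 (Q.sq_nonneg (x - y))
    have h4 : (1 + t) ^ 2 * Q.sq y ≤ Q.sq y + 3 * t * M := by
      have h5 : (2 * t + t ^ 2) * Q.sq y ≤ 3 * t * M :=
        mul_le_mul (by nlinarith) h1 (Q.sq_nonneg y) (by positivity)
      nlinarith
    linarith
  rw [abs_sub_le_iff]
  refine ⟨key a b hb, ?_⟩
  rw [← neg_sub b a, ← neg_one_smul ℂ (b - a), sq_smul, norm_neg, norm_one, one_pow, one_mul]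
  exact key b a ha

lemma qs_star_mul_self (x : D) : Q.qs (star x * x) = Q.sq x :=
  QT.qs_of_nonneg Q (star_mul_self_nonneg x)

lemma isClosed_null : IsClosed {a : D | Q.Null a} := by
  refine isClosed_of_closure_subset fun a ha => Q.null_of_approx fun e he => ?_
  obtain ⟨b, hb, hd⟩ := Metric.mem_closure_iff.1 ha e he
  exact ⟨b, hb, by rw [← dist_eq_norm]; exact hd.le⟩

/-- Elements commuting modulo null elements with a generating set do so with the closed
subalgebra generated. -/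
lemma null_comm_adjoin {s : Set D} (hs : ∀ x ∈ s, star x ∈ s)
    (h : ∀ x ∈ s, ∀ y ∈ s, Q.Null (x * y - y * x)) :
    ∀ x ∈ (StarAlgebra.adjoin ℂ s).topologicalClosure,
      ∀ y ∈ (StarAlgebra.adjoin ℂ s).topologicalClosure, Q.Null (x * y - y * x) := by
  have key : ∀ y : D, (∀ x ∈ s, Q.Null (x * y - y * x)) →
      ∀ x ∈ (StarAlgebra.adjoin ℂ s).topologicalClosure, Q.Null (x * y - y * x) := by
    intro y hy x hx
    refine closure_minimal (s := (StarAlgebra.adjoin ℂ s : Set D))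
      (t := {x | Q.Null (x * y - y * x)}) (fun x hx => ?_) ?_ hx
    · have hss : s ∪ star s = s := by
        refine Set.union_eq_left.2 fun x hx => ?_
        simpa using hs _ (Set.mem_star.1 hx)
      rw [SetLike.mem_coe, ← StarSubalgebra.mem_toSubalgebra, StarAlgebra.adjoin_toSubalgebra,
        hss] at hx
      show Q.Null (x * y - y * x)
      induction hx using Algebra.adjoin_induction with
      | mem x hx => exact hy x hx
      | algebraMap r => rw [Algebra.commutes, sub_self]; exact Q.null_zero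
      | add a b _ _ ha hb =>
        have := QT.Null.add Q ha hb
        rwa [show a * y - y * a + (b * y - y * b) = (a + b) * y - y * (a + b) by noncomm_ring]
          at this
      | mul a b _ _ ha hb =>
        have := QT.Null.add Q (QT.Null.mul_left Q hb a) (QT.Null.mul_right Q ha b)
        rwa [show a * (b * y - y * b) + (a * y - y * a) * b = a * b * y - y * (a * b) by
          noncomm_ring] at this
    · exact (isClosed_null Q).preimage (by fun_prop)
  intro x hx y hy
  refine key y (fun z hz => ?_) x hx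
  have := QT.Null.neg Q (key z (fun w hw => h w hw z hz) y hy)
  rwa [neg_sub] at this

/-- The state of a family of commuting self-adjoint elements. -/
lemma exists_state (hL : LinearStatement.{u}) (s : Set D) (hsa : ∀ x ∈ s, IsSelfAdjoint x)
    (hc : ∀ x ∈ s, ∀ y ∈ s, Commute x y) :
    ∃ (C : StarSubalgebra ℂ D) (φ : ↥C →ₗ[ℂ] ℂ), C = (StarAlgebra.adjoin ℂ s).topologicalClosure ∧
      (∀ x ∈ C, ∀ y ∈ C, Commute x y) ∧ φ 1 = 1 ∧
      (∀ x : ↥C, φ (star x * x) = ((Q.sq (x : D) : ℝ) : ℂ)) ∧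
      ∀ x : ↥C, IsSelfAdjoint (x : D) → φ x = ((Q.qs (x : D) : ℝ) : ℂ) := by
  set C := (StarAlgebra.adjoin ℂ s).topologicalClosure with hC
  have hcC : ∀ x ∈ C, ∀ y ∈ C, Commute x y := by
    have h1 : ∀ x ∈ (StarAlgebra.adjoin ℂ s : Set D), ∀ y ∈ (StarAlgebra.adjoin ℂ s : Set D),
        x * y = y * x := by
      let inst : CommRing ↥(StarAlgebra.adjoin ℂ s) :=
        (StarAlgebra.adjoinCommRingOfComm ℂ (fun a ha b hb => (hc a ha b hb).eq)
          fun a ha b hb => by rw [(hsa b hb).star_eq]; exact (hc a ha b hb).eq)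
      exact fun x hx y hy => congrArg Subtype.val (mul_comm (⟨x, hx⟩ : ↥(StarAlgebra.adjoin ℂ s))
        ⟨y, hy⟩)
    intro x hx y hy
    have hcl : IsClosed {p : D × D | p.1 * p.2 = p.2 * p.1} :=
      isClosed_eq (continuous_fst.mul continuous_snd) (continuous_snd.mul continuous_fst)
    have : (x, y) ∈ closure ((StarAlgebra.adjoin ℂ s : Set D) ×ˢ
        (StarAlgebra.adjoin ℂ s : Set D)) := by
      rw [closure_prod_eq]; exact ⟨hx, hy⟩
    exact closure_minimal (fun z hz => h1 _ hz.1 _ hz.2) hcl this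
  obtain ⟨φ, h1, h2, h3⟩ := hL.2.2 D Q C (StarAlgebra.adjoin ℂ s).isClosed_topologicalClosure
    fun x hx y hy => by rw [(hcC x hx y hy).eq, sub_self]; exact (Q.null_zero : Q.sq 0 = 0)
  exact ⟨C, φ, rfl, hcC, h1, h2, h3⟩

end Vale.Agent.P095.General.Fair
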