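import Vale.Agent.P095.General.Fair.Laws

/-!
The realisation of the limit in a commutative algebra.
-/

noncomputable section

open Finset Filter Topology
open scoped BoundedContinuousFunction

namespace Vale.Agent.P095.General.Fair

attribute [local instance] CStarAlgebra.spectralOrder CStarAlgebra.spectralOrderedRing

universe u v

namespace Ctx

variable {D : Type u} [CStarAlgebra D] {ι : Type v} {I : Type} (c : Ctx D ι I)

instance instM0 : CStarAlgebra ↥c.M0 := StarSubalgebra.cstarAlgebra c.M0 (h_closed := c.isClosed_M0)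

/-- A commutative algebra through which the state of the limit factors. -/
structure Rz (M : Type u) [CStarAlgebra M] where
  π : ↥c.M0 →⋆ₐ[ℂ] M
  φ : M →ₗ[ℂ] ℂ
  comm : ∀ x y : M, x * y = y * x
  one : φ 1 = 1
  pos : ∀ x, ∃ r : ℝ, 0 ≤ r ∧ φ (star x * x) = (r : ℂ)
  cont : Continuous φ
  hφ : ∀ x : ↥c.M0, φ (π x) = c.ev (x : ℕ →ᵇ D)
  kill : ∀ x : ↥c.M0, c.R.Null (x : ℕ →ᵇ D) → π x = 0

/-- The state as a linear map. -/
def Φ0 : ↥c.M0 →ₗ[ℂ] ℂ := c.P.φ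

lemma Φ0_sq (x : ↥c.M0) : c.Φ0 (star x * x) = ((c.R.sq (x : ℕ →ᵇ D) : ℝ) : ℂ) := c.P.sq_eq x

theorem exists_rz : ∃ (M : Type u) (_ : CStarAlgebra M), Nonempty (c.Rz M) := by
  obtain ⟨M, inst, π, φ, h1, h2, h3, h4, h5, h6⟩ := exists_comm_quotient' (A := ↥c.M0) c.Φ0 c.P.one
    (fun x => ⟨c.R.sq (x : ℕ →ᵇ D), c.R.sq_nonneg _, c.Φ0_sq x⟩) (fun x => by
      have h : c.Φ0 (x * star x) = ((c.R.sq ((star x : ↥c.M0) : ℕ →ᵇ D) : ℝ) : ℂ) := by
        have := c.Φ0_sq (star x)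
        simpa using this
      rw [c.Φ0_sq x, h, StarMemClass.coe_star, c.R.sq_star]) (fun a b => by
      rw [c.Φ0_sq, Complex.ofReal_eq_zero]
      exact c.null_M0 _ a.2 _ b.2)
  refine ⟨M, inst, ⟨⟨π, φ, h1, h2, h3, h5, fun x => ?_, fun x hx => h6 x fun b => ?_⟩⟩⟩
  · rw [h4]; exact (c.P.ev_eq x.2).symm
  · rw [c.Φ0_sq, Complex.ofReal_eq_zero]
    exact QT.Null.mul_right c.R hx _

/-- The exponentials in the algebra of the limit. -/
def Wm (a : I) (g : ι) (l b : ℕ) (t : ℝ) : ↥c.M0 := ⟨c.W a g l b t, c.W_mem a g l b t⟩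

/-- The kernels in the algebra of the limit. -/
def Km (a : I) (g h : ι) (l b : ℕ) : ↥c.M0 := ⟨c.Kp a g h l b, c.Kp_mem a g h l b⟩

/-- The bounded versions in the algebra of the limit. -/
def Tm' (a : I) (g : ι) (l b : ℕ) (θ : ℝ) : ↥c.M0 := ⟨c.Ts a g l b θ, c.Ts_mem a g l b θ⟩

/-- The fixed element in the algebra of the limit. -/
def Sm : ↥c.M0 := ⟨c.sS, c.sS_mem⟩

lemma W_zero (a : I) (g : ι) (l b : ℕ) : c.Wm a g l b 0 = 1 := by
  apply Subtype.ext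
  ext N
  exact gex_zero _

lemma W_add (a : I) (g : ι) (l b : ℕ) (s t : ℝ) :
    c.Wm a g l b s * c.Wm a g l b t = c.Wm a g l b (s + t) := by
  apply Subtype.ext
  ext N
  exact (gex_time _ s t).symm

lemma W_star (a : I) (g : ι) (l b : ℕ) (t : ℝ) : star (c.Wm a g l b t) = c.Wm a g l b (-t) :=
  Subtype.ext (c.star_W a g l b t)

lemma norm_Wm (a : I) (g : ι) (l b : ℕ) (t : ℝ) : ‖c.Wm a g l b t‖ ≤ 1 :=
  (BoundedContinuousFunction.norm_le zero_le_one).2 fun N =>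
    norm_gex_le ((c.B a N).pS_sa g l b) t

lemma norm_Km (a : I) (g h : ι) (l b : ℕ) : ‖c.Km a g h l b‖ ≤ 1 :=
  (BoundedContinuousFunction.norm_le zero_le_one).2 fun N =>
    norm_kn _ _ _ ((c.B a N).norm g) ((c.B a N).norm h)

lemma Tm'_eq (a : I) (g : ι) (l b : ℕ) (θ : ℝ) :
    c.Tm' a g l b θ = ((2 : ℂ) * Complex.I * θ)⁻¹ • (c.Wm a g l b θ - c.Wm a g l b (-θ)) := rfl

lemma Tm'_neg (a : I) (g : ι) (l b : ℕ) (θ : ℝ) : c.Tm' a g l b (-θ) = c.Tm' a g l b θ := by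
  rw [c.Tm'_eq, c.Tm'_eq, neg_neg, ← neg_sub (c.Wm a g l b θ), smul_neg, ← neg_smul]
  congr 1
  push_cast
  rw [mul_neg, inv_neg, neg_neg]

namespace Rz

variable {c} {M : Type u} [CStarAlgebra M] (Z : c.Rz M)

lemma congr {x y : ↥c.M0} (h : c.R.Null ((x : ℕ →ᵇ D) - y)) : Z.π x = Z.π y :=
  sub_eq_zero.1 (by rw [← map_sub]; exact Z.kill _ h)

lemma sq_eq (x : ↥c.M0) : Z.φ (star (Z.π x) * Z.π x) = ((c.R.sq (x : ℕ →ᵇ D) : ℝ) : ℂ) := by
  rw [← map_star, ← map_mul, Z.hφ]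
  exact c.P.ev_sq x.2

lemma bound (x y : ↥c.M0) :
    ‖Z.φ (Z.π x * Z.π y)‖ ≤ ‖x‖ * Real.sqrt (c.R.sq (y : ℕ →ᵇ D)) := by
  rw [← map_mul, Z.hφ]
  exact c.P.cs' x.2 y.2

lemma bound2 (x y z : ↥c.M0) : ‖Z.φ (Z.π x * Z.π y * Z.π z)‖ ≤
    ‖x‖ * Real.sqrt (c.R.sq (y : ℕ →ᵇ D)) * Real.sqrt (c.R.sq (z : ℕ →ᵇ D)) := by
  rw [← map_mul, ← map_mul, Z.hφ]
  have h := c.P.cs (star_mem (mul_mem x.2 y.2)) z.2
  rw [star_star, c.R.sq_star] at h
  refine h.trans (mul_le_mul_of_nonneg_right ?_ (Real.sqrt_nonneg _))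
  refine (Real.sqrt_le_sqrt (sq_mul_left c.R (x : ℕ →ᵇ D) y)).trans (le_of_eq ?_)
  rw [Real.sqrt_mul (sq_nonneg _), Real.sqrt_sq (norm_nonneg _)]
  rfl

/-- The image of an exponential. -/
def w (a : I) (g : ι) (l b : ℕ) (t : ℝ) : M := Z.π (c.Wm a g l b t)

/-- The image of a kernel. -/
def k (a : I) (g h : ι) (l b : ℕ) : M := Z.π (c.Km a g h l b)

lemma k_comm (a : I) (g h : ι) (l b : ℕ) : Z.k a g h l b = Z.k a h g l b := by
  refine Z.congr ?_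
  have h1 := QT.Null.smul c.R (c.null_Dp a g h l b) (-Complex.I)
  have e : (-Complex.I) • c.Dp a g h l b = c.Kp a g h l b - c.Kp a h g l b := by
    ext N
    simp only [Dp, Kp, BoundedContinuousFunction.smul_apply, BoundedContinuousFunction.sub_apply,
      mkSeq_apply, kn, Blk.dd, ← smul_sum, ← sum_sub_distrib, ← smul_sub]
    rw [smul_comm, smul_smul]
    simp
  rwa [e] at h1

lemma k_sa (a : I) (g h : ι) (l b : ℕ) : IsSelfAdjoint (Z.k a g h l b) := by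
  rw [isSelfAdjoint_iff, k, ← map_star,
    show star (c.Km a g h l b) = c.Km a h g l b from Subtype.ext (c.star_Kp a g h l b)]
  exact (Z.k_comm a g h l b).symm

lemma norm_k (a : I) (g h : ι) (l b : ℕ) : ‖Z.k a g h l b‖ ≤ 1 :=
  (NonUnitalStarAlgHom.norm_apply_le Z.π _).trans (c.norm_Km a g h l b)

lemma w_split (a : I) (g : ι) {l b : ℕ} (hb : b < 2 ^ l) (t : ℝ) :
    Z.w a g l b t = Z.w a g (l + 1) b (t * Real.sqrt 2⁻¹) *
      Z.w a g (l + 1) (b + 2 ^ l) (t * Real.sqrt 2⁻¹) := by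
  rw [w, w, w, ← map_mul]
  refine Z.congr (c.null_of_eventually_eq _ ((c.eventually_ge (l + 1)).mono fun N hN => ?_))
  show gex ((c.B a N).pS g l b) t - gex ((c.B a N).pS g (l + 1) b) (t * Real.sqrt 2⁻¹) *
    gex ((c.B a N).pS g (l + 1) (b + 2 ^ l)) (t * Real.sqrt 2⁻¹) = 0
  have h1 : b < 2 ^ (l + 1) := hb.trans (by rw [pow_succ]; omega)
  have h2 : b + 2 ^ l < 2 ^ (l + 1) := by rw [pow_succ]; omega
  have hc : Commute ((c.B a N).pS g (l + 1) b) ((c.B a N).pS g (l + 1) (b + 2 ^ l)) :=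
    ((Commute.sum_left _ _ _ fun r hr => Commute.sum_right _ _ _ fun s hs =>
      ((c.B a N).comm g g r s fun e => disjoint_left.1 (pc_succ_disjoint N l b) hr (e ▸ hs)).1).smul_left
        _).smul_right _
  rw [← gex_add_comm hc, ← gex_smul, sub_eq_zero]
  congr 1
  rw [Blk.pS, Blk.pS, Blk.pS, cl, cl, cl, card_pc hN h1, card_pc hN h2,
    card_pc (Nat.le_of_succ_le hN) hb, ← smul_add, smul_smul, pc_succ N hb,
    sum_union (pc_succ_disjoint N l b)]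
  congr 1
  rw [show N - l = N - (l + 1) + 1 by omega, rt, rt, pow_succ, Nat.cast_mul, Real.sqrt_mul
    (Nat.cast_nonneg _), mul_inv, Real.sqrt_inv, Nat.cast_ofNat, mul_comm]

lemma k_split (a : I) (g h : ι) {l b : ℕ} (hb : b < 2 ^ l) :
    Z.k a g h l b =
      (2 : ℂ)⁻¹ • (Z.k a g h (l + 1) b + Z.k a g h (l + 1) (b + 2 ^ l)) := by
  rw [k, k, k, ← map_add, ← map_smul]
  refine Z.congr (c.null_of_eventually_eq _ ((c.eventually_ge (l + 1)).mono fun N hN => ?_))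
  show kn (pc N l b) ((c.B a N).ξ g) ((c.B a N).ξ h) -
    (2 : ℂ)⁻¹ • (kn (pc N (l + 1) b) ((c.B a N).ξ g) ((c.B a N).ξ h) +
      kn (pc N (l + 1) (b + 2 ^ l)) ((c.B a N).ξ g) ((c.B a N).ξ h)) = 0
  have h1 : b < 2 ^ (l + 1) := hb.trans (by rw [pow_succ]; omega)
  have h2 : b + 2 ^ l < 2 ^ (l + 1) := by rw [pow_succ]; omega
  rw [show (2 : ℂ)⁻¹ = ((2⁻¹ : ℝ) : ℂ) by push_cast; rfl, Complex.coe_smul, kn, kn, kn,
    card_pc hN h1, card_pc hN h2, card_pc (Nat.le_of_succ_le hN) hb, ← smul_add, smul_smul,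
    sub_eq_zero, pc_succ N hb, sum_union (pc_succ_disjoint N l b)]
  congr 1
  rw [show N - l = N - (l + 1) + 1 by omega, pow_succ, Nat.cast_mul, mul_inv, Nat.cast_ofNat,
    mul_comm]

lemma k_sum (a : I) (g h : ι) : ∀ l : ℕ,
    ∑ b ∈ range (2 ^ l), Z.k a g h l b = ((2 : ℂ) ^ l) • Z.k a g h 0 0 := by
  intro l
  induction l with
  | zero => simp
  | succ l ih =>
    rw [pow_succ 2 l, mul_two, sum_range_add, ← sum_add_distrib, pow_succ', ← smul_smul, ← ih,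
      smul_sum]
    refine sum_congr rfl fun b hb => ?_
    rw [Z.k_split a g h (mem_range.1 hb), smul_smul, mul_inv_cancel₀ two_ne_zero, one_smul,
      add_comm (2 ^ l) b]

lemma k_diag (a : I) (g : ι) : Z.k a g g 0 0 = 1 := by
  rw [← map_one Z.π]
  refine Z.congr ?_
  refine le_antisymm ?_ (c.R.sq_nonneg _)
  refine le_of_tendsto_of_tendsto (c.hR _) ((?_ : Tendsto (fun N : ℕ => ((2 : ℝ) ^ N)⁻¹) atTop
    (𝓝 0)).mono_left c.hU) (Eventually.of_forall fun N => ?_)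
  · exact (tendsto_pow_atTop_atTop_of_one_lt (one_lt_two : (1 : ℝ) < 2)).inv_tendsto_atTop
  show (c.Q N).sq (kn (pc N 0 0) ((c.B a N).ξ g) ((c.B a N).ξ g) - 1) ≤ _
  set n : ℕ := 2 ^ N with hn
  have hnR : (n : ℝ) = (2 : ℝ) ^ N := by simp [hn]
  have hn1 : (1 : ℝ) ≤ n := by rw [hnR]; exact one_le_pow₀ (by norm_num)
  have e : kn (pc N 0 0) ((c.B a N).ξ g) ((c.B a N).ξ g) - 1 =
      ∑ r : Fin (2 ^ N), (n : ℝ)⁻¹ • ((c.B a N).ξ g r * (c.B a N).ξ g r - 1) := by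
    rw [kn, pc_zero, card_univ, Fintype.card_fin, smul_sum]
    simp only [smul_sub]
    rw [sum_sub_distrib, sum_const, card_univ, Fintype.card_fin, ← Nat.cast_smul_eq_nsmul ℝ,
      smul_smul, mul_inv_cancel₀ (by positivity), one_smul]
  rw [e]
  have hd0 := (dl_pos N).le
  refine (sq_sum_le (c.Q N) _ _ (fun _ => dl N) (fun _ _ => hd0) fun r _ => ?_).trans ?_
  · rw [sq_smul_real]
    refine (mul_le_of_le_one_left ((c.Q N).sq_nonneg _) (pow_le_one₀ (by positivity)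
      (inv_le_one_of_one_le₀ hn1))).trans (((c.B a N).sq_one g r _).trans ?_)
    exact pow_le_pow_of_le_one hd0 (dl_le_one N) (by norm_num)
  · rw [sum_const, card_univ, Fintype.card_fin, nsmul_eq_mul, ← hn, hnR]
    have h1 : (1 : ℝ) ≤ 2 ^ N := one_le_pow₀ (by norm_num)
    have h2 : (2 : ℝ) ^ N * dl N ≤ ((2 : ℝ) ^ N)⁻¹ := by
      rw [dl, ← div_eq_mul_inv, inv_eq_one_div, div_le_div_iff₀ (by positivity) (by positivity)]
      calc (2 : ℝ) ^ N * 2 ^ N = ((2 : ℝ) ^ N) ^ 2 := by ring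
        _ ≤ ((2 : ℝ) ^ N) ^ 12 := pow_le_pow_right₀ h1 (by norm_num)
        _ ≤ 1 * (16 * ((2 : ℝ) ^ N) ^ 12) := by
          nlinarith [pow_nonneg (zero_le_one.trans h1) 12]
    refine (pow_le_pow_left₀ (by positivity) h2 3).trans ?_
    exact pow_le_of_le_one (by positivity) (inv_le_one_of_one_le₀ h1) (by norm_num)

end Rz

end Ctx

end Vale.Agent.P095.General.Fair
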