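import Vale.Agent.P095.General.Fair.Blk

/-!
The law of one translate and mixed moments of two disjoint families of blocks.
-/

noncomputable section

open Finset

namespace Vale.Agent.P095.General.Fair

universe u v

variable {D : Type u} [CStarAlgebra D]

lemma gex_mem {S : StarSubalgebra ℂ D} (hS : IsClosed (S : Set D)) {a : D} (ha : a ∈ S) (t : ℝ) :
    gex a t ∈ S := by
  rw [gex, NormedSpace.exp_eq_tsum ℂ]
  refine hS.mem_of_tendsto (NormedSpace.expSeries_summable' (𝕂 := ℂ) _).hasSum.tendsto_sum_nat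
    (Filter.Eventually.of_forall fun n => ?_)
  refine sum_mem fun k _ => SMulMemClass.smul_mem _ (pow_mem ?_ _)
  rw [← Complex.coe_smul]
  exact SMulMemClass.smul_mem _ (SMulMemClass.smul_mem _ ha)

lemma gex_add_comm {a b : D} (h : Commute a b) (t : ℝ) : gex (a + b) t = gex a t * gex b t := by
  let +nondep : NormedAlgebra ℚ D := .restrictScalars ℚ ℂ D
  rw [gex, gex, gex, smul_add, smul_add, NormedSpace.exp_add_of_commute]
  exact (((h.smul_left _).smul_right _).smul_left _).smul_right _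

lemma norm_gex_taylor {s : D} (hs : IsSelfAdjoint s) (h1 : ‖s‖ ≤ 1) (t : ℝ) :
    ‖gex s t - 1 - (Complex.I * t) • s + ((t : ℂ) ^ 2 / 2) • (s * s)‖ ≤ |t| ^ 3 := by
  have hg0 : ∀ u, gex (0 : D) u = 1 := fun u => by simp [gex]
  have hd : ∀ u : ℝ, HasDerivAt
      (fun u => gex s u - 1 - (Complex.I * u) • s + ((u : ℂ) ^ 2 / 2) • (s * s))
      ((Complex.I • s) * (gex s u - 1 - (Complex.I * u) • s)) u := by
    intro u
    have ho : HasDerivAt (fun v : ℝ => (v : ℂ)) 1 u := Complex.ofRealCLM.hasDerivAt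
    have h2 := ((ho.const_mul Complex.I).smul_const s)
    have h3 := (((ho.pow 2).div_const 2).smul_const (s * s))
    refine ((((hasDerivAt_gex s u).sub_const 1).sub h2).add h3).congr_deriv ?_
    simp only [mul_sub, mul_one, smul_mul_assoc, mul_smul_comm, smul_smul]
    match_scalars <;> simp [mul_right_comm Complex.I _ Complex.I]
  have hb : ∀ u ∈ Set.uIcc 0 t,
      ‖(Complex.I • s) * (gex s u - 1 - (Complex.I * u) • s)‖ ≤ t ^ 2 := by
    intro u hu
    have h := norm_gex_add_sub_sub_le (a := (0 : D)) (IsSelfAdjoint.zero D) hs u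
    rw [zero_add, hg0, mul_one] at h
    refine (norm_mul_le _ _).trans ((mul_le_of_le_one_left (norm_nonneg _) ?_).trans (h.trans ?_))
    · rwa [norm_smul, Complex.norm_I, one_mul]
    · have e : br (0 : D) s = 0 := by simp [br]
      rw [e, norm_zero, add_zero]
      have hu' : u ^ 2 ≤ t ^ 2 := sq_le_sq.2 (by simpa using Set.abs_sub_left_of_mem_uIcc hu)
      exact (mul_le_of_le_one_right (sq_nonneg u) (pow_le_one₀ (norm_nonneg _) h1)).trans hu'
  have h := Convex.norm_image_sub_le_of_norm_hasDerivWithin_le (s := Set.uIcc 0 t) (x := 0) (y := t)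
    (fun u _ => (hd u).hasDerivWithinAt) hb (convex_uIcc 0 t) Set.left_mem_uIcc Set.right_mem_uIcc
  simp only [sub_zero, gex_zero, Complex.ofReal_zero, mul_zero, zero_smul, sub_self, ne_eq,
    OfNat.ofNat_ne_zero, not_false_eq_true, zero_pow, zero_div, add_zero, Real.norm_eq_abs] at h
  refine h.trans (le_of_eq ?_)
  rw [← sq_abs t]; ring

variable [PartialOrder D] [StarOrderedRing D] {ι : Type v} {κ : Type} {δ : ℝ} (B : Blk D ι κ δ)
  {Q : QT D}

namespace Blk

/-- The law of one translate. -/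
theorem ev_law (hδ : 0 < δ) (hδ1 : δ ≤ 1) (T : St Q) {g : ι} {A : Finset κ} {G : D}
    (hξ : ∀ r ∈ A, B.ξ g r ∈ T.C) (hG : G ∈ T.C) (hGa : G ∈ B.away A) {t : ℝ} (ht : |t| ≤ 1) :
    ‖T.ev (G * gex (∑ r ∈ A, B.ξ g r) t) - ((1 - t ^ 2 / 2 : ℝ) : ℂ) ^ A.card * T.ev G‖ ≤
      A.card * ((16 * δ * |t| + δ * t ^ 2 + |t| ^ 3) * ‖G‖) := by
  classical
  induction A using Finset.induction_on with
  | empty => simp [gex]
  | insert r A hr ih =>
    have hξA : ∀ s ∈ A, B.ξ g s ∈ T.C := fun s hs => hξ s (mem_insert_of_mem hs)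
    have hz : B.ξ g r ∈ T.C := hξ r (mem_insert_self r A)
    have ih := ih hξA (B.away_mono (subset_insert r A) hGa)
    set S := ∑ s ∈ A, B.ξ g s with hS
    set X := G * gex S t with hX
    have hSC : S ∈ T.C := sum_mem hξA
    have hXC : X ∈ T.C := mul_mem hG (gex_mem T.closed hSC t)
    have hXa : X ∈ B.away {r} := mul_mem (B.away_mono (by simp) hGa)
      (gex_mem (B.away_closed _) (sum_mem fun s hs => B.ξ_away g
        (mem_singleton.not.2 fun e : s = r => hr (e ▸ hs))) t)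
    have hsS : IsSelfAdjoint S := isSelfAdjoint_sum _ fun s _ => B.sa g s
    have hXn : ‖X‖ ≤ ‖G‖ :=
      (norm_mul_le _ _).trans (mul_le_of_le_one_right (norm_nonneg _) (norm_gex_le hsS t))
    have e : G * gex (∑ s ∈ insert r A, B.ξ g s) t = X * gex (B.ξ g r) t := by
      rw [sum_insert hr, add_comm, gex_add_comm (T.comm _ hSC _ hz), ← mul_assoc]
    rw [e, card_insert_of_notMem hr]
    set z := B.ξ g r with hzdef
    set rest := gex z t - 1 - (Complex.I * t) • z + ((t : ℂ) ^ 2 / 2) • (z * z) with hrest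
    have hrC : rest ∈ T.C := add_mem (sub_mem (sub_mem (gex_mem T.closed hz t) (one_mem _))
      (SMulMemClass.smul_mem _ hz)) (SMulMemClass.smul_mem _ (mul_mem hz hz))
    have e1 : X * gex z t = X + (Complex.I * t) • (X * z) + (-((t : ℂ) ^ 2 / 2)) • (X * (z * z)) +
        X * rest := by
      rw [hrest]
      simp only [mul_sub, mul_add, mul_one, mul_smul_comm, neg_smul]
      abel
    have m1 : X + (Complex.I * t) • (X * z) ∈ T.C :=
      add_mem hXC (SMulMemClass.smul_mem _ (mul_mem hXC hz))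
    have m2 : (-((t : ℂ) ^ 2 / 2)) • (X * (z * z)) ∈ T.C :=
      SMulMemClass.smul_mem _ (mul_mem hXC (mul_mem hz hz))
    rw [e1, T.ev_add (add_mem m1 m2) (mul_mem hXC hrC), T.ev_add m1 m2,
      T.ev_add hXC (SMulMemClass.smul_mem _ (mul_mem hXC hz)), T.ev_smul _ (mul_mem hXC hz),
      T.ev_smul _ (mul_mem hXC (mul_mem hz hz))]
    have b1 := B.ev_odd hδ hδ1 T hz hXC hXa
    have b2 := B.ev_even hδ1 hδ.le T hz hXC
    have b3 : ‖T.ev (X * rest)‖ ≤ ‖X‖ * |t| ^ 3 :=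
      (T.norm_le (mul_mem hXC hrC)).trans ((norm_mul_le _ _).trans
        (mul_le_mul_of_nonneg_left (norm_gex_taylor (B.sa g r) (B.norm g r) t) (norm_nonneg _)))
    set c : ℂ := ((1 - t ^ 2 / 2 : ℝ) : ℂ) with hc
    have hcn : ‖c‖ ≤ 1 := by
      rw [hc, Complex.norm_real, Real.norm_eq_abs, abs_le]
      constructor <;> nlinarith [sq_nonneg t, (abs_le.1 ht).1, (abs_le.1 ht).2]
    have e2 : T.ev X + Complex.I * t * T.ev (X * z) + -((t : ℂ) ^ 2 / 2) * T.ev (X * (z * z)) +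
        T.ev (X * rest) - c ^ (A.card + 1) * T.ev G =
        c * (T.ev X - c ^ A.card * T.ev G) + (Complex.I * t * T.ev (X * z) +
          (-((t : ℂ) ^ 2 / 2) * (T.ev (X * (z * z)) - T.ev X) + T.ev (X * rest))) := by
      rw [hc]; push_cast; ring
    rw [e2]
    refine (norm_add_le _ _).trans ?_
    have a1 : ‖c * (T.ev X - c ^ A.card * T.ev G)‖ ≤
        A.card * ((16 * δ * |t| + δ * t ^ 2 + |t| ^ 3) * ‖G‖) := by
      rw [norm_mul]; exact (mul_le_of_le_one_left (norm_nonneg _) hcn).trans ih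
    refine (add_le_add a1 ((norm_add_le _ _).trans (add_le_add le_rfl (norm_add_le _ _)))).trans ?_
    rw [norm_mul, norm_mul, norm_mul, Complex.norm_I, Complex.norm_real, Real.norm_eq_abs,
      norm_neg, norm_div, norm_pow, Complex.norm_real, Real.norm_eq_abs, Complex.norm_ofNat, one_mul,
      sq_abs, Nat.cast_succ]
    have q1 : |t| * ‖T.ev (X * z)‖ ≤ |t| * (16 * δ * ‖G‖) := mul_le_mul_of_nonneg_left
      (b1.trans (mul_le_mul_of_nonneg_left hXn (by positivity))) (abs_nonneg t)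
    have q2 : t ^ 2 / 2 * ‖T.ev (X * (z * z)) - T.ev X‖ ≤ t ^ 2 * (δ * ‖G‖) :=
      mul_le_mul (by linarith [sq_nonneg t]) (b2.trans (mul_le_mul_of_nonneg_left hXn hδ.le))
        (norm_nonneg _) (sq_nonneg t)
    have q3 : ‖T.ev (X * rest)‖ ≤ ‖G‖ * |t| ^ 3 :=
      b3.trans (mul_le_mul_of_nonneg_right hXn (by positivity))
    linear_combination q1 + q2 + q3

/-- A mixed sixth moment of two disjoint families. -/
theorem sq_mixed (hL : LinearStatement.{u}) (hδ : 0 < δ) (hδ1 : δ ≤ 1) {g h : ι} {A A' : Finset κ}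
    (hAA' : Disjoint A A') :
    Q.sq ((∑ r ∈ A, B.ξ g r) * (∑ r ∈ A, B.ξ g r) * ∑ s ∈ A', B.ξ h s) ≤
      A'.card * Q.sq ((∑ r ∈ A, B.ξ g r) * ∑ r ∈ A, B.ξ g r) +
        (A'.card : ℝ) ^ 2 * ((A.card : ℝ) ^ 4 * (16 * δ)) := by
  classical
  obtain ⟨T, hT, -⟩ := exists_st Q hL
    {x | (∃ r ∈ A, B.ξ g r = x) ∨ ∃ r ∈ A', B.ξ h r = x}
    (fun x hx => by rcases hx with ⟨r, -, rfl⟩ | ⟨r, -, rfl⟩ <;> exact B.sa _ r)
    (fun x hx y hy => by
      rcases hx with ⟨r, hr, rfl⟩ | ⟨r, hr, rfl⟩ <;> rcases hy with ⟨s, hs, rfl⟩ | ⟨s, hs, rfl⟩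
      · rcases eq_or_ne r s with rfl | hne
        exacts [Commute.refl _, (B.comm g g r s hne).1]
      · exact (B.comm g h r s fun e => disjoint_left.1 hAA' hr (e ▸ hs)).1
      · exact (B.comm h g r s fun e => disjoint_left.1 hAA' hs (e ▸ hr)).1
      · rcases eq_or_ne r s with rfl | hne
        exacts [Commute.refl _, (B.comm h h r s hne).1])
  set a := ∑ r ∈ A, B.ξ g r with ha
  have haC : a ∈ T.C := sum_mem fun r hr => hT (Or.inl ⟨r, hr, rfl⟩)
  have hbC : ∀ s ∈ A', B.ξ h s ∈ T.C := fun s hs => hT (Or.inr ⟨s, hs, rfl⟩)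
  have hasa : IsSelfAdjoint a := isSelfAdjoint_sum _ fun r _ => B.sa g r
  have han : ‖a‖ ≤ A.card :=
    (norm_sum_le _ _).trans ((sum_le_card_nsmul _ _ _ fun r _ => B.norm g r).trans_eq (by simp))
  have hmC : a * a * ∑ s ∈ A', B.ξ h s ∈ T.C := mul_mem (mul_mem haC haC) (sum_mem hbC)
  set X := a * a * (a * a) with hX
  have hXC : X ∈ T.C := mul_mem (mul_mem haC haC) (mul_mem haC haC)
  have hXn : ‖X‖ ≤ (A.card : ℝ) ^ 4 := by
    have h1 : ‖a * a‖ ≤ (A.card : ℝ) * A.card :=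
      (norm_mul_le _ _).trans (mul_le_mul han han (norm_nonneg _) (by positivity))
    exact ((norm_mul_le _ _).trans (mul_le_mul h1 h1 (norm_nonneg _) (by positivity))).trans_eq
      (by ring)
  have haw : ∀ s ∈ A', a ∈ B.away {s} := fun s hs => sum_mem fun r hr =>
    B.ξ_away g (mem_singleton.not.2 fun e : r = s => disjoint_left.1 hAA' hr (e ▸ hs))
  have c := fun x hx y hy => (T.comm x hx y hy).eq
  have e0 : star (a * a * ∑ s ∈ A', B.ξ h s) * (a * a * ∑ s ∈ A', B.ξ h s) =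
      ∑ s ∈ A', ∑ s' ∈ A', X * B.ξ h s' * B.ξ h s := by
    have hb : IsSelfAdjoint (∑ s ∈ A', B.ξ h s) := isSelfAdjoint_sum _ fun s _ => B.sa h s
    rw [star_mul, hb.star_eq, star_mul, hasa.star_eq, ← mul_assoc, mul_assoc (∑ s ∈ A', B.ξ h s),
      c _ (sum_mem hbC) _ hXC, mul_assoc, sum_mul_sum, mul_sum]
    refine sum_congr rfl fun s hs => ?_
    rw [mul_sum]
    refine sum_congr rfl fun s' hs' => ?_
    rw [c _ (hbC s hs) _ (hbC s' hs'), hX]
    simp only [mul_assoc]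
  have e := T.ev_sq hmC
  rw [e0, T.ev_sum _ _ fun s hs => sum_mem fun s' hs' =>
    mul_mem (mul_mem hXC (hbC s' hs')) (hbC s hs)] at e
  have haa : star (a * a) * (a * a) = X := by rw [star_mul, hasa.star_eq]
  have b : ∀ s ∈ A', ‖T.ev (∑ s' ∈ A', X * B.ξ h s' * B.ξ h s)‖ ≤
      Q.sq (a * a) + A'.card * ((A.card : ℝ) ^ 4 * (16 * δ)) := by
    intro s hs
    rw [T.ev_sum _ _ fun s' hs' => mul_mem (mul_mem hXC (hbC s' hs')) (hbC s hs),
      ← add_sum_erase A' _ hs]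
    refine (norm_add_le _ _).trans ?_
    have hd : ‖T.ev (X * B.ξ h s * B.ξ h s)‖ ≤ Q.sq (a * a) + (A.card : ℝ) ^ 4 * (16 * δ) := by
      have h2 := B.ev_even hδ1 hδ.le T (hbC s hs) hXC
      rw [← haa, T.ev_sq (mul_mem haC haC), haa] at h2
      rw [mul_assoc]
      have h3 := norm_le_insert' (T.ev (X * (B.ξ h s * B.ξ h s))) ((Q.sq (a * a) : ℝ) : ℂ)
      rw [Complex.norm_real, Real.norm_eq_abs, abs_of_nonneg (Q.sq_nonneg _)] at h3
      nlinarith [mul_le_mul_of_nonneg_left hXn hδ.le, norm_nonneg X]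
    have ho : ‖∑ s' ∈ A'.erase s, T.ev (X * B.ξ h s' * B.ξ h s)‖ ≤
        ((A'.erase s).card : ℝ) * ((A.card : ℝ) ^ 4 * (16 * δ)) := by
      refine (norm_sum_le _ _).trans ((sum_le_card_nsmul _ _ _ fun s' hs' => ?_).trans_eq
        (nsmul_eq_mul _ _))
      have hne : s' ∈ A' := mem_of_mem_erase hs'
      refine (B.ev_odd hδ hδ1 T (hbC s hs) (mul_mem hXC (hbC s' hne)) (mul_mem ?_ ?_)).trans ?_
      · exact mul_mem (mul_mem (haw s hs) (haw s hs)) (mul_mem (haw s hs) (haw s hs))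
      · exact B.ξ_away h (mem_singleton.not.2 (ne_of_mem_erase hs'))
      · rw [mul_comm ((A.card : ℝ) ^ 4)]
        exact mul_le_mul_of_nonneg_left ((norm_mul_le _ _).trans
          ((mul_le_of_le_one_right (norm_nonneg _) (B.norm h s')).trans hXn)) (by positivity)
    refine (add_le_add hd ho).trans (le_of_eq ?_)
    rw [card_erase_of_mem hs, Nat.cast_sub (card_pos.2 ⟨s, hs⟩)]
    push_cast; ring
  have h9 : Q.sq (a * a * ∑ s ∈ A', B.ξ h s) =
      ‖((Q.sq (a * a * ∑ s ∈ A', B.ξ h s) : ℝ) : ℂ)‖ := by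
    rw [Complex.norm_real, Real.norm_eq_abs, abs_of_nonneg (Q.sq_nonneg _)]
  rw [h9, ← e]
  refine (norm_sum_le _ _).trans ((sum_le_card_nsmul _ _ _ b).trans (le_of_eq ?_))
  rw [nsmul_eq_mul]; ring

end Blk

end Vale.Agent.P095.General.Fair
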