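import Vale.Agent.P095.General.Fair.Real

/-!
The second order expansion of one piece.
-/

noncomputable section

open Finset Filter Topology
open scoped BoundedContinuousFunction

namespace Vale.Agent.P095.General.Fair

attribute [local instance] CStarAlgebra.spectralOrder CStarAlgebra.spectralOrderedRing

universe u v

namespace Ctx.Rz

variable {D : Type u} [CStarAlgebra D] {ι : Type v} {I : Type} {c : Ctx D ι I}
  {M : Type u} [CStarAlgebra M] (Z : c.Rz M)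

lemma φ_one_sq : c.R.sq (1 : ℕ →ᵇ D) = 1 := by
  rw [QT.sq_eq, star_one, one_mul, c.R.one]

lemma phi_w (a : I) (g : ι) {l b : ℕ} (hb : b < 2 ^ l) {X : ↥c.M0}
    (hX : (X : ℕ →ᵇ D) ∈ c.Out a l b) (t : ℝ) :
    Z.φ (Z.π X * Z.w a g l b t) = (Real.exp (-(t ^ 2) / 2) : ℂ) * Z.φ (Z.π X) := by
  rw [w, ← map_mul, Z.hφ, Z.hφ]
  exact c.law_one g hb hX t

lemma phi_w_one (a : I) (g : ι) {l b : ℕ} (hb : b < 2 ^ l) (t : ℝ) :
    Z.φ (Z.w a g l b t) = (Real.exp (-(t ^ 2) / 2) : ℂ) := by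
  have h := Z.phi_w a g hb (X := 1) (by
    show (1 : ℕ →ᵇ D) ∈ _
    exact one_mem _) t
  rwa [map_one, one_mul, Z.one, mul_one] at h

include Z in
lemma sq_w_sub_one (a : I) (g : ι) {l b : ℕ} (hb : b < 2 ^ l) (t : ℝ) :
    c.R.sq ((c.Wm a g l b t - 1 : ↥c.M0) : ℕ →ᵇ D) ≤ t ^ 2 := by
  have h := Z.sq_eq (c.Wm a g l b t - 1)
  have e : star (Z.π (c.Wm a g l b t - 1)) * Z.π (c.Wm a g l b t - 1) =
      (2 : ℂ) • (1 : M) - Z.w a g l b t - Z.w a g l b (-t) := by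
    have h1 : Z.w a g l b (-t) * Z.w a g l b t = 1 := by
      rw [w, w, ← map_mul, c.W_add, neg_add_cancel, c.W_zero, map_one]
    rw [map_sub, map_one, star_sub, star_one, ← map_star, c.W_star]
    simp only [← w.eq_def Z]
    rw [sub_mul, mul_sub, mul_one, one_mul, two_smul, h1]
    abel
  rw [e, map_sub, map_sub, map_smul, Z.one, Z.phi_w_one a g hb, Z.phi_w_one a g hb, neg_sq] at h
  have h' := congrArg Complex.re h
  simp only [smul_eq_mul, mul_one, Complex.sub_re, Complex.ofReal_re, Complex.re_ofNat] at h'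
  rw [← h']
  have := Real.add_one_le_exp (-(t ^ 2) / 2)
  linarith

lemma norm_seq_one : ‖(1 : ↥c.M0)‖ ≤ 1 :=
  (BoundedContinuousFunction.norm_le zero_le_one).2 fun _ => by
    show ‖(1 : D)‖ ≤ 1
    rcases subsingleton_or_nontrivial D with _ | _
    · rw [Subsingleton.elim (1 : D) 0, norm_zero]; exact zero_le_one
    · rw [norm_one]

/-- The linearised factor of one piece. -/
def pm (c : Ctx D ι I) (a : I) (g h : ι) (l b : ℕ) (σ lam : ℝ) : ↥c.M0 :=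
  ((1 - lam ^ 2 : ℝ) : ℂ) • (1 : ↥c.M0) - ((σ * lam ^ 2 : ℝ) : ℂ) • c.Km a g h l b

/-- The product of the two exponentials of one piece. -/
def vm (c : Ctx D ι I) (a : I) (g h : ι) (l b : ℕ) (σ lam : ℝ) : ↥c.M0 :=
  c.Wm a g l b lam * c.Wm a h l b (σ * lam)

lemma norm_pm (a : I) (g h : ι) (l b : ℕ) {σ lam : ℝ} (hσ : |σ| = 1) (hlam : |lam| ≤ 1) :
    ‖pm c a g h l b σ lam‖ ≤ 1 := by
  have h2 : lam ^ 2 ≤ 1 := by rw [← sq_abs]; exact pow_le_one₀ (abs_nonneg _) hlam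
  refine (norm_sub_le _ _).trans ?_
  rw [norm_smul, norm_smul, Complex.norm_real, Complex.norm_real, Real.norm_eq_abs, Real.norm_eq_abs,
    abs_mul σ, hσ, one_mul, abs_of_nonneg (sub_nonneg.2 h2), abs_of_nonneg (sq_nonneg lam)]
  have := mul_le_mul_of_nonneg_left (norm_seq_one (c := c)) (sub_nonneg.2 h2)
  have := mul_le_mul_of_nonneg_left (c.norm_Km a g h l b) (sq_nonneg lam)
  linarith

lemma norm_vm (a : I) (g h : ι) (l b : ℕ) (σ lam : ℝ) : ‖vm c a g h l b σ lam‖ ≤ 1 :=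
  (norm_mul_le _ _).trans (mul_le_one₀ (c.norm_Wm _ _ _ _ _) (norm_nonneg _) (c.norm_Wm _ _ _ _ _))

include Z in
lemma sq_diff (a : I) (g h : ι) {l b : ℕ} (hb : b < 2 ^ l) {σ lam : ℝ} (hσ : |σ| = 1)
    (hlam : |lam| ≤ 1) :
    c.R.sq ((vm c a g h l b σ lam - pm c a g h l b σ lam : ↥c.M0) : ℕ →ᵇ D) ≤ (11 * |lam|) ^ 2 := by
  set s : ℝ := |lam| with hs
  have hs0 : 0 ≤ s := abs_nonneg _
  set A : ℝ := (4 * s ^ 2) ^ ((3 : ℝ)⁻¹) with hA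
  have hA0 : 0 ≤ A := Real.rpow_nonneg (by positivity) _
  have hA3 : A ^ 3 = 4 * s ^ 2 := by
    rw [hA, ← Real.rpow_natCast, ← Real.rpow_mul (by positivity)]; norm_num
  have h2 : lam ^ 2 = s ^ 2 := (sq_abs lam).symm
  set x : ↥c.M0 := (c.Wm a g l b lam - 1) * c.Wm a h l b (σ * lam)
  set y : ↥c.M0 := c.Wm a h l b (σ * lam) - 1
  set z : ↥c.M0 := ((lam ^ 2 : ℝ) : ℂ) • (1 : ↥c.M0) + ((σ * lam ^ 2 : ℝ) : ℂ) • c.Km a g h l b
  have e : vm c a g h l b σ lam - pm c a g h l b σ lam = x + y + z := by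
    simp only [vm, pm, x, y, z]
    push_cast
    rw [sub_mul, one_mul, sub_smul, one_smul]
    abel
  have hx : c.R.sq (x : ℕ →ᵇ D) ≤ A ^ 3 := by
    rw [hA3]
    refine (sq_mul_right c.R _ _).trans ((mul_le_of_le_one_right (c.R.sq_nonneg _)
      (pow_le_one₀ (norm_nonneg _) (c.norm_Wm a h l b (σ * lam)))).trans ?_)
    refine (Z.sq_w_sub_one a g hb lam).trans ?_
    rw [h2]; nlinarith
  have hy : c.R.sq (y : ℕ →ᵇ D) ≤ A ^ 3 := by
    rw [hA3]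
    refine (Z.sq_w_sub_one a h hb (σ * lam)).trans ?_
    rw [mul_pow, ← sq_abs σ, hσ, h2]; nlinarith
  have hz : c.R.sq (z : ℕ →ᵇ D) ≤ A ^ 3 := by
    rw [hA3]
    refine (c.R.sq_le_norm _).trans ?_
    have hn : ‖z‖ ≤ 2 * s ^ 2 := by
      refine (norm_add_le _ _).trans ?_
      rw [norm_smul, norm_smul, Complex.norm_real, Complex.norm_real, Real.norm_eq_abs,
        Real.norm_eq_abs, abs_mul σ, hσ, one_mul, abs_of_nonneg (sq_nonneg lam), h2]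
      have := mul_le_mul_of_nonneg_left (norm_seq_one (c := c)) (sq_nonneg s)
      have := mul_le_mul_of_nonneg_left (c.norm_Km a g h l b) (sq_nonneg s)
      linarith
    refine (pow_le_pow_left₀ (norm_nonneg _) hn 2).trans ?_
    have h4 : s ^ 2 ≤ 1 := pow_le_one₀ hs0 hlam
    nlinarith
  rw [e, show ((x + y + z : ↥c.M0) : ℕ →ᵇ D) =
    ((x : ℕ →ᵇ D) + (y : ℕ →ᵇ D)) + (z : ℕ →ᵇ D) from rfl]
  refine (sq_add_le c.R (by positivity) hA0 (sq_add_le c.R hA0 hA0 hx hy) hz).trans ?_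
  rw [show (A + A + A) ^ 3 = 27 * A ^ 3 by ring, hA3]
  nlinarith

/-- The even part of an exponential, less one. -/
def dm (c : Ctx D ι I) (a : I) (u : ι) (l b : ℕ) (lam : ℝ) : ↥c.M0 :=
  (2 : ℂ)⁻¹ • (c.Wm a u l b lam + c.Wm a u l b (-lam)) - 1

/-- The image of the even part. -/
def dM (a : I) (u : ι) (l b : ℕ) (lam : ℝ) : M :=
  (2 : ℂ)⁻¹ • (Z.w a u l b lam + Z.w a u l b (-lam)) - 1

/-- The image of the odd part. -/
def tM (a : I) (u : ι) (l b : ℕ) (lam : ℝ) : M := Z.π (c.Tm' a u l b lam)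

lemma dM_eq (a : I) (u : ι) (l b : ℕ) (lam : ℝ) :
    Z.dM a u l b lam = Z.π (dm c a u l b lam) := by
  simp only [dM, dm, map_sub, map_smul, map_add, map_one, w]

lemma w_eq (a : I) (u : ι) (l b : ℕ) {lam : ℝ} (hl0 : lam ≠ 0) {τ : ℝ} (hτ : τ = 1 ∨ τ = -1) :
    Z.w a u l b (τ * lam) = 1 + Z.dM a u l b lam + (Complex.I * τ * lam) • Z.tM a u l b lam := by
  have ec : Complex.I * τ * lam * ((2 : ℂ) * Complex.I * lam)⁻¹ = (τ : ℂ) * (2 : ℂ)⁻¹ := by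
    have : (lam : ℂ) ≠ 0 := Complex.ofReal_ne_zero.2 hl0
    field_simp
  simp only [dM, tM, c.Tm'_eq, map_smul, map_sub, smul_smul, ec, ← w.eq_def Z, add_sub_cancel]
  rcases hτ with rfl | rfl
  · rw [one_mul]; push_cast; module
  · rw [neg_one_mul]; push_cast; module

lemma sq_dm (Z : c.Rz M) (a : I) (u : ι) {l b : ℕ} (hb : b < 2 ^ l) (lam : ℝ) :
    c.R.sq (dm c a u l b lam : ℕ →ᵇ D) ≤ 2 * lam ^ 4 := by
  have h := Z.sq_eq (dm c a u l b lam)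
  have hww : ∀ s s' : ℝ, Z.w a u l b s * Z.w a u l b s' = Z.w a u l b (s + s') := fun s s' => by
    rw [w, w, ← map_mul, c.W_add]; rfl
  have e : star (Z.π (dm c a u l b lam)) * Z.π (dm c a u l b lam) =
      (4 : ℂ)⁻¹ • (Z.w a u l b (lam + lam) + Z.w a u l b (-lam + -lam)) +
        (3 / 2 : ℂ) • (1 : M) - Z.w a u l b lam - Z.w a u l b (-lam) := by
    have hs : star (Z.dM a u l b lam) = Z.dM a u l b lam := by
      simp only [dM, star_sub, star_smul, star_add, star_one, w, ← map_star, c.W_star, neg_neg]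
      simp [add_comm]
    rw [← Z.dM_eq, hs]
    have h1 : Z.w a u l b (lam + -lam) = 1 ∧ Z.w a u l b (-lam + lam) = 1 := by
      rw [add_neg_cancel, neg_add_cancel, w, c.W_zero, map_one]; exact ⟨rfl, rfl⟩
    simp only [dM, sub_mul, mul_sub, smul_mul_smul_comm, add_mul, mul_add, hww, h1.1, h1.2, one_mul,
      mul_one]
    module
  rw [e, map_sub, map_sub, map_add, map_smul, map_add, map_smul, Z.one, Z.phi_w_one a u hb,
    Z.phi_w_one a u hb, Z.phi_w_one a u hb, Z.phi_w_one a u hb, neg_sq,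
    show (-lam + -lam) ^ 2 = (lam + lam) ^ 2 by ring, smul_eq_mul, smul_eq_mul] at h
  have h' : (4 : ℝ)⁻¹ * (Real.exp (-((lam + lam) ^ 2) / 2) + Real.exp (-((lam + lam) ^ 2) / 2)) +
      3 / 2 * 1 - Real.exp (-(lam ^ 2) / 2) - Real.exp (-(lam ^ 2) / 2) =
      c.R.sq (dm c a u l b lam : ℕ →ᵇ D) := by
    apply Complex.ofReal_injective
    push_cast
    convert h using 1
    push_cast
    ring
  rw [← h']
  set y := lam ^ 2 with hy
  have hy0 : 0 ≤ y := sq_nonneg _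
  have a2 := Real.add_one_le_exp (-y / 2)
  have a1 : Real.exp (-((lam + lam) ^ 2) / 2) ≤ 1 - 2 * y + 4 * y ^ 2 := by
    rw [show -((lam + lam) ^ 2) / 2 = -(2 * y) by rw [hy]; ring]
    have h3 : Real.exp (-(2 * y)) * (1 + 2 * y) ≤ 1 := by
      have h4 := Real.add_one_le_exp (2 * y)
      calc Real.exp (-(2 * y)) * (1 + 2 * y) ≤ Real.exp (-(2 * y)) * Real.exp (2 * y) :=
            mul_le_mul_of_nonneg_left (by linarith) (Real.exp_pos _).le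
        _ = 1 := by rw [← Real.exp_add, neg_add_cancel, Real.exp_zero]
    by_contra hc
    rw [not_le] at hc
    nlinarith [mul_lt_mul_of_pos_right hc (show (0 : ℝ) < 1 + 2 * y by linarith), pow_nonneg hy0 3]
  have : lam ^ 4 = y ^ 2 := by rw [hy]; ring
  rw [this]
  linarith

include Z in
lemma sq_tm (a : I) (u : ι) {l b : ℕ} (hb : b < 2 ^ l) {lam : ℝ} (hl0 : lam ≠ 0) :
    c.R.sq (((lam : ℂ) • c.Tm' a u l b lam : ↥c.M0) : ℕ →ᵇ D) ≤ 2 * lam ^ 2 := by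
  have e : (lam : ℂ) • c.Tm' a u l b lam =
      (2 * Complex.I)⁻¹ • ((c.Wm a u l b lam - 1) - (c.Wm a u l b (-lam) - 1)) := by
    rw [c.Tm'_eq, smul_smul, sub_sub_sub_cancel_right]
    congr 1
    have : (lam : ℂ) ≠ 0 := Complex.ofReal_ne_zero.2 hl0
    field_simp
  rw [e, SetLike.val_smul, sq_smul]
  have b1 := Z.sq_w_sub_one a u hb lam
  have b2 := Z.sq_w_sub_one a u hb (-lam)
  rw [neg_sq] at b2
  have hd' : c.R.sq (((c.Wm a u l b lam - 1) - (c.Wm a u l b (-lam) - 1) : ↥c.M0) : ℕ →ᵇ D) ≤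
      8 * lam ^ 2 := by
    have h := q_add_le c.R ((c.Wm a u l b lam - 1 : ↥c.M0) : ℕ →ᵇ D)
      (-((c.Wm a u l b (-lam) - 1 : ↥c.M0) : ℕ →ᵇ D)) one_pos
    have hn : ∀ z : ℕ →ᵇ D, c.R.sq (-z) = c.R.sq z := fun z => by
      rw [QT.sq_eq, QT.sq_eq, star_neg, neg_mul_neg]
    rw [← sub_eq_add_neg, hn] at h
    show c.R.sq (((c.Wm a u l b lam - 1 : ↥c.M0) : ℕ →ᵇ D) -
      ((c.Wm a u l b (-lam) - 1 : ↥c.M0) : ℕ →ᵇ D)) ≤ _
    refine h.trans ?_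
    linarith
  rw [norm_inv, norm_mul, Complex.norm_ofNat, Complex.norm_I, mul_one]
  have h8 := mul_le_mul_of_nonneg_left hd' (by positivity : (0 : ℝ) ≤ (2⁻¹) ^ 2)
  linarith

lemma expand (a : I) (g h : ι) (l b : ℕ) {σ lam : ℝ} (hσ : σ = 1 ∨ σ = -1) (hl0 : lam ≠ 0) :
    Z.π (vm c a g h l b σ lam - pm c a g h l b σ lam) =
      (Z.dM a g l b lam + Z.dM a h l b lam + ((lam ^ 2 : ℝ) : ℂ) • (1 : M)) +
        (Complex.I * lam) • Z.tM a g l b lam + (Complex.I * σ * lam) • Z.tM a h l b lam +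
        Z.dM a g l b lam * Z.dM a h l b lam +
        (Complex.I * σ) • (Z.dM a g l b lam * ((lam : ℂ) • Z.tM a h l b lam)) +
        Complex.I • (Z.dM a h l b lam * ((lam : ℂ) • Z.tM a g l b lam)) -
        ((σ * lam ^ 2 : ℝ) : ℂ) • (Z.tM a g l b lam * Z.tM a h l b lam - Z.k a g h l b) := by
  let cr : CommRing M := { (inferInstance : Ring M) with mul_comm := Z.comm }
  have hg := Z.w_eq a g l b hl0 (τ := 1) (Or.inl rfl)
  rw [one_mul, Complex.ofReal_one, mul_one] at hg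
  have hh := Z.w_eq a h l b hl0 hσ
  rw [map_sub, vm, pm, map_mul, map_sub, map_smul, map_smul, map_one, ← w.eq_def Z, ← w.eq_def Z,
    ← k.eq_def Z, hg, hh]
  simp only [Algebra.smul_def, map_mul, map_sub, map_one, map_pow, Complex.ofReal_mul,
    Complex.ofReal_pow, Complex.ofReal_sub, Complex.ofReal_one, mul_one]
  have hI : algebraMap ℂ M Complex.I * algebraMap ℂ M Complex.I = -1 := by
    rw [← map_mul, Complex.I_mul_I, map_neg, map_one]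
  linear_combination (algebraMap ℂ M (σ : ℂ) * algebraMap ℂ M (lam : ℂ) ^ 2 * Z.tM a g l b lam * Z.tM a h l b lam) * hI

omit Z in
lemma phi_comb (φ : M →ₗ[ℂ] ℂ) (P d₁ d₂ t₁ t₂ k : M) (w₀ w₁ w₂ w₃ w₄ : ℂ) {a₁ a₂ a₃ a₃' a₄ : ℝ}
    (ht₁ : φ (P * t₁) = 0) (ht₂ : φ (P * t₂) = 0) (h₁ : ‖φ (P * (d₁ + d₂ + w₀ • 1))‖ ≤ a₁)
    (h₂ : ‖φ (P * (d₁ * d₂))‖ ≤ a₂) {w : ℂ} (h₃ : ‖w₃‖ * ‖φ (P * (d₁ * (w • t₂)))‖ ≤ a₃)
    (h₃' : ‖φ (P * (d₂ * (w • t₁)))‖ ≤ a₃') (h₄ : ‖w₄‖ * ‖φ (P * (t₁ * t₂ - k))‖ ≤ a₄) :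
    ‖φ (P * ((d₁ + d₂ + w₀ • 1) + w₁ • t₁ + w₂ • t₂ + d₁ * d₂ + w₃ • (d₁ * (w • t₂)) +
      Complex.I • (d₂ * (w • t₁)) - w₄ • (t₁ * t₂ - k)))‖ ≤ a₁ + a₂ + a₃ + a₃' + a₄ := by
  set S := d₁ + d₂ + w₀ • (1 : M)
  set u := d₁ * (w • t₂)
  set u' := d₂ * (w • t₁)
  set v := t₁ * t₂ - k
  set r := d₁ * d₂
  clear_value S u u' v r
  simp only [mul_sub, mul_add, mul_smul_comm, map_sub, map_add, map_smul, ht₁, ht₂, smul_zero,
    add_zero]
  refine (norm_sub_le _ _).trans (add_le_add ((norm_add_le _ _).trans (add_le_add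
    ((norm_add_le _ _).trans (add_le_add ((norm_add_le _ _).trans (add_le_add h₁ h₂)) ?_)) ?_)) ?_)
  · rwa [norm_smul]
  · rwa [norm_smul, Complex.norm_I, one_mul]
  · rwa [norm_smul]

lemma phi_tM (a : I) (u : ι) {l b : ℕ} (hb : b < 2 ^ l) (lam : ℝ) {X : ↥c.M0}
    (hX : (X : ℕ →ᵇ D) ∈ c.Out a l b) : Z.φ (Z.π X * Z.tM a u l b lam) = 0 := by
  rw [tM, ← map_mul, Z.hφ]
  exact c.ev_mul_Ts u hb hX lam

lemma phi_lin (a : I) (g h : ι) {l b : ℕ} (hb : b < 2 ^ l) {lam : ℝ} (hlam1 : |lam| ≤ 1)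
    {X : ↥c.M0} (hX : (X : ℕ →ᵇ D) ∈ c.Out a l b) :
    ‖Z.φ (Z.π X * (Z.dM a g l b lam + Z.dM a h l b lam + ((lam ^ 2 : ℝ) : ℂ) • (1 : M)))‖ ≤
      ‖X‖ * lam ^ 4 := by
  set e0 : ℝ := Real.exp (-(lam ^ 2) / 2) with he0
  have hdg : ∀ u, Z.φ (Z.π X * Z.dM a u l b lam) = ((e0 - 1 : ℝ) : ℂ) * Z.φ (Z.π X) := fun u => by
    simp only [dM]
    rw [mul_sub, mul_smul_comm, mul_add, map_sub, map_smul, map_add, mul_one, Z.phi_w a u hb hX,
      Z.phi_w a u hb hX, neg_sq, ← he0, smul_eq_mul]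
    push_cast; ring
  rw [mul_add, mul_add, mul_smul_comm, mul_one, map_add, map_add, map_smul, hdg, hdg, smul_eq_mul,
    ← add_mul, ← add_mul, norm_mul, ← Complex.ofReal_add, ← Complex.ofReal_add, Complex.norm_real,
    Real.norm_eq_abs, mul_comm]
  have hφP : ‖Z.φ (Z.π X)‖ ≤ ‖X‖ := by
    have h := Z.bound X 1
    rw [map_one, mul_one, OneMemClass.coe_one, φ_one_sq, Real.sqrt_one, mul_one] at h
    exact h
  refine mul_le_mul hφP ?_ (abs_nonneg _) (norm_nonneg _)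
  have hy1 : lam ^ 2 ≤ 1 := by rw [← sq_abs]; exact pow_le_one₀ (abs_nonneg _) hlam1
  have hu : |-(lam ^ 2) / 2| ≤ 1 := by rw [abs_le]; constructor <;> nlinarith [sq_nonneg lam]
  have h1 := Real.abs_exp_sub_one_sub_id_le hu
  rw [show e0 - 1 + (e0 - 1) + lam ^ 2 = 2 * (e0 - 1 - -(lam ^ 2) / 2) by ring, abs_mul,
    abs_of_pos two_pos]
  refine (mul_le_mul_of_nonneg_left h1 zero_le_two).trans ?_
  nlinarith [sq_nonneg (lam ^ 2)]

include Z in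
lemma sqrt_dm (a : I) (u : ι) {l b : ℕ} (hb : b < 2 ^ l) (lam : ℝ) :
    Real.sqrt (c.R.sq (dm c a u l b lam : ℕ →ᵇ D)) ≤ 2 * lam ^ 2 :=
  (Real.sqrt_le_left (by positivity)).2 ((Z.sq_dm a u hb lam).trans (by nlinarith [sq_nonneg (lam ^ 2)]))

lemma phi_dd (a : I) (g h : ι) {l b : ℕ} (hb : b < 2 ^ l) (lam : ℝ) (X : ↥c.M0) :
    ‖Z.φ (Z.π X * (Z.dM a g l b lam * Z.dM a h l b lam))‖ ≤ ‖X‖ * (4 * lam ^ 4) := by
  rw [← mul_assoc, Z.dM_eq, Z.dM_eq]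
  refine (Z.bound2 X (dm c a g l b lam) (dm c a h l b lam)).trans ?_
  rw [mul_assoc]
  refine mul_le_mul_of_nonneg_left ((mul_le_mul (Z.sqrt_dm a g hb lam) (Z.sqrt_dm a h hb lam)
    (Real.sqrt_nonneg _) (by positivity)).trans (le_of_eq (by ring))) (norm_nonneg _)

lemma phi_dt (a : I) (g h : ι) {l b : ℕ} (hb : b < 2 ^ l) {lam : ℝ} (hl0 : lam ≠ 0) (X : ↥c.M0) :
    ‖Z.φ (Z.π X * (Z.dM a g l b lam * ((lam : ℂ) • Z.tM a h l b lam)))‖ ≤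
      ‖X‖ * (4 * |lam| ^ 3) := by
  rw [← mul_assoc, Z.dM_eq, show (lam : ℂ) • Z.tM a h l b lam = Z.π ((lam : ℂ) • c.Tm' a h l b lam) by
    rw [map_smul]; rfl]
  refine (Z.bound2 X (dm c a g l b lam) _).trans ?_
  rw [mul_assoc]
  have s2 : Real.sqrt (c.R.sq (((lam : ℂ) • c.Tm' a h l b lam : ↥c.M0) : ℕ →ᵇ D)) ≤ 2 * |lam| :=
    (Real.sqrt_le_left (by positivity)).2 ((Z.sq_tm a h hb hl0).trans (by
      rw [mul_pow, sq_abs]; nlinarith [sq_nonneg lam]))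
  refine mul_le_mul_of_nonneg_left ((mul_le_mul (Z.sqrt_dm a g hb lam) s2 (Real.sqrt_nonneg _)
    (by positivity)).trans (le_of_eq (by rw [← sq_abs lam]; ring))) (norm_nonneg _)

lemma phi_tt {η θ₀ : ℝ} (hθ : ∀ θ : ℝ, 0 < θ → θ ≤ θ₀ →
    ∀ (a : I) (g h : ι) (l b : ℕ), b < 2 ^ l → ∀ G ∈ c.Out a l b,
      ‖c.ev (G * (c.Ts a g l b θ * c.Ts a h l b θ - c.Kp a g h l b))‖ ≤ η * ‖G‖)
    (a : I) (g h : ι) {l b : ℕ} (hb : b < 2 ^ l) {lam : ℝ} (hl0 : lam ≠ 0) (hlam : |lam| ≤ θ₀)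
    {X : ↥c.M0} (hX : (X : ℕ →ᵇ D) ∈ c.Out a l b) :
    ‖Z.φ (Z.π X * (Z.tM a g l b lam * Z.tM a h l b lam - Z.k a g h l b))‖ ≤ η * ‖X‖ := by
  have hpos : 0 < |lam| := abs_pos.2 hl0
  have e : ∀ u, c.Tm' a u l b lam = c.Tm' a u l b |lam| := fun u => by
    rcases abs_choice lam with h | h <;> rw [h]
    rw [c.Tm'_neg]
  rw [tM, tM, k, e, e, ← map_mul, ← map_sub, ← map_mul, Z.hφ]
  exact hθ _ hpos hlam a g h l b hb _ hX

/-- The expansion of one piece. -/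
theorem step {η θ₀ : ℝ} (hη : 0 ≤ η) (hθ : ∀ θ : ℝ, 0 < θ → θ ≤ θ₀ →
    ∀ (a : I) (g h : ι) (l b : ℕ), b < 2 ^ l → ∀ G ∈ c.Out a l b,
      ‖c.ev (G * (c.Ts a g l b θ * c.Ts a h l b θ - c.Kp a g h l b))‖ ≤ η * ‖G‖)
    (a : I) (g h : ι) {l b : ℕ} (hb : b < 2 ^ l) {σ lam : ℝ} (hσ : σ = 1 ∨ σ = -1)
    (hlam : |lam| ≤ θ₀) (hlam1 : |lam| ≤ 1) {X : ↥c.M0} (hX : (X : ℕ →ᵇ D) ∈ c.Out a l b) :
    ‖Z.φ (Z.π X * Z.π (vm c a g h l b σ lam - pm c a g h l b σ lam))‖ ≤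
      ‖X‖ * (η * lam ^ 2 + 13 * |lam| ^ 3) := by
  rcases eq_or_ne lam 0 with rfl | hl0
  · have e : vm c a g h l b σ 0 - pm c a g h l b σ 0 = 0 := by
      simp [vm, pm, c.W_zero]
    rw [e, map_zero, mul_zero, map_zero, norm_zero]
    positivity
  have hσ' : |σ| = 1 := by rcases hσ with rfl | rfl <;> simp
  rw [Z.expand a g h l b hσ hl0]
  refine (phi_comb Z.φ (Z.π X) _ _ _ _ _ _ _ _ _ _ (a₃ := ‖X‖ * (4 * |lam| ^ 3))
    (a₄ := lam ^ 2 * (η * ‖X‖)) (Z.phi_tM a g hb lam hX) (Z.phi_tM a h hb lam hX)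
    (Z.phi_lin a g h hb hlam1 hX) (Z.phi_dd a g h hb lam X) ?_ (Z.phi_dt a h g hb hl0 X) ?_).trans ?_
  · rw [norm_mul, Complex.norm_I, one_mul, Complex.norm_real, Real.norm_eq_abs, hσ', one_mul]
    exact Z.phi_dt a g h hb hl0 X
  · rw [Complex.norm_real, Real.norm_eq_abs, abs_mul, hσ', one_mul, abs_of_nonneg (sq_nonneg _)]
    exact mul_le_mul_of_nonneg_left (Z.phi_tt hθ a g h hb hl0 hlam hX) (sq_nonneg _)
  · have h4 : lam ^ 4 ≤ |lam| ^ 3 := by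
      rw [show lam ^ 4 = |lam| ^ 4 by rw [pow_abs]; exact (abs_of_nonneg (by positivity)).symm]
      exact pow_le_pow_of_le_one (abs_nonneg _) hlam1 (by norm_num)
    have := mul_le_mul_of_nonneg_left h4 (norm_nonneg X)
    nlinarith [norm_nonneg X]

end Ctx.Rz

end Vale.Agent.P095.General.Fair
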